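import Vale.Agent.Lib.P368.Corr

open Matrix Finset
open scoped ComplexOrder

set_option linter.unusedSectionVars false

namespace Vale.Agent.P368

variable {Q : Type} [Fintype Q] [DecidableEq Q]

/-- state vectors -/
abbrev EQ (Q : Type) := EuclideanSpace ℂ (Q → Bool)

/-- action of a matrix on a state vector -/
noncomputable def act (A : MQ Q) (v : EQ Q) : EQ Q := WithLp.toLp 2 (A *ᵥ v.ofLp)

lemma act_apply (A : MQ Q) (v : EQ Q) (ω : Q → Bool) : act A v ω = ∑ η, A ω η * v η := rfl

lemma act_mul (A B : MQ Q) (v : EQ Q) : act (A * B) v = act A (act B v) := by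
  unfold act
  simp [Matrix.mulVec_mulVec]

lemma act_one (v : EQ Q) : act 1 v = v := by
  unfold act
  simp

lemma act_add (A B : MQ Q) (v : EQ Q) : act (A + B) v = act A v + act B v := by
  unfold act
  rw [Matrix.add_mulVec]; rfl

lemma act_sub (A B : MQ Q) (v : EQ Q) : act (A - B) v = act A v - act B v := by
  unfold act
  rw [Matrix.sub_mulVec]; rfl

lemma act_smul (c : ℂ) (A : MQ Q) (v : EQ Q) : act (c • A) v = c • act A v := by
  unfold act
  rw [Matrix.smul_mulVec]; rfl

lemma act_vadd (A : MQ Q) (v w : EQ Q) : act A (v + w) = act A v + act A w := by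
  unfold act
  rw [WithLp.ofLp_add, Matrix.mulVec_add]; rfl

lemma act_vsub (A : MQ Q) (v w : EQ Q) : act A (v - w) = act A v - act A w := by
  unfold act
  rw [WithLp.ofLp_sub, Matrix.mulVec_sub]; rfl

lemma act_vsmul (A : MQ Q) (c : ℂ) (v : EQ Q) : act A (c • v) = c • act A v := by
  unfold act
  rw [WithLp.ofLp_smul, Matrix.mulVec_smul]; rfl

lemma act_vsum {ι : Type} (A : MQ Q) (s : Finset ι) (v : ι → EQ Q) :
    act A (∑ i ∈ s, v i) = ∑ i ∈ s, act A (v i) := by
  classical
  induction s using Finset.induction_on with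
  | empty =>
    simp only [Finset.sum_empty]
    unfold act
    simp
  | insert a s ha ih => rw [Finset.sum_insert ha, act_vadd, ih, Finset.sum_insert ha]

lemma inner_act (A : MQ Q) (u v : EQ Q) : inner ℂ (act A u) v = inner ℂ u (act Aᴴ v) := by
  simp only [PiLp.inner_apply, RCLike.inner_apply, act_apply, map_sum, map_mul,
    Matrix.conjTranspose_apply, Finset.mul_sum, Finset.sum_mul]
  rw [Finset.sum_comm]
  apply Finset.sum_congr rfl
  intro i _
  apply Finset.sum_congr rfl
  intro j _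
  simp only [RCLike.star_def]
  ring

lemma inner_act' (A : MQ Q) (u v : EQ Q) : inner ℂ u (act A v) = inner ℂ (act Aᴴ u) v := by
  rw [inner_act, Matrix.conjTranspose_conjTranspose]

lemma norm_act_isom {A : MQ Q} (h : Aᴴ * A = 1) (v : EQ Q) : ‖act A v‖ = ‖v‖ := by
  have : ‖act A v‖ ^ 2 = ‖v‖ ^ 2 := by
    have e1 : inner ℂ (act A v) (act A v) = inner ℂ v v := by
      rw [inner_act, ← act_mul, h, act_one]
    rw [inner_self_eq_norm_sq_to_K, inner_self_eq_norm_sq_to_K] at e1
    exact_mod_cast e1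
  exact (sq_eq_sq₀ (norm_nonneg _) (norm_nonneg _)).mp this

/-- orthogonal projector -/
def IsPr (P : MQ Q) : Prop := Pᴴ = P ∧ P * P = P

lemma IsPr.norm_sq {P : MQ Q} (h : IsPr P) (v : EQ Q) :
    ((‖act P v‖ ^ 2 : ℝ) : ℂ) = inner ℂ v (act P v) := by
  have : inner ℂ (act P v) (act P v) = inner ℂ v (act P v) := by
    rw [inner_act, h.1, ← act_mul, h.2]
  rw [← this, inner_self_eq_norm_sq_to_K]
  push_cast
  rfl

lemma IsPr.norm_le {P : MQ Q} (h : IsPr P) (v : EQ Q) : ‖act P v‖ ≤ ‖v‖ := by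
  have e := h.norm_sq v
  have h1 : ‖act P v‖ ^ 2 ≤ ‖v‖ * ‖act P v‖ := by
    have : ‖inner ℂ v (act P v)‖ ≤ ‖v‖ * ‖act P v‖ := norm_inner_le_norm _ _
    rw [← e, Complex.norm_real, Real.norm_of_nonneg (by positivity)] at this
    exact this
  rcases eq_or_lt_of_le (norm_nonneg (act P v)) with h0 | hpos
  · rw [← h0]; exact norm_nonneg _
  · rw [sq] at h1
    exact le_of_mul_le_mul_right h1 hpos

end Vale.Agent.P368
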