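import Vale.Agent.Lib.P368.Refl

open Matrix Finset
open scoped ComplexOrder

set_option linter.unusedSectionVars false

namespace Vale.Agent.P368

/-! ### one-qubit estimates -/

/-- Frobenius norm squared of a matrix -/
noncomputable def fro2 (A : M2) : ℝ := ∑ i, ∑ j, ‖A i j‖ ^ 2

lemma fro2_eq (A : M2) : ((fro2 A : ℝ) : ℂ) = (Aᴴ * A).trace := by
  simp only [fro2, Matrix.trace, Matrix.diag_apply, Matrix.mul_apply, Matrix.conjTranspose_apply]
  rw [Finset.sum_comm]
  push_cast
  apply Finset.sum_congr rfl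
  intro j _
  apply Finset.sum_congr rfl
  intro i _
  have := Complex.conj_mul' (A i j)
  simp only [RCLike.star_def]
  rw [this]

lemma fro2_nonneg (A : M2) : 0 ≤ fro2 A := by
  unfold fro2
  positivity

lemma trace_cs (A B : M2) : ‖(Aᴴ * B).trace‖ ^ 2 ≤ fro2 A * fro2 B := by
  have h1 : ‖(Aᴴ * B).trace‖ ≤ ∑ p : Bool × Bool, ‖A p.1 p.2‖ * ‖B p.1 p.2‖ := by
    have : (Aᴴ * B).trace = ∑ p : Bool × Bool, star (A p.1 p.2) * B p.1 p.2 := by
      simp only [Matrix.trace, Matrix.diag_apply, Matrix.mul_apply, Matrix.conjTranspose_apply]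
      rw [Finset.sum_comm, ← Finset.univ_product_univ, Finset.sum_product]
    rw [this]
    refine (norm_sum_le _ _).trans (le_of_eq ?_)
    apply Finset.sum_congr rfl
    intro p _
    rw [norm_mul, norm_star]
  have h2 := Finset.sum_mul_sq_le_sq_mul_sq Finset.univ
    (fun p : Bool × Bool => ‖A p.1 p.2‖) (fun p : Bool × Bool => ‖B p.1 p.2‖)
  have h3 : fro2 A = ∑ p : Bool × Bool, ‖A p.1 p.2‖ ^ 2 := by
    rw [fro2, ← Finset.univ_product_univ, Finset.sum_product]
  have h4 : fro2 B = ∑ p : Bool × Bool, ‖B p.1 p.2‖ ^ 2 := by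
    rw [fro2, ← Finset.univ_product_univ, Finset.sum_product]
  rw [h3, h4]
  exact (pow_le_pow_left₀ (norm_nonneg _) h1 2).trans h2

lemma IsRP.entries {P : M2} (h : IsRP P) :
    P true true = 1 - P false false ∧ P true false = star (P false true) ∧
      star (P false false) = P false false ∧
      P false true * star (P false true) = P false false * (1 - P false false) := by
  obtain ⟨h1, h2, h3⟩ := h
  have e1 : P false false + P true true = 1 := by
    have := h3
    simp only [Matrix.trace, Matrix.diag_apply, Fintype.sum_bool] at this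
    rw [add_comm]; exact this
  have e2 : star (P false true) = P true false := by
    have := congrFun (congrFun h1 true) false
    simpa [Matrix.conjTranspose_apply] using this
  have e3 : star (P false false) = P false false := by
    have := congrFun (congrFun h1 false) false
    simpa [Matrix.conjTranspose_apply] using this
  have e4 := congrFun (congrFun h2 false) false
  simp only [Matrix.mul_apply, Fintype.sum_bool] at e4
  refine ⟨by linear_combination e1, e2.symm, e3, ?_⟩
  rw [e2]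
  linear_combination e4

/-- rank one projectors compress every operator to a multiple of themselves -/
lemma IsRP.compress {P : M2} (h : IsRP P) (A : M2) : P * A * P = (P * A).trace • P := by
  obtain ⟨a1, a2, a3, a4⟩ := h.entries
  ext i j
  simp only [Matrix.mul_apply, Fintype.sum_bool, Matrix.trace, Matrix.diag_apply,
    Matrix.smul_apply, smul_eq_mul]
  rw [← a2] at a4
  cases i <;> cases j <;> simp only [a1]
  · linear_combination (A true true) * a4
  · linear_combination (-(A false true)) * a4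
  · linear_combination (-(A true false)) * a4
  · linear_combination (A false false) * a4

lemma IsRP.trace_mul_mem {P R : M2} (hP : IsRP P) (hR : IsRP R) :
    ∃ r : ℝ, 0 ≤ r ∧ r ≤ 1 ∧ (P * R).trace = r := by
  have e1 : (P * R).trace = ((fro2 (R * P) : ℝ) : ℂ) := by
    rw [fro2_eq, Matrix.conjTranspose_mul, hP.1, hR.1]
    rw [show P * R * (R * P) = P * (R * R) * P by simp only [mul_assoc], hR.2.1,
      Matrix.trace_mul_comm (P * R) P, ← mul_assoc, hP.2.1]
  have e2 : ((1 - P) * R).trace = ((fro2 (R * (1 - P)) : ℝ) : ℂ) := by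
    rw [fro2_eq, Matrix.conjTranspose_mul, Matrix.conjTranspose_sub, hP.1, hR.1,
      Matrix.conjTranspose_one]
    rw [show (1 - P) * R * (R * (1 - P)) = (1 - P) * (R * R) * (1 - P) by
      simp only [mul_assoc], hR.2.1, Matrix.trace_mul_comm ((1 - P) * R) (1 - P), ← mul_assoc]
    congr 2
    rw [sub_mul, one_mul, mul_sub, mul_one, hP.2.1]
    simp
  refine ⟨fro2 (R * P), fro2_nonneg _, ?_, e1⟩
  have e3 : (P * R).trace + ((1 - P) * R).trace = 1 := by
    rw [← Matrix.trace_add, ← add_mul]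
    simp [hR.2.2]
  rw [e1, e2] at e3
  have e4 : fro2 (R * P) + fro2 (R * (1 - P)) = 1 := by exact_mod_cast e3
  linarith [fro2_nonneg (R * (1 - P))]

lemma IsRP.norm_trace_mul_le {P R : M2} (hP : IsRP P) (hR : IsRP R) : ‖(P * R).trace‖ ≤ 1 := by
  obtain ⟨r, h0, h1, h2⟩ := hP.trace_mul_mem hR
  rw [h2, Complex.norm_real, Real.norm_of_nonneg h0]
  exact h1

/-- the identity or a rank one projector -/
def IsP01 (Y : M2) : Prop := Y = 1 ∨ IsRP Y

lemma IsP01.conj {Y : M2} (h : IsP01 Y) : Yᴴ = Y := by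
  rcases h with rfl | h
  · simp
  · exact h.1

lemma IsP01.idem {Y : M2} (h : IsP01 Y) : Y * Y = Y := by
  rcases h with rfl | h
  · simp
  · exact h.2.1

lemma IsP01.norm_trace_le {Y κ : M2} (h : IsP01 Y) (hκ : IsRP κ) : ‖(κ * Y).trace‖ ≤ 1 := by
  rcases h with rfl | h
  · simp [hκ.2.2]
  · exact hκ.norm_trace_mul_le h

lemma fro2_mul_le {Y κ : M2} (h : IsP01 Y) (hκ : IsRP κ) : fro2 (Y * κ) ≤ 1 := by
  have e : ((fro2 (Y * κ) : ℝ) : ℂ) = (κ * Y).trace := by
    rw [fro2_eq, Matrix.conjTranspose_mul, h.conj, hκ.1, mul_assoc, ← mul_assoc Y Y κ, h.idem,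
      ← mul_assoc, Matrix.trace_mul_comm, ← mul_assoc, hκ.2.1]
  have h1 := h.norm_trace_le hκ
  rw [← e, Complex.norm_real, Real.norm_of_nonneg (fro2_nonneg _)] at h1
  exact h1

/-- if `Γ` is selfadjoint and `Γ κ` has Frobenius norm at most `c` then the trace of
`κ Y Γ` is at most `c` -/
lemma norm_trace_three {Y κ Γ : M2} (h : IsP01 Y) (hκ : IsRP κ) {c : ℝ} (hc : 0 ≤ c)
    (hf : fro2 (Γ * κ) ≤ c ^ 2) : ‖(κ * Y * Γ).trace‖ ≤ c := by
  have e : (κ * Y * Γ).trace = ((Y * κ)ᴴ * (Γ * κ)).trace := by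
    rw [Matrix.conjTranspose_mul, h.conj, hκ.1]
    rw [← mul_assoc, Matrix.trace_mul_comm (κ * Y * Γ) κ, ← mul_assoc, ← mul_assoc, hκ.2.1]
  have h1 := trace_cs (Y * κ) (Γ * κ)
  rw [← e] at h1
  have h2 : ‖(κ * Y * Γ).trace‖ ^ 2 ≤ c ^ 2 := by
    refine h1.trans ?_
    calc fro2 (Y * κ) * fro2 (Γ * κ) ≤ 1 * c ^ 2 :=
          mul_le_mul (fro2_mul_le h hκ) hf (fro2_nonneg _) zero_le_one
      _ = c ^ 2 := one_mul _
  exact (abs_le_of_sq_le_sq' h2 hc).2

end Vale.Agent.P368
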