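import Vale.Agent.Lib.P368.Block

open Matrix Finset
open scoped ComplexOrder

set_option linter.unusedSectionVars false

namespace Vale.Agent.P368

variable {Q : Type} [Fintype Q] [DecidableEq Q]

/-- on the qubits of `I` the two states `ρ q false`, `ρ q true` are orthogonal -/
def InOK (I : Finset Q) (ρ : Q → Bool → M2) : Prop :=
  (∀ q b, IsRP (ρ q b)) ∧ ∀ q ∈ I, ρ q false + ρ q true = 1

/-- the signed average of the input states -/
noncomputable def Gam (I : Finset Q) (ρ : Q → Bool → M2) (q : Q) : M2 :=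
  if q ∈ I then (1 / 2 : ℂ) • (ρ q false - ρ q true) else ρ q false

section one
variable {I : Finset Q} {ρ : Q → Bool → M2}

lemma zz_sq (h : InOK I ρ) {q : Q} (hq : q ∈ I) :
    (ρ q false - ρ q true) * (ρ q false - ρ q true) = 1 := by
  have e : ρ q true = 1 - ρ q false := eq_sub_of_add_eq' (h.2 q hq)
  have i := (h.1 q false).2.1
  rw [e]
  have : ρ q false - (1 - ρ q false) = (2 : ℂ) • ρ q false - 1 := by
    rw [two_smul]; abel
  rw [this, sub_mul, mul_sub, mul_sub, smul_mul_smul_comm, i, mul_one, one_mul, mul_one,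
    show (2:ℂ) * 2 = 2 + 2 by norm_num, add_smul]
  abel

lemma zz_conj (h : InOK I ρ) (q : Q) :
    (ρ q false - ρ q true)ᴴ = ρ q false - ρ q true := by
  rw [Matrix.conjTranspose_sub, (h.1 q false).1, (h.1 q true).1]

lemma gam_conj (h : InOK I ρ) (q : Q) : (Gam I ρ q)ᴴ = Gam I ρ q := by
  unfold Gam
  split_ifs
  · rw [Matrix.conjTranspose_smul, zz_conj h]
    congr 1
    simp
  · exact (h.1 q false).1

lemma gam_trace_in (h : InOK I ρ) {q : Q} (hq : q ∈ I) : (Gam I ρ q).trace = 0 := by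
  unfold Gam
  rw [if_pos hq, Matrix.trace_smul, Matrix.trace_sub, (h.1 q false).2.2, (h.1 q true).2.2]
  simp

lemma gam_trace_out (h : InOK I ρ) {q : Q} (hq : q ∉ I) : (Gam I ρ q).trace = 1 := by
  unfold Gam
  rw [if_neg hq, (h.1 q false).2.2]

/-- weight of a qubit -/
noncomputable def wt (I : Finset Q) (q : Q) : ℝ := if q ∈ I then 1 / 2 else 1

lemma wt_nonneg (I : Finset Q) (q : Q) : 0 ≤ wt I q := by
  unfold wt; split_ifs <;> norm_num

lemma fro2_gam (h : InOK I ρ) {κ : M2} (hκ : IsRP κ) (q : Q) :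
    fro2 (Gam I ρ q * κ) ≤ (wt I q) ^ 2 := by
  by_cases hq : q ∈ I
  · have e : ((fro2 (Gam I ρ q * κ) : ℝ) : ℂ) = ((1 / 4 : ℝ) : ℂ) := by
      rw [fro2_eq, Matrix.conjTranspose_mul, gam_conj h, hκ.1]
      rw [show κ * Gam I ρ q * (Gam I ρ q * κ) = κ * (Gam I ρ q * Gam I ρ q) * κ by
        simp only [mul_assoc]]
      have : Gam I ρ q * Gam I ρ q = (1 / 4 : ℂ) • 1 := by
        unfold Gam
        rw [if_pos hq, smul_mul_smul_comm, zz_sq h hq]
        norm_num
      rw [this, mul_smul_comm, mul_one, smul_mul_assoc, hκ.2.1, Matrix.trace_smul, hκ.2.2]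
      norm_num
    have e' : fro2 (Gam I ρ q * κ) = 1 / 4 := by exact_mod_cast e
    rw [e', wt, if_pos hq]
    norm_num
  · have : Gam I ρ q = ρ q false := by unfold Gam; rw [if_neg hq]
    rw [this, wt, if_neg hq]
    simpa using fro2_mul_le (Or.inr (h.1 q false) : IsP01 _) hκ

lemma gam_b2 (h : InOK I ρ) {κ Y : M2} (hκ : IsRP κ) (hY : IsP01 Y) (q : Q) :
    ‖(κ * Y * Gam I ρ q).trace‖ ≤ wt I q :=
  norm_trace_three hY hκ (wt_nonneg I q) (fro2_gam h hκ q)

lemma gam_b1 (h : InOK I ρ) {Y : M2} (hY : IsP01 Y) (q : Q) :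
    ‖(Y * Gam I ρ q).trace‖ ≤ wt I q := by
  rcases hY with rfl | hY
  · rw [one_mul]
    by_cases hq : q ∈ I
    · rw [gam_trace_in h hq]; simpa using wt_nonneg I q
    · rw [gam_trace_out h hq, wt, if_neg hq]; simp
  · have := gam_b2 h hY (Or.inl rfl : IsP01 (1 : M2)) q
    simpa using this

lemma gam_b3 (h : InOK I ρ) {κ Y : M2} (hκ : IsRP κ) (hY : IsP01 Y) (q : Q) :
    ‖(Y * κ * Gam I ρ q).trace‖ ≤ wt I q := by
  have e : (Y * κ * Gam I ρ q).trace = star ((κ * Y * Gam I ρ q).trace) := by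
    rw [← Matrix.trace_conjTranspose, Matrix.conjTranspose_mul, Matrix.conjTranspose_mul,
      gam_conj h, hκ.1, hY.conj, Matrix.trace_mul_comm]
  rw [e, norm_star]
  exact gam_b2 h hκ hY q

lemma gam_b4 (h : InOK I ρ) {κ Y : M2} (hκ : IsRP κ) (hY : IsP01 Y) (q : Q) :
    ‖(κ * Y * κ * Gam I ρ q).trace‖ ≤ wt I q := by
  rw [hκ.compress, smul_mul_assoc, Matrix.trace_smul, smul_eq_mul, norm_mul]
  calc _ ≤ 1 * wt I q := mul_le_mul (hY.norm_trace_le hκ) (gam_b1 h (Or.inr hκ) q)
        (norm_nonneg _) zero_le_one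
    _ = _ := one_mul _

lemma prod_wt (I h : Finset Q) : ∏ q ∈ h, wt I q = (1 / 2 : ℝ) ^ (h ∩ I).card := by
  unfold wt
  rw [Finset.prod_ite, Finset.prod_const, Finset.prod_const_one, mul_one, Finset.filter_mem_eq_inter]

end one

/-- hypotheses on a product projector -/
def IsPP (Y : Q → M2) : Prop := ∀ q, IsP01 (Y q)

lemma blockF_small {I : Finset Q} {ρ : Q → Bool → M2} (h : InOK I ρ) {κ Y : Q → M2}
    (hκ : ∀ q, IsRP (κ q)) (hY : IsPP Y) (b : Finset Q) :
    ‖blockF κ Y (Gam I ρ) b‖ ≤ 9 * (1 / 2 : ℝ) ^ (b ∩ I).card := by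
  rw [← prod_wt]
  have key : ∀ f : Q → ℂ, (∀ q, ‖f q‖ ≤ wt I q) → ‖∏ q ∈ b, f q‖ ≤ ∏ q ∈ b, wt I q := by
    intro f hf
    rw [norm_prod]
    exact Finset.prod_le_prod (fun _ _ => norm_nonneg _) fun q _ => hf q
  have k1 := key (fun q => (Y q * Gam I ρ q).trace) fun q => gam_b1 h (hY q) q
  have k2 := key (fun q => (κ q * Y q * Gam I ρ q).trace) fun q => gam_b2 h (hκ q) (hY q) q
  have k3 := key (fun q => (Y q * κ q * Gam I ρ q).trace) fun q => gam_b3 h (hκ q) (hY q) q
  have k4 := key (fun q => (κ q * Y q * κ q * Gam I ρ q).trace) fun q => gam_b4 h (hκ q) (hY q) q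
  unfold blockF
  refine (norm_add_le _ _).trans ?_
  refine (add_le_add_left ((norm_sub_le _ _).trans (add_le_add_left (norm_sub_le _ _) _)) _).trans ?_
  rw [norm_mul, norm_mul, norm_mul, show ‖(2:ℂ)‖ = 2 by simp, show ‖(4:ℂ)‖ = 4 by simp]
  linarith

/-- trace of a projector against a transformed state -/
lemma tr_mem {P R A : MQ Q} (hP : Pᴴ = P) (hPP : P * P = P) (hR : Rᴴ * R = 1)
    (hA : A.PosSemidef) (htr : A.trace = 1) :
    ∃ r : ℝ, 0 ≤ r ∧ r ≤ 1 ∧ (P * R * A * Rᴴ).trace = r := by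
  have hRA : (R * A * Rᴴ).PosSemidef := hA.mul_mul_conjTranspose_same R
  have gen : ∀ P : MQ Q, Pᴴ = P → P * P = P → 0 ≤ (P * (R * A * Rᴴ)).trace := by
    intro P hP hPP
    have := (hRA.mul_mul_conjTranspose_same P).trace_nonneg
    rwa [hP, Matrix.trace_mul_comm, ← mul_assoc, hPP] at this
  have h1 := gen P hP hPP
  have h2 := gen (1 - P) (by rw [Matrix.conjTranspose_sub, hP, Matrix.conjTranspose_one])
    (by rw [sub_mul, one_mul, mul_sub, mul_one, hPP]; simp)
  have h3 : (P * (R * A * Rᴴ)).trace + ((1 - P) * (R * A * Rᴴ)).trace = 1 := by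
    rw [← Matrix.trace_add, ← add_mul]
    simp only [add_sub_cancel, one_mul]
    rw [Matrix.trace_mul_comm, ← mul_assoc, hR, one_mul, htr]
  have e : P * R * A * Rᴴ = P * (R * A * Rᴴ) := by simp only [mul_assoc]
  rw [e]
  obtain ⟨h1a, h1b⟩ := Complex.nonneg_iff.mp h1
  obtain ⟨h2a, h2b⟩ := Complex.nonneg_iff.mp h2
  refine ⟨((P * (R * A * Rᴴ)).trace).re, h1a, ?_, ?_⟩
  · have := congrArg Complex.re h3
    simp only [Complex.add_re, Complex.one_re] at this
    linarith
  · apply Complex.ext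
    · simp
    · simp [← h1b]

lemma top_posSemidef {A : Q → M2} {S : Q → M2} (h : ∀ q, A q = S q * (S q)ᴴ) :
    (top A).PosSemidef := by
  have : top A = top S * (top S)ᴴ := by
    rw [top_conjTranspose, top_mul]
    congr 1
    funext q
    exact h q
  rw [this]
  exact Matrix.posSemidef_self_mul_conjTranspose _

lemma blockF_congr' {κ Y X Y' X' : Q → M2} {h : Finset Q} (hY : ∀ q ∈ h, Y q = Y' q)
    (hX : ∀ q ∈ h, X q = X' q) :
    blockF κ Y X h = blockF κ Y' X' h := by
  unfold blockF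
  rw [Finset.prod_congr rfl (fun q hq => by rw [hY q hq, hX q hq] : ∀ q ∈ h,
      (Y q * X q).trace = (Y' q * X' q).trace),
    Finset.prod_congr rfl (fun q hq => by rw [hY q hq, hX q hq] : ∀ q ∈ h,
      (κ q * Y q * X q).trace = (κ q * Y' q * X' q).trace),
    Finset.prod_congr rfl (fun q hq => by rw [hY q hq, hX q hq] : ∀ q ∈ h,
      (Y q * κ q * X q).trace = (Y' q * κ q * X' q).trace),
    Finset.prod_congr rfl (fun q hq => by rw [hY q hq, hX q hq] : ∀ q ∈ h,
      (κ q * Y q * κ q * X q).trace = (κ q * Y' q * κ q * X' q).trace)]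

lemma top_isProj {Y : Q → M2} (hY : IsPP Y) : (top Y)ᴴ = top Y ∧ top Y * top Y = top Y := by
  constructor
  · rw [top_conjTranspose]
    congr 1
    funext q
    exact (hY q).conj
  · rw [top_mul]
    congr 1
    funext q
    exact (hY q).idem

/-- the block factor as a global trace -/
lemma blockF_eq_trace {I : Finset Q} {ρ : Q → Bool → M2} (h : InOK I ρ) {κ Y : Q → M2}
    (hκ : ∀ q, IsRP (κ q)) (b : Finset Q) (X : Q → M2) :
    (top (fun q => if q ∈ b then Y q else 1) * refl κ b * top (fun q => if q ∈ b then X q else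
      ρ q false) * (refl κ b)ᴴ).trace = blockF κ Y X b := by
  have e : reflProd κ [b] = refl κ b := by simp [reflProd]
  have := trace_reflProd (fun q => (hκ q).1) (fun q => if q ∈ b then X q else ρ q false) [b]
    (by simp) (fun q => if q ∈ b then Y q else 1)
  rw [e] at this
  rw [this]
  simp only [List.map_cons, List.map_nil, List.prod_cons, List.prod_nil, mul_one, cov_cons,
    cov_nil, Finset.union_empty]
  have e2 : ∏ q ∈ bᶜ, ((if q ∈ b then Y q else 1) * (if q ∈ b then X q else ρ q false)).trace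
      = 1 := by
    apply Finset.prod_eq_one
    intro q hq
    rw [Finset.mem_compl] at hq
    rw [if_neg hq, if_neg hq, one_mul, (h.1 q false).2.2]
  rw [e2, mul_one]
  apply blockF_congr'
  · intro q hq; simp [hq]
  · intro q hq; simp [hq]

lemma isPP_ite {Y : Q → M2} (hY : IsPP Y) (b : Finset Q) :
    IsPP (fun q => if q ∈ b then Y q else 1) := by
  intro q
  by_cases hq : q ∈ b
  · simp only [hq, if_true]; exact hY q
  · simp only [hq, if_false]; exact Or.inl rfl

lemma blockF_one {I : Finset Q} {ρ : Q → Bool → M2} (h : InOK I ρ) {κ Y : Q → M2}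
    (hκ : ∀ q, IsRP (κ q)) (hY : IsPP Y) (b : Finset Q) (hb : b ∩ I = ∅) :
    ‖blockF κ Y (Gam I ρ) b‖ ≤ 1 := by
  rw [← blockF_eq_trace h hκ b (Gam I ρ)]
  have e : (fun q => if q ∈ b then Gam I ρ q else ρ q false) = fun q => ρ q false := by
    funext q
    split_ifs with hq
    · have : q ∉ I := fun hI => by
        have : q ∈ b ∩ I := Finset.mem_inter.mpr ⟨hq, hI⟩
        rw [hb] at this
        simp at this
      simp [Gam, this]
    · rfl
  rw [e]
  have hpsd : (top (fun q => ρ q false)).PosSemidef :=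
    top_posSemidef (S := fun q => ρ q false) fun q => by rw [(h.1 q false).1, (h.1 q false).2.1]
  have htr : (top (fun q => ρ q false)).trace = 1 := by
    rw [trace_top]
    exact Finset.prod_eq_one fun q _ => (h.1 q false).2.2
  obtain ⟨hp1, hp2⟩ := top_isProj (isPP_ite hY b)
  have hR : (refl κ b)ᴴ * refl κ b = 1 := by
    rw [refl_conjTranspose fun q => (hκ q).1, refl_mul_self fun q => (hκ q).2.1]
  obtain ⟨r, h0, h1, h2⟩ := tr_mem hp1 hp2 hR hpsd htr
  rw [h2, Complex.norm_real, Real.norm_of_nonneg h0]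
  exact h1

lemma blockF_half {I : Finset Q} {ρ : Q → Bool → M2} (h : InOK I ρ) {κ Y : Q → M2}
    (hκ : ∀ q, IsRP (κ q)) (hY : IsPP Y) (b : Finset Q) (hb : (b ∩ I).Nonempty) :
    ‖blockF κ Y (Gam I ρ) b‖ ≤ 1 / 2 := by
  rw [← blockF_eq_trace h hκ b (Gam I ρ)]
  set X' : Q → M2 := fun q => if q ∈ b then Gam I ρ q else ρ q false with hX'
  -- absolute value and sign
  set N : Q → M2 := fun q => if q ∈ b ∩ I then (1 / 2 : ℂ) • 1 else ρ q false with hN
  set Z : Q → M2 := fun q => if q ∈ b ∩ I then ρ q false - ρ q true else 1 with hZ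
  have eX : top X' = top N * top Z := by
    rw [top_mul]
    congr 1
    funext q
    by_cases h1 : q ∈ b <;> by_cases h2 : q ∈ I <;> simp [hX', hN, hZ, Gam, h1, h2]
  have cNZ : Commute (top N) (top Z) := by
    apply top_commute
    intro q
    by_cases h1 : q ∈ b ∩ I
    · simp only [hN, hZ, h1, if_true]
      exact (Commute.one_left _).smul_left _
    · simp only [hN, hZ, h1, if_false]
      exact Commute.one_right _
  have ZZ : top Z * top Z = 1 := by
    rw [top_mul, ← top_one]
    congr 1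
    funext q
    by_cases h1 : q ∈ b ∩ I
    · simp only [hZ, h1, if_true]
      exact zz_sq h (Finset.mem_inter.mp h1).2
    · simp only [hZ, h1, if_false, mul_one]
  have Zc : (top Z)ᴴ = top Z := by
    rw [top_conjTranspose]
    congr 1
    funext q
    by_cases h1 : q ∈ b ∩ I
    · simp only [hZ, h1, if_true]
      exact zz_conj h q
    · simp only [hZ, h1, if_false, Matrix.conjTranspose_one]
  have Npsd : (top N).PosSemidef := by
    apply top_posSemidef (S := fun q => if q ∈ b ∩ I then ((Real.sqrt (1 / 2) : ℝ) : ℂ) • 1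
      else ρ q false)
    intro q
    by_cases h1 : q ∈ b ∩ I
    · simp only [hN, h1, if_true]
      rw [Matrix.conjTranspose_smul, Matrix.conjTranspose_one, smul_mul_smul_comm, one_mul]
      congr 1
      rw [RCLike.star_def, Complex.conj_ofReal, ← Complex.ofReal_mul,
        Real.mul_self_sqrt (by norm_num)]
      norm_num
    · simp only [hN, h1, if_false]
      rw [(h.1 q false).1, (h.1 q false).2.1]
  have Ntr : (top N).trace = 1 := by
    rw [trace_top]
    apply Finset.prod_eq_one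
    intro q _
    by_cases h1 : q ∈ b ∩ I
    · simp only [hN, h1, if_true, Matrix.trace_smul, Matrix.trace_one]
      norm_num
    · simp only [hN, h1, if_false]
      exact (h.1 q false).2.2
  have Xtr : (top X').trace = 0 := by
    rw [trace_top]
    obtain ⟨i, hi⟩ := hb
    obtain ⟨hi1, hi2⟩ := Finset.mem_inter.mp hi
    apply Finset.prod_eq_zero (Finset.mem_univ i)
    simp only [hX', hi1, if_true]
    exact gam_trace_in h hi2
  -- the two states
  have gen : ∀ s : ℂ, s = 1 ∨ s = -1 → (top N + s • top X').PosSemidef ∧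
      (top N + s • top X').trace = 1 := by
    intro s hs
    have hss : s * s = 1 := by rcases hs with rfl | rfl <;> norm_num
    have hsc : star s = s := by rcases hs with rfl | rfl <;> simp
    constructor
    · have e : top N + s • top X' = (1 / 2 : ℝ) • ((1 + s • top Z) * top N * (1 + s • top Z)ᴴ) := by
        rw [Matrix.conjTranspose_add, Matrix.conjTranspose_one, Matrix.conjTranspose_smul, Zc, hsc,
          eX]
        have c1 : top Z * top N = top N * top Z := cNZ.symm.eq
        have e1 : (1 + s • top Z) * top N * (1 + s • top Z) =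
            (2 : ℂ) • (top N + s • (top N * top Z)) := by
          rw [add_mul, one_mul, smul_mul_assoc, c1, mul_add, mul_one, add_mul, mul_smul_comm,
            smul_mul_smul_comm, hss, one_smul, mul_assoc, ZZ, mul_one, two_smul]
          abel
        rw [e1, ← Complex.coe_smul, smul_smul]
        norm_num
      rw [e]
      exact (Npsd.mul_mul_conjTranspose_same _).smul (by norm_num)
    · rw [Matrix.trace_add, Matrix.trace_smul, Xtr, Ntr, smul_zero, add_zero]
  obtain ⟨hp1, hp2⟩ := top_isProj (isPP_ite hY b)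
  have hR : (refl κ b)ᴴ * refl κ b = 1 := by
    rw [refl_conjTranspose fun q => (hκ q).1, refl_mul_self fun q => (hκ q).2.1]
  obtain ⟨g1, g2⟩ := gen 1 (Or.inl rfl)
  obtain ⟨g3, g4⟩ := gen (-1) (Or.inr rfl)
  obtain ⟨r, r0, r1, r2⟩ := tr_mem hp1 hp2 hR g1 g2
  obtain ⟨t, t0, t1, t2⟩ := tr_mem hp1 hp2 hR g3 g4
  have e3 : top X' = (1 / 2 : ℂ) • ((top N + (1:ℂ) • top X') - (top N + (-1:ℂ) • top X')) := by
    rw [one_smul, neg_one_smul]
    have : top N + top X' - (top N + -top X') = (2 : ℂ) • top X' := by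
      rw [two_smul]; abel
    rw [this, smul_smul]
    norm_num
  rw [e3, mul_smul_comm, smul_mul_assoc, Matrix.trace_smul, mul_sub, sub_mul, Matrix.trace_sub,
    r2, t2, smul_eq_mul, norm_mul, ← Complex.ofReal_sub, Complex.norm_real]
  have : |r - t| ≤ 1 := by rw [abs_le]; constructor <;> linarith
  rw [Real.norm_eq_abs]
  have e5 : ‖(1 / 2 : ℂ)‖ = 1 / 2 := by simp
  rw [e5]
  linarith

end Vale.Agent.P368
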