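import Mathlib

/-!
Circuits with one-qubit gates and generalized Toffoli gates (QAC circuits), their entangling
depth, and the parity correlation of their designated output qubit.
-/

namespace Vale.Agent.P368

/-- Labels of the computational basis of `N` qubits. -/
abbrev Bits (N : ℕ) := Fin N → Bool

/-- A gate on `N` qubits: an arbitrary one-qubit unitary `U` on the qubit `q`, or a generalized
Toffoli gate with a nonempty set `C` of control qubits and a target qubit `t` outside `C`. -/
inductive Gate (N : ℕ) where
  | single (q : Fin N) (U : Matrix Bool Bool ℂ) (hU : U ∈ Matrix.unitaryGroup Bool ℂ) : Gate N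
  | toffoli (C : Finset (Fin N)) (t : Fin N) (hC : C.Nonempty) (ht : t ∉ C) : Gate N

/-- The set of qubits on which a gate acts. -/
def Gate.support {N : ℕ} : Gate N → Finset (Fin N)
  | .single q _ _ => {q}
  | .toffoli C t _ _ => insert t C

/-- Whether a gate acts on more than one qubit. -/
def Gate.isMulti {N : ℕ} : Gate N → Bool
  | .single _ _ _ => false
  | .toffoli _ _ _ _ => true

/-- The unitary matrix of a gate. The generalized Toffoli gate flips the target bit exactly when
all control bits are equal to one. -/
noncomputable def Gate.mat {N : ℕ} : Gate N → Matrix (Bits N) (Bits N) ℂ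
  | .single q U _ => Matrix.of fun y x => if ∀ r, r ≠ q → y r = x r then U (y q) (x q) else 0
  | .toffoli C t _ _ => Matrix.of fun y x =>
      if y = Function.update x t (xor (x t) (decide (∀ c ∈ C, x c = true))) then 1 else 0

/-- A circuit is a list of layers; the gates of one layer have pairwise disjoint supports. -/
structure Circuit (N : ℕ) where
  layers : List (List (Gate N))
  disjoint : ∀ L ∈ layers, L.Pairwise fun g h => Disjoint g.support h.support

/-- The unitary matrix of one layer. -/
noncomputable def layerMat {N : ℕ} (L : List (Gate N)) : Matrix (Bits N) (Bits N) ℂ :=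
  (L.map Gate.mat).prod

/-- The unitary matrix of a circuit; the first layer in the list acts first. -/
noncomputable def Circuit.mat {N : ℕ} (C : Circuit N) : Matrix (Bits N) (Bits N) ℂ :=
  (C.layers.map layerMat).reverse.prod

/-- The entangling depth: the number of layers that contain a multi-qubit gate. -/
def Circuit.entanglingDepth {N : ℕ} (C : Circuit N) : ℕ :=
  (C.layers.filter fun L => L.any Gate.isMulti).length

/-- The label of the initial state: the input `x` on the first `n` qubits, zero elsewhere. -/
def pad {n N : ℕ} (x : Fin n → Bool) : Bits N :=
  fun q => if h : q.val < n then x ⟨q.val, h⟩ else false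

/-- The probability that measuring the qubit `out` gives `b` when the circuit is run on the
input `x`. -/
noncomputable def Circuit.prob {n N : ℕ} (C : Circuit N) (out : Fin N) (x : Fin n → Bool)
    (b : Bool) : ℝ :=
  ∑ y : Bits N with y out = b, ‖C.mat y (pad x)‖ ^ 2

/-- The parity of a bit string. -/
def parity {n : ℕ} (x : Fin n → Bool) : Bool :=
  decide (Odd (Finset.univ.filter fun i => x i = true).card)

/-- The parity correlation on `n` input bits: the average over all inputs `x` of the probability
of a correct answer minus the probability of a wrong answer. -/
noncomputable def Circuit.parityCorrelation {N : ℕ} (C : Circuit N) (n : ℕ) (out : Fin N) : ℝ :=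
  (1 / 2 ^ n) * ∑ x : Fin n → Bool, (C.prob out x (parity x) - C.prob out x (!parity x))

end Vale.Agent.P368
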