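import Vale.Agent.Lib.P368.Obs
import Vale.Agent.Lib.P368.Defs

open Matrix Finset
open scoped ComplexOrder

set_option linter.unusedSectionVars false

namespace Vale.Agent.P368

variable {N : ℕ}

/-- projector on the minus state -/
noncomputable def minusP : M2 := Matrix.of fun i j => if i = j then (1 / 2 : ℂ) else -(1 / 2)

lemma isRP_minusP : IsRP minusP := by
  refine ⟨?_, ?_, ?_⟩
  · ext i j
    cases i <;> cases j <;> simp [minusP]
  · ext i j
    cases i <;> cases j <;> simp [minusP, Matrix.mul_apply] <;> norm_num
  · simp [minusP, Matrix.trace]

/-- the product state of a generalized Toffoli gate -/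
noncomputable def toffK (t : Fin N) (r : Fin N) : M2 := if r = t then minusP else basisP true

lemma isRP_toffK (t r : Fin N) : IsRP (toffK t r) := by
  unfold toffK
  split_ifs
  · exact isRP_minusP
  · exact isRP_basisP _

lemma single_mat (q : Fin N) (U : Matrix Bool Bool ℂ) (hU) :
    (Gate.single q U hU).mat = top (Function.update (fun _ => (1 : M2)) q U) := by
  ext y x
  simp only [Gate.mat, Matrix.of_apply, top_apply]
  rw [← Finset.mul_prod_erase _ _ (Finset.mem_univ q), Function.update_self]
  split_ifs with h
  · rw [Finset.prod_eq_one, mul_one]
    intro r hr
    have hne := Finset.ne_of_mem_erase hr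
    rw [Function.update_of_ne hne, h r hne, Matrix.one_apply_eq]
  · push Not at h
    obtain ⟨r, hne, hr⟩ := h
    rw [Finset.prod_eq_zero (Finset.mem_erase.mpr ⟨hne, Finset.mem_univ r⟩), mul_zero]
    rw [Function.update_of_ne hne, Matrix.one_apply_ne hr]

lemma toffoli_mat (C : Finset (Fin N)) (t : Fin N) (hC) (ht : t ∉ C) :
    (Gate.toffoli C t hC ht).mat = refl (toffK t) (insert t C) := by
  ext y x
  simp only [Gate.mat, Matrix.of_apply, refl, topOn, Matrix.sub_apply, Matrix.smul_apply,
    smul_eq_mul, top_apply]
  by_cases hne : ∃ r, r ≠ t ∧ y r ≠ x r
  · obtain ⟨r, hrt, hr⟩ := hne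
    have e1 : y ≠ x := fun h => hr (by rw [h])
    rw [Matrix.one_apply_ne e1, Finset.prod_eq_zero (Finset.mem_univ r), mul_zero, sub_zero,
      if_neg]
    · intro h
      apply hr
      rw [h, Function.update_of_ne hrt]
    · by_cases hrC : r ∈ insert t C
      · rw [if_pos hrC, toffK, if_neg hrt]
        simp only [basisP, Matrix.of_apply]
        rw [if_neg]
        rintro ⟨h1, h2⟩
        exact hr (h1.trans h2.symm)
      · rw [if_neg hrC, Matrix.one_apply_ne hr]
  · push Not at hne
    rw [← Finset.mul_prod_erase _ _ (Finset.mem_univ t)]
    have htt : t ∈ insert t C := Finset.mem_insert_self t C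
    rw [if_pos htt]
    have ett : toffK t t = minusP := by simp [toffK]
    rw [ett]
    by_cases hall : ∀ c ∈ C, x c = true
    · have e2 : ∏ r ∈ Finset.univ.erase t, (if r ∈ insert t C then toffK t r else 1) (y r) (x r)
          = 1 := by
        apply Finset.prod_eq_one
        intro r hr
        have hrt := Finset.ne_of_mem_erase hr
        rw [hne r hrt]
        by_cases hrC : r ∈ insert t C
        · have hrC' : r ∈ C := by
            rcases Finset.mem_insert.mp hrC with h | h
            · exact absurd h hrt
            · exact h
          rw [if_pos hrC, toffK, if_neg hrt, hall r hrC']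
          simp [basisP]
        · rw [if_neg hrC, Matrix.one_apply_eq]
      rw [e2, mul_one]
      have e3 : decide (∀ c ∈ C, x c = true) = true := by simpa using hall
      rw [e3]
      by_cases hyt : y t = x t
      · have : y = x := by
          funext r
          by_cases hrt : r = t
          · rw [hrt, hyt]
          · exact hne r hrt
        rw [this, Matrix.one_apply_eq, if_neg]
        · simp [minusP]
        · intro h
          have := congrFun h t
          rw [Function.update_self] at this
          cases hxt : x t <;> rw [hxt] at this <;> simp at this
      · have : y ≠ x := fun h => hyt (by rw [h])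
        rw [Matrix.one_apply_ne this, if_pos]
        · simp only [minusP, Matrix.of_apply]
          rw [if_neg hyt]
          norm_num
        · funext r
          by_cases hrt : r = t
          · subst hrt
            rw [Function.update_self]
            cases hx : x r <;> cases hy : y r <;> simp_all
          · rw [Function.update_of_ne hrt, hne r hrt]
    · have hall' := hall
      push Not at hall
      obtain ⟨c, hcC, hc⟩ := hall
      have hct : c ≠ t := fun h => ht (h ▸ hcC)
      rw [Finset.prod_eq_zero (Finset.mem_erase.mpr ⟨hct, Finset.mem_univ c⟩), mul_zero, mul_zero,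
        sub_zero, Matrix.one_apply]
      · have e3 : decide (∀ c ∈ C, x c = true) = false := by simpa using hall'
        rw [e3, Bool.xor_false, Function.update_eq_self]
      · rw [if_pos (Finset.mem_insert_of_mem hcC), toffK, if_neg hct]
        simp only [basisP, Matrix.of_apply]
        rw [if_neg]
        rintro ⟨_, h2⟩
        exact hc h2

/-- union of the supports of a list of gates -/
def gsupp (L : List (Gate N)) : Finset (Fin N) := cov (L.map Gate.support)

lemma isPU_update {U : Fin N → M2} (hU : IsPU U) (q : Fin N) {V : M2}
    (hV : Vᴴ * V = 1 ∧ V * Vᴴ = 1) : IsPU (Function.update U q V) := by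
  intro r
  by_cases hr : r = q
  · subst hr; rw [Function.update_self]; exact hV
  · rw [Function.update_of_ne hr]; exact hU r

lemma layer_nf (L : List (Gate N)) (hL : L.Pairwise fun g h => Disjoint g.support h.support) :
    ∃ (U κ : Fin N → M2) (B : List (Finset (Fin N))), IsPU U ∧ (∀ q, IsRP (κ q)) ∧
      B.Pairwise Disjoint ∧ layerMat L = top U * reflProd κ B ∧
      (∀ q, q ∉ gsupp L → U q = 1) ∧ (∀ b ∈ B, b ⊆ gsupp L) ∧
      (L.any Gate.isMulti = false → B = []) := by
  induction L with
  | nil =>
    refine ⟨fun _ => 1, fun _ => basisP false, [], isPU_one, fun _ => isRP_basisP _,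
      List.Pairwise.nil, ?_, fun _ _ => rfl, by simp, fun _ => rfl⟩
    rw [top_one]
    simp [layerMat, reflProd]
  | cons g L ih =>
    rw [List.pairwise_cons] at hL
    obtain ⟨hd, hL⟩ := hL
    obtain ⟨U, κ, B, hU, hκ, hB, e, hU1, hB1, hm⟩ := ih hL
    have hdis : Disjoint g.support (gsupp L) := by
      apply disjoint_cov
      intro h' hh'
      obtain ⟨g', hg', rfl⟩ := List.mem_map.mp hh'
      exact hd g' hg'
    have el : layerMat (g :: L) = g.mat * layerMat L := by simp [layerMat]
    have es : gsupp (g :: L) = g.support ∪ gsupp L := by simp [gsupp]
    cases g with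
    | single q V hV =>
      have hV' : (V : M2)ᴴ * V = 1 ∧ V * Vᴴ = 1 := by
        constructor
        · exact Matrix.mem_unitaryGroup_iff'.mp hV
        · exact Matrix.mem_unitaryGroup_iff.mp hV
      refine ⟨fun r => Function.update (fun _ => (1 : M2)) q V r * U r, κ, B,
        (isPU_update isPU_one q hV').mul hU, hκ, hB, ?_, ?_, ?_, ?_⟩
      · rw [el, e, single_mat, ← mul_assoc, top_mul]
      · intro r hr
        rw [es, Finset.mem_union, not_or] at hr
        have : r ≠ q := by simpa [Gate.support] using hr.1
        simp [Function.update_of_ne this, hU1 r hr.2]
      · intro b hb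
        rw [es]
        exact (hB1 b hb).trans Finset.subset_union_right
      · intro h
        apply hm
        simpa [Gate.isMulti] using h
    | toffoli C t hC ht =>
      have hsup : (Gate.toffoli C t hC ht).support = insert t C := rfl
      rw [hsup] at hdis es
      refine ⟨U, fun r => if r ∈ insert t C then toffK t r else κ r, insert t C :: B, hU, ?_, ?_,
        ?_, ?_, ?_, ?_⟩
      · intro r
        by_cases hr : r ∈ insert t C
        · simp only [hr, if_true]; exact isRP_toffK t r
        · simp only [hr, if_false]; exact hκ r
      · rw [List.pairwise_cons]
        exact ⟨fun b hb => Finset.disjoint_of_subset_right (hB1 b hb) hdis, hB⟩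
      · have cm : Commute (refl (toffK t) (insert t C)) (top U) := by
          unfold refl
          refine (Commute.one_left _).sub_left (Commute.smul_left ?_ _)
          apply topOn_commute_top
          intro q hq
          rw [hU1 q (Finset.disjoint_left.mp hdis hq)]
          exact Commute.one_right _
        have r1 : refl (fun r => if r ∈ insert t C then toffK t r else κ r) (insert t C) =
            refl (toffK t) (insert t C) := by
          unfold refl
          rw [topOn_congr]
          intro q hq
          rw [if_pos hq]
        have r2 : reflProd (fun r => if r ∈ insert t C then toffK t r else κ r) B =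
            reflProd κ B := by
          unfold reflProd
          congr 1
          apply List.map_congr_left
          intro b hb
          unfold refl
          rw [topOn_congr]
          intro q hq
          have : q ∉ insert t C := fun h =>
            Finset.disjoint_left.mp hdis h (hB1 b hb hq)
          rw [if_neg this]
        have r3 : reflProd (fun r => if r ∈ insert t C then toffK t r else κ r)
            (insert t C :: B) = refl (toffK t) (insert t C) * reflProd κ B := by
          rw [← r1, ← r2]
          simp [reflProd]
        rw [el, e, toffoli_mat, r3, ← mul_assoc, cm.eq, mul_assoc]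
      · intro r hr
        rw [es, Finset.mem_union, not_or] at hr
        exact hU1 r hr.2
      · intro b hb
        rw [es]
        rcases List.mem_cons.mp hb with rfl | hb
        · exact Finset.subset_union_left
        · exact (hB1 b hb).trans Finset.subset_union_right
      · intro h
        simp [Gate.isMulti] at h

/-- the matrix of a circuit in normal form -/
theorem circuit_nf (C : Circuit N) : NF C.entanglingDepth C.mat := by
  obtain ⟨layers, hdis⟩ := C
  unfold Circuit.entanglingDepth Circuit.mat
  simp only
  induction layers using List.reverseRecOn with
  | nil =>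
    have := NF.zero (fun _ : Fin N => (1 : M2)) isPU_one
    rw [top_one] at this
    simpa using this
  | append_singleton ls L ih =>
    have ih' := ih fun L' hL' => hdis L' (by simp [hL'])
    obtain ⟨U, κ, B, hU, hκ, hB, e, -, -, hm⟩ := layer_nf L (hdis L (by simp))
    rw [List.map_append, List.reverse_append, List.map_cons, List.map_nil, List.reverse_singleton,
      List.prod_append, List.prod_singleton, List.filter_append, List.length_append, e]
    by_cases hmul : L.any Gate.isMulti = true
    · have : (List.filter (fun L => L.any Gate.isMulti) [L]).length = 1 := by
        simp [hmul]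
      rw [this]
      exact NF.succ _ _ U κ B ih' hU hκ hB
    · have hmul' : L.any Gate.isMulti = false := by simpa using hmul
      have : (List.filter (fun L => L.any Gate.isMulti) [L]).length = 0 := by
        rw [List.filter_cons, hmul']
        simp
      rw [this, add_zero, hm hmul']
      have e2 : reflProd κ ([] : List (Finset (Fin N))) = 1 := by simp [reflProd]
      rw [e2, mul_one]
      exact ih'.pu_mul hU

end Vale.Agent.P368
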