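import Vale.Agent.Lib.P368.Act

open Matrix Finset
open scoped ComplexOrder

set_option linter.unusedSectionVars false

namespace Vale.Agent.P368

variable {Q : Type} [Fintype Q] [DecidableEq Q]

/-- diagonal operator with real entries -/
noncomputable def dg (f : (Q → Bool) → ℝ) : MQ Q := Matrix.diagonal fun ω => (f ω : ℂ)

lemma act_dg (f : (Q → Bool) → ℝ) (v : EQ Q) (ω : Q → Bool) :
    act (dg f) v ω = (f ω : ℂ) * v ω := by
  unfold dg act
  simp [Matrix.mulVec_diagonal]

lemma dg_mul (f g : (Q → Bool) → ℝ) : dg f * dg g = dg (fun ω => f ω * g ω) := by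
  unfold dg
  rw [Matrix.diagonal_mul_diagonal]
  congr 1
  funext ω
  push_cast
  rfl

lemma dg_conj (f : (Q → Bool) → ℝ) : (dg f)ᴴ = dg f := by
  unfold dg
  rw [Matrix.diagonal_conjTranspose]
  congr 1
  funext ω
  simp

lemma dg_one : dg (fun _ : Q → Bool => (1 : ℝ)) = 1 := by
  unfold dg
  simp

lemma dg_sub (f g : (Q → Bool) → ℝ) : dg (fun ω => f ω - g ω) = dg f - dg g := by
  unfold dg
  rw [Matrix.diagonal_sub]
  congr 1
  funext ω
  push_cast
  rfl

lemma dg_add (f g : (Q → Bool) → ℝ) : dg (fun ω => f ω + g ω) = dg f + dg g := by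
  unfold dg
  rw [Matrix.diagonal_add]
  congr 1
  funext ω
  push_cast
  rfl

/-- functional calculus in a product basis -/
noncomputable def cj (U : Q → M2) (f : (Q → Bool) → ℝ) : MQ Q := top U * dg f * (top U)ᴴ

lemma cj_mul {U : Q → M2} (hU : IsPU U) (f g : (Q → Bool) → ℝ) :
    cj U f * cj U g = cj U (fun ω => f ω * g ω) := by
  unfold cj
  rw [show top U * dg f * (top U)ᴴ * (top U * dg g * (top U)ᴴ) =
    top U * dg f * ((top U)ᴴ * top U) * dg g * (top U)ᴴ by simp only [mul_assoc],
    hU.top_left, mul_one, mul_assoc (top U), dg_mul]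

lemma cj_conj (U : Q → M2) (f : (Q → Bool) → ℝ) : (cj U f)ᴴ = cj U f := by
  unfold cj
  rw [Matrix.conjTranspose_mul, Matrix.conjTranspose_mul, Matrix.conjTranspose_conjTranspose,
    dg_conj, mul_assoc]

lemma cj_one {U : Q → M2} (hU : IsPU U) : cj U (fun _ => (1 : ℝ)) = 1 := by
  unfold cj
  rw [dg_one, mul_one, hU.top_right]

lemma cj_sub (U : Q → M2) (f g : (Q → Bool) → ℝ) :
    cj U (fun ω => f ω - g ω) = cj U f - cj U g := by
  unfold cj
  rw [dg_sub, mul_sub, sub_mul]

lemma cj_add (U : Q → M2) (f g : (Q → Bool) → ℝ) :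
    cj U (fun ω => f ω + g ω) = cj U f + cj U g := by
  unfold cj
  rw [dg_add, mul_add, add_mul]

lemma cj_comm {U : Q → M2} (hU : IsPU U) (f g : (Q → Bool) → ℝ) :
    cj U f * cj U g = cj U g * cj U f := by
  rw [cj_mul hU, cj_mul hU]
  congr 1
  funext ω
  ring

lemma cj_smul (U : Q → M2) (c : ℝ) (f : (Q → Bool) → ℝ) :
    cj U (fun ω => c * f ω) = (c : ℂ) • cj U f := by
  have : dg (fun ω => c * f ω) = (c : ℂ) • dg f := by
    unfold dg
    rw [← Matrix.diagonal_smul]
    congr 1
    funext ω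
    simp
  unfold cj
  rw [this, mul_smul_comm, smul_mul_assoc]

/-- indicator that all outcomes on `A` vanish -/
noncomputable def dl (A : Finset Q) (ω : Q → Bool) : ℝ := if ∀ q ∈ A, ω q = false then 1 else 0

lemma dl_sq (A : Finset Q) (ω : Q → Bool) : dl A ω * dl A ω = dl A ω := by
  unfold dl
  split_ifs <;> simp

lemma dl_nonneg (A : Finset Q) (ω : Q → Bool) : 0 ≤ dl A ω := by
  unfold dl
  split_ifs <;> norm_num

lemma dl_le_one (A : Finset Q) (ω : Q → Bool) : dl A ω ≤ 1 := by
  unfold dl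
  split_ifs <;> norm_num

lemma dl_eq_prod (A : Finset Q) (ω : Q → Bool) :
    dl A ω = ∏ q ∈ A, (if ω q = false then (1 : ℝ) else 0) := by
  unfold dl
  by_cases h : ∀ q ∈ A, ω q = false
  · rw [if_pos h, Finset.prod_eq_one]
    intro q hq
    rw [if_pos (h q hq)]
  · rw [if_neg h]
    push Not at h
    obtain ⟨q, hq, hq'⟩ := h
    rw [Finset.prod_eq_zero hq]
    rw [if_neg hq']

lemma top_basisP_eq_dg (A : Finset Q) : topOn A (fun _ => basisP false) = dg (dl A) := by
  ext y x
  unfold topOn dg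
  rw [top_apply]
  by_cases h : y = x
  · subst h
    rw [Matrix.diagonal_apply_eq]
    by_cases h' : ∀ q ∈ A, y q = false
    · rw [Finset.prod_eq_one]
      · simp [dl, if_pos h']
      · intro q _
        by_cases hq : q ∈ A
        · simp [hq, h' q hq, basisP]
        · simp [hq]
    · unfold dl
      rw [if_neg h']
      push Not at h'
      obtain ⟨q, hq, hq'⟩ := h'
      rw [Finset.prod_eq_zero (Finset.mem_univ q)]
      · simp
      · simp [hq, basisP, hq']
  · rw [Matrix.diagonal_apply_ne _ h]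
    obtain ⟨q, hq⟩ := Function.ne_iff.mp h
    apply Finset.prod_eq_zero (Finset.mem_univ q)
    by_cases hqA : q ∈ A
    · simp only [hqA, if_true, basisP, Matrix.of_apply]
      rw [if_neg]
      intro ⟨h1, h2⟩
      exact hq (h1.trans h2.symm)
    · simp [hqA, hq]

lemma topOn_eq_cj {U θ : Q → M2} (hU : IsPU U)
    (hθ : ∀ q, θ q = U q * basisP false * (U q)ᴴ) (A : Finset Q) :
    topOn A θ = cj U (dl A) := by
  unfold cj
  rw [← top_basisP_eq_dg, top_conjTranspose]
  unfold topOn
  rw [top_mul, top_mul]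
  congr 1
  funext q
  split_ifs
  · exact hθ q
  · rw [mul_one, (hU q).2]

lemma refl_eq_cj {U θ : Q → M2} (hU : IsPU U)
    (hθ : ∀ q, θ q = U q * basisP false * (U q)ᴴ) (A : Finset Q) :
    refl θ A = cj U (fun ω => 1 - 2 * dl A ω) := by
  unfold refl
  rw [topOn_eq_cj hU hθ, cj_sub, cj_one hU, cj_smul]
  norm_num

lemma reflProd_eq_cj {U θ : Q → M2} (hU : IsPU U)
    (hθ : ∀ q, θ q = U q * basisP false * (U q)ᴴ) (L : List (Finset Q)) :
    reflProd θ L = cj U (fun ω => (L.map fun h => 1 - 2 * dl h ω).prod) := by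
  induction L with
  | nil =>
    simp only [reflProd, List.map_nil, List.prod_nil]
    rw [cj_one hU]
  | cons h L ih =>
    have e1 : reflProd θ (h :: L) = refl θ h * reflProd θ L := by simp [reflProd]
    rw [e1, ih, refl_eq_cj hU hθ, cj_mul hU]
    simp only [List.map_cons, List.prod_cons]

/-- every rank one projector on a qubit is unitarily equivalent to the first basis projector -/
lemma IsRP.exists_unitary {P : M2} (hP : IsRP P) :
    ∃ U : M2, (Uᴴ * U = 1 ∧ U * Uᴴ = 1) ∧ P = U * basisP false * Uᴴ := by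
  obtain ⟨e1, e2, e3, e4⟩ := hP.entries
  have gen : ∀ a b : ℂ, a * star a + b * star b = 1 →
      P false false = a * star a → P false true = a * star b →
      ∃ U : M2, (Uᴴ * U = 1 ∧ U * Uᴴ = 1) ∧ P = U * basisP false * Uᴴ := by
    intro a b hab h1 h2
    refine ⟨Matrix.of fun i j => if i = false then (if j = false then a else - star b)
      else (if j = false then b else star a), ?_, ?_⟩
    · constructor
      · ext i j
        cases i <;> cases j <;>
          simp only [Matrix.mul_apply, Fintype.sum_bool, Matrix.conjTranspose_apply,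
            Matrix.of_apply, Bool.true_eq_false, Bool.false_eq_true, if_true, if_false,
            Matrix.one_apply, star_neg, star_star]
        · linear_combination hab
        · ring
        · ring
        · linear_combination hab
      · ext i j
        cases i <;> cases j <;>
          simp only [Matrix.mul_apply, Fintype.sum_bool, Matrix.conjTranspose_apply,
            Matrix.of_apply, Bool.true_eq_false, Bool.false_eq_true, if_true, if_false,
            Matrix.one_apply, star_neg, star_star]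
        · linear_combination hab
        · ring
        · ring
        · linear_combination hab
    · ext i j
      cases i <;> cases j <;>
        simp only [Matrix.mul_apply, Fintype.sum_bool, Matrix.conjTranspose_apply,
          Matrix.of_apply, Bool.true_eq_false, if_true, if_false, basisP,
          and_self, and_false, false_and, mul_zero, mul_one, zero_mul, zero_add]
      · exact h1
      · exact h2
      · rw [e2, h2]; simp [mul_comm]
      · rw [e1, h1]; linear_combination -hab
  by_cases h0 : P false false = 0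
  · apply gen 0 1
    · simp
    · simpa using h0
    · rw [h0] at e4
      simp only [RCLike.star_def, zero_mul] at e4
      have : P false true = 0 := by
        have h5 : (starRingEnd ℂ) (P false true) * P false true = 0 := by
          rw [mul_comm]; exact e4
        rw [Complex.conj_mul'] at h5
        simpa using h5
      rw [this]; simp
  · -- the entry is a positive real
    obtain ⟨r, hr0, hr⟩ : ∃ r : ℝ, 0 < r ∧ P false false = (r : ℂ) := by
      have hre : P false false = ((P false false).re : ℂ) := by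
        apply Complex.ext
        · simp
        · have := congrArg Complex.im e3
          simp only [RCLike.star_def, Complex.conj_im] at this
          simp only [Complex.ofReal_im]
          linarith
      have hpos := hP.trace_mul_mem (isRP_basisP false)
      obtain ⟨r, hr0, -, hr⟩ := hpos
      have e5 : (P * basisP false).trace = P false false := by
        simp [Matrix.trace, Matrix.mul_apply, basisP]
      rw [e5] at hr
      refine ⟨r, lt_of_le_of_ne hr0 ?_, hr⟩
      intro h
      apply h0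
      rw [hr, ← h]
      simp
    have hs : ((Real.sqrt r : ℝ) : ℂ) * ((Real.sqrt r : ℝ) : ℂ) = (r : ℂ) := by
      rw [← Complex.ofReal_mul, Real.mul_self_sqrt hr0.le]
    have hs0 : ((Real.sqrt r : ℝ) : ℂ) ≠ 0 := by
      rw [Complex.ofReal_ne_zero]
      exact (Real.sqrt_pos.mpr hr0).ne'
    have hsc : star ((Real.sqrt r : ℝ) : ℂ) = ((Real.sqrt r : ℝ) : ℂ) := by
      simp
    apply gen ((Real.sqrt r : ℝ) : ℂ) (star (P false true) / ((Real.sqrt r : ℝ) : ℂ))
    · rw [star_div₀, hsc, star_star, hs, div_mul_div_comm, hs, mul_comm (star _), e4, hr]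
      have : (r : ℂ) ≠ 0 := by rw [← hs]; exact mul_ne_zero hs0 hs0
      field_simp
      ring
    · rw [hsc, hs, hr]
    · rw [star_div₀, hsc, star_star]
      field_simp

/-- commutation with every operator on the wire `q` -/
def Av (q : Q) (M : MQ Q) : Prop := ∀ a : M2, Commute (at1 q a) M

lemma Av.mul {q : Q} {M N : MQ Q} (h1 : Av q M) (h2 : Av q N) : Av q (M * N) :=
  fun a => (h1 a).mul_right (h2 a)

lemma Av.sub {q : Q} {M N : MQ Q} (h1 : Av q M) (h2 : Av q N) : Av q (M - N) :=
  fun a => (h1 a).sub_right (h2 a)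

lemma av_topOn {q : Q} {A : Finset Q} (hq : q ∉ A) (θ : Q → M2) : Av q (topOn A θ) :=
  fun a => topOn_commute_topOn (by simpa using hq) _ _

lemma at1_conj_topU {U : Q → M2} (hU : IsPU U) (q : Q) (a : M2) :
    at1 q a * top U = top U * at1 q ((U q)ᴴ * a * U q) := by
  unfold at1
  rw [topOn_mul_topU hU]
  congr 1
  apply topOn_congr
  intro r hr
  rw [Finset.mem_singleton.mp hr]

lemma topU_star_at1 {U : Q → M2} (hU : IsPU U) (q : Q) (a : M2) :
    (top U)ᴴ * at1 q a = at1 q ((U q)ᴴ * a * U q) * (top U)ᴴ := by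
  have h := at1_conj_topU hU q a
  calc (top U)ᴴ * at1 q a = (top U)ᴴ * (at1 q a * top U) * (top U)ᴴ := by
        rw [mul_assoc, mul_assoc, hU.top_right, mul_one]
    _ = _ := by rw [h, ← mul_assoc, hU.top_left, one_mul]

lemma at1_apply (q : Q) (a : M2) (y x : Q → Bool) :
    at1 q a y x = if (∀ r, r ≠ q → y r = x r) then a (y q) (x q) else 0 := by
  unfold at1 topOn
  rw [top_apply]
  split_ifs with h
  · rw [← Finset.mul_prod_erase _ _ (Finset.mem_univ q), Finset.prod_eq_one, mul_one]
    · simp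
    · intro r hr
      have hrq := Finset.ne_of_mem_erase hr
      rw [if_neg (by simpa using hrq), h r hrq, Matrix.one_apply_eq]
  · push Not at h
    obtain ⟨r, hrq, hr⟩ := h
    apply Finset.prod_eq_zero (Finset.mem_univ r)
    simp [hrq, hr]

lemma av_dg {q : Q} {f : (Q → Bool) → ℝ}
    (hf : ∀ ω η : Q → Bool, (∀ r, r ≠ q → ω r = η r) → f ω = f η) : Av q (dg f) := by
  intro a
  unfold Commute SemiconjBy dg
  ext y x
  rw [Matrix.mul_diagonal, Matrix.diagonal_mul, at1_apply]
  split_ifs with h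
  · rw [hf y x h, mul_comm]
  · simp

lemma av_cj {U : Q → M2} (hU : IsPU U) {q : Q} {f : (Q → Bool) → ℝ}
    (hf : ∀ ω η : Q → Bool, (∀ r, r ≠ q → ω r = η r) → f ω = f η) : Av q (cj U f) := by
  intro a
  have h := (av_dg hf ((U q)ᴴ * a * U q)).eq
  unfold Commute SemiconjBy cj
  calc at1 q a * (top U * dg f * (top U)ᴴ) = (at1 q a * top U) * dg f * (top U)ᴴ := by
        simp only [mul_assoc]
    _ = top U * (at1 q ((U q)ᴴ * a * U q) * dg f) * (top U)ᴴ := by
        rw [at1_conj_topU hU]; simp only [mul_assoc]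
    _ = top U * dg f * (at1 q ((U q)ᴴ * a * U q) * (top U)ᴴ) := by
        rw [h]; simp only [mul_assoc]
    _ = top U * dg f * (top U)ᴴ * at1 q a := by
        rw [← topU_star_at1 hU]; simp only [mul_assoc]

lemma topOn_insert {q : Q} {A : Finset Q} (hq : q ∉ A) (θ : Q → M2) :
    topOn (insert q A) θ = at1 q (θ q) * topOn A θ := by
  unfold at1 topOn
  rw [top_mul]
  congr 1
  funext r
  by_cases hr : r = q
  · subst hr
    simp [hq]
  · by_cases hrA : r ∈ A <;> simp [hr, hrA]

lemma topOn_empty (θ : Q → M2) : topOn ∅ θ = 1 := by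
  unfold topOn
  simp only [Finset.notMem_empty, if_false]
  exact top_one

lemma commute_topOn {A : Finset Q} {M : MQ Q} (h : ∀ q ∈ A, Av q M) (θ : Q → M2) :
    Commute (topOn A θ) M := by
  induction A using Finset.induction_on with
  | empty => rw [topOn_empty]; exact Commute.one_left _
  | insert q A hq ih =>
    rw [topOn_insert hq]
    exact (h q (Finset.mem_insert_self q A) (θ q)).mul_left
      (ih fun r hr => h r (Finset.mem_insert_of_mem hr))

/-! ### quadratic forms -/

/-- diagonal quadratic form -/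
noncomputable def qf (f : (Q → Bool) → ℝ) (v : EQ Q) : ℝ := ∑ ω, f ω * ‖v ω‖ ^ 2

lemma qf_one (v : EQ Q) : qf (fun _ => 1) v = ‖v‖ ^ 2 := by
  unfold qf
  rw [EuclideanSpace.norm_sq_eq]
  simp

lemma qf_mono {f g : (Q → Bool) → ℝ} (h : ∀ ω, f ω ≤ g ω) (v : EQ Q) : qf f v ≤ qf g v := by
  unfold qf
  apply Finset.sum_le_sum
  intro ω _
  exact mul_le_mul_of_nonneg_right (h ω) (by positivity)

lemma qf_nonneg {f : (Q → Bool) → ℝ} (h : ∀ ω, 0 ≤ f ω) (v : EQ Q) : 0 ≤ qf f v := by
  unfold qf
  apply Finset.sum_nonneg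
  intro ω _
  exact mul_nonneg (h ω) (by positivity)

lemma qf_sum {ι : Type} (s : Finset ι) (f : ι → (Q → Bool) → ℝ) (v : EQ Q) :
    ∑ i ∈ s, qf (f i) v = qf (fun ω => ∑ i ∈ s, f i ω) v := by
  unfold qf
  rw [Finset.sum_comm]
  apply Finset.sum_congr rfl
  intro ω _
  rw [Finset.sum_mul]

lemma qf_sub (f g : (Q → Bool) → ℝ) (v : EQ Q) :
    qf (fun ω => f ω - g ω) v = qf f v - qf g v := by
  unfold qf
  rw [← Finset.sum_sub_distrib]
  apply Finset.sum_congr rfl
  intro ω _
  ring

lemma qf_const_mul (c : ℝ) (f : (Q → Bool) → ℝ) (v : EQ Q) :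
    qf (fun ω => c * f ω) v = c * qf f v := by
  unfold qf
  rw [Finset.mul_sum]
  apply Finset.sum_congr rfl
  intro ω _
  ring

lemma qf_le_const {f : (Q → Bool) → ℝ} {c : ℝ} (h : ∀ ω, f ω ≤ c) (v : EQ Q) :
    qf f v ≤ c * ‖v‖ ^ 2 := by
  rw [← qf_one, ← qf_const_mul]
  exact qf_mono (by simpa using h) v

lemma norm_act_dg (f : (Q → Bool) → ℝ) (v : EQ Q) :
    ‖act (dg f) v‖ ^ 2 = qf (fun ω => f ω * f ω) v := by
  unfold qf
  rw [EuclideanSpace.norm_sq_eq]
  apply Finset.sum_congr rfl
  intro ω _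
  rw [act_dg, norm_mul, Complex.norm_real, mul_pow, Real.norm_eq_abs, sq_abs, sq]

lemma qf_act_dg (f g : (Q → Bool) → ℝ) (v : EQ Q) :
    qf f (act (dg g) v) = qf (fun ω => f ω * (g ω * g ω)) v := by
  unfold qf
  apply Finset.sum_congr rfl
  intro ω _
  rw [act_dg, norm_mul, Complex.norm_real, mul_pow, Real.norm_eq_abs, sq_abs, sq]
  ring

lemma norm_act_cj {U : Q → M2} (hU : IsPU U) (f : (Q → Bool) → ℝ) (v : EQ Q) :
    ‖act (cj U f) v‖ ^ 2 = qf (fun ω => f ω * f ω) (act (top U)ᴴ v) := by
  unfold cj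
  rw [act_mul, act_mul, norm_act_isom hU.top_left, norm_act_dg]

/-- expectation of an operator -/
noncomputable def ev (N : MQ Q) (v : EQ Q) : ℝ := (inner ℂ v (act N v)).re

lemma ev_dg (f : (Q → Bool) → ℝ) (v : EQ Q) : ev (dg f) v = qf f v := by
  unfold ev qf
  simp only [PiLp.inner_apply, RCLike.inner_apply, act_dg, Complex.re_sum]
  apply Finset.sum_congr rfl
  intro ω _
  rw [mul_assoc, Complex.mul_conj', Complex.re_ofReal_mul]
  congr 1
  norm_cast

lemma ev_conj_mul (N A : MQ Q) (v : EQ Q) : ev (Aᴴ * N * A) v = ev N (act A v) := by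
  unfold ev
  rw [act_mul, act_mul, inner_act]

lemma ev_mul_conj (N A : MQ Q) (v : EQ Q) : ev (A * N * Aᴴ) v = ev N (act Aᴴ v) := by
  have := ev_conj_mul N Aᴴ v
  rwa [Matrix.conjTranspose_conjTranspose] at this

lemma ev_cj (U : Q → M2) (f : (Q → Bool) → ℝ) (v : EQ Q) :
    ev (cj U f) v = qf f (act (top U)ᴴ v) := by
  unfold cj
  rw [ev_mul_conj, ev_dg]

lemma abs_norm_sq_sub_le {a b : EQ Q} (ha : ‖a‖ ≤ 1) (hb : ‖b‖ ≤ 1) :
    |‖a‖ ^ 2 - ‖b‖ ^ 2| ≤ 2 * ‖a - b‖ := by
  have h1 : |‖a‖ - ‖b‖| ≤ ‖a - b‖ := abs_norm_sub_norm_le a b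
  have h2 : ‖a‖ ^ 2 - ‖b‖ ^ 2 = (‖a‖ + ‖b‖) * (‖a‖ - ‖b‖) := by ring
  rw [h2, abs_mul, abs_of_nonneg (by positivity : 0 ≤ ‖a‖ + ‖b‖)]
  exact mul_le_mul (by linarith) h1 (abs_nonneg _) (by norm_num)

end Vale.Agent.P368
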