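import Vale.Agent.Lib.P368.Count

open Matrix Finset
open scoped ComplexOrder

set_option linter.unusedSectionVars false

namespace Vale.Agent.P368

variable {Q : Type} [Fintype Q] [DecidableEq Q]

/-- the state before the measurement, in the measurement basis -/
noncomputable def hatv (C D : Q → M2) (s : (Q → Bool) → ℝ) (v : EQ Q) : EQ Q :=
  act (top D)ᴴ (act (cj C s) v)

lemma cj_isom {C : Q → M2} (hC : IsPU C) {s : (Q → Bool) → ℝ} (hs : ∀ ω, s ω * s ω = 1) :
    (cj C s)ᴴ * cj C s = 1 := by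
  rw [cj_conj, cj_mul hC]
  simp_rw [hs]
  exact cj_one hC

lemma norm_hatv {C D : Q → M2} (hC : IsPU C) (hD : IsPU D) {s : (Q → Bool) → ℝ}
    (hs : ∀ ω, s ω * s ω = 1) (v : EQ Q) : ‖hatv C D s v‖ = ‖v‖ := by
  unfold hatv
  rw [norm_act_isom (by rw [Matrix.conjTranspose_conjTranspose]; exact hD.top_right),
    norm_act_isom (cj_isom hC hs)]

lemma ev_RTR (C D : Q → M2) (s f : (Q → Bool) → ℝ) (v : EQ Q) :
    ev (cj C s * cj D f * cj C s) v = qf f (hatv C D s v) := by
  have e : cj C s * cj D f * cj C s = (cj C s)ᴴ * cj D f * cj C s := by rw [cj_conj]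
  rw [e, ev_conj_mul, ev_cj]
  rfl

lemma norm_dg_isom {f : (Q → Bool) → ℝ} (hf : ∀ ω, f ω * f ω = 1) (v : EQ Q) :
    ‖act (dg f) v‖ = ‖v‖ := by
  apply norm_act_isom
  rw [dg_conj, dg_mul]
  simp_rw [hf]
  exact dg_one

section core

variable {V C D : Q → M2} (hV : IsPU V) (hC : IsPU C) (hD : IsPU D)
  {r s : (Q → Bool) → ℝ} (hr : ∀ ω, r ω * r ω = 1) (hs : ∀ ω, s ω * s ω = 1)
  (S I : Finset Q)

include hV hC hD hr hs in
/-- averaging over the live wires -/
lemma core_sum {Del : Q → Finset Q} {L : ℕ}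
    (hL : ∀ q, (I.filter fun i => q ∈ Del i).card ≤ L)
    (hAv : ∀ i ∈ I, Av i (cj C s * cj D (dl (S \ Del i)) * cj C s)) :
    (I.card : ℝ) * |Ex fun x => sgn I x * ev (cj C s * cj D (dl S) * cj C s)
        (act (dg r) (uv V (msk I x)))| ≤
      L + (1 / 2) * ∑ i ∈ I, Ex fun x =>
        |ev (cj C s * cj D (dl (S \ Del i)) * cj C s)
            (act (dg (fx i true r)) (uv V (msk I x))) -
          ev (cj C s * cj D (dl (S \ Del i)) * cj C s)
            (act (dg (fx i false r)) (uv V (msk I x)))| := by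
  set M : Finset Q → MQ Q := fun A => cj C s * cj D (dl A) * cj C s with hM
  set ψ : (Q → Bool) → EQ Q := fun x => act (dg r) (uv V (msk I x)) with hψ
  set Δ : Q → (Q → Bool) → ℝ := fun i x =>
    |ev (M (S \ Del i)) (act (dg (fx i true r)) (uv V (msk I x))) -
      ev (M (S \ Del i)) (act (dg (fx i false r)) (uv V (msk I x)))| with hΔ
  have hψn : ∀ x, ‖ψ x‖ = 1 := fun x => by
    rw [hψ]; simp only; rw [norm_dg_isom hr, norm_uv hV]
  have evM : ∀ A v, ev (M A) v = qf (dl A) (hatv C D s v) := fun A v => ev_RTR C D s (dl A) v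
  -- one wire
  have one : ∀ i ∈ I, |Ex fun x => sgn I x * ev (M S) (ψ x)| ≤
      Ex (fun x => ev (M (S \ Del i)) (ψ x) - ev (M S) (ψ x)) + (1 / 2) * Ex (Δ i) := by
    intro i hi
    have e : (Ex fun x => sgn I x * ev (M S) (ψ x)) =
        Ex (fun x => sgn I x * ev (M (S \ Del i)) (ψ x)) -
        Ex (fun x => sgn I x * (ev (M (S \ Del i)) (ψ x) - ev (M S) (ψ x))) := by
      rw [← Ex_sub]
      congr 1
      funext x
      ring
    rw [e]
    refine (abs_sub _ _).trans ?_
    have h1 := Ex_sgn_le hV hi (hAv i hi) r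
    have h2 : |Ex (fun x => sgn I x * (ev (M (S \ Del i)) (ψ x) - ev (M S) (ψ x)))| ≤
        Ex (fun x => ev (M (S \ Del i)) (ψ x) - ev (M S) (ψ x)) := by
      refine (abs_Ex_le _).trans (Ex_mono fun x => ?_)
      rw [abs_mul, abs_sgn, one_mul, abs_of_nonneg]
      rw [evM, evM, sub_nonneg]
      apply qf_mono
      intro ω
      unfold dl
      by_cases h3 : ∀ q ∈ S, ω q = false
      · rw [if_pos h3, if_pos (fun q hq => h3 q (Finset.mem_sdiff.mp hq).1)]
      · rw [if_neg h3]
        split_ifs <;> norm_num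
    linarith
  have two : ∑ i ∈ I, Ex (fun x => ev (M (S \ Del i)) (ψ x) - ev (M S) (ψ x)) ≤ L := by
    rw [← Ex_sum]
    apply Ex_le_const
    intro x
    have e : ∑ i ∈ I, (ev (M (S \ Del i)) (ψ x) - ev (M S) (ψ x)) =
        qf (fun ω => ∑ i ∈ I, (dl (S \ Del i) ω - dl S ω)) (hatv C D s (ψ x)) := by
      rw [← qf_sum]
      apply Finset.sum_congr rfl
      intro i _
      rw [evM, evM, qf_sub]
    rw [e]
    refine (qf_le_const (count_one hL S) _).trans ?_
    rw [norm_hatv hC hD hs, hψn]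
    norm_num
  calc (I.card : ℝ) * |Ex fun x => sgn I x * ev (M S) (ψ x)|
      = ∑ i ∈ I, |Ex fun x => sgn I x * ev (M S) (ψ x)| := by
        rw [Finset.sum_const, nsmul_eq_mul]
    _ ≤ ∑ i ∈ I, (Ex (fun x => ev (M (S \ Del i)) (ψ x) - ev (M S) (ψ x)) +
          (1 / 2) * Ex (Δ i)) := Finset.sum_le_sum one
    _ = ∑ i ∈ I, Ex (fun x => ev (M (S \ Del i)) (ψ x) - ev (M S) (ψ x)) +
          (1 / 2) * ∑ i ∈ I, Ex (Δ i) := by
        rw [Finset.sum_add_distrib, Finset.mul_sum]
    _ ≤ _ := by linarith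

/-- overlap weight of a set of wires -/
noncomputable def bet (V : Q → M2) (b : Finset Q) : ℝ := ∏ q ∈ b, ‖V q false false‖ ^ 2

lemma qf_dl_uv {V : Q → M2} (hV : IsPU V) {I b : Finset Q} (hb : Disjoint b I)
    (x : Q → Bool) : qf (dl b) (uv V (msk I x)) = bet V b := by
  have e : dl b = fun ω : Q → Bool => ∏ q, (if q ∈ b then (if ω q = false then (1 : ℝ) else 0)
      else 1) := by
    funext ω
    rw [dl_eq_prod, Finset.prod_ite_mem, Finset.univ_inter]
  rw [e]
  have := qf_uv_prod V (msk I x) (fun q c => if q ∈ b then (if c = false then (1 : ℝ) else 0)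
      else 1)
  rw [this]
  unfold bet
  rw [← Finset.univ_inter b, ← Finset.prod_ite_mem]
  apply Finset.prod_congr rfl
  intro q _
  rw [Finset.univ_inter, Fintype.sum_bool]
  by_cases hq : q ∈ b
  · have hqI : q ∉ I := Finset.disjoint_left.mp hb hq
    simp [hq, msk, hqI]
  · simp only [hq, if_false, one_mul]
    have := col_norm (hV q).1 (msk I x q)
    linarith

/-- the phase function on both sides of a wire in the block `j` -/
lemma fx_rf {J : Type} [DecidableEq J] {h : J → Finset Q}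
    (hh : ∀ j j', j ≠ j' → Disjoint (h j) (h j')) {K : Finset J} {j : J} (hj : j ∈ K) {i : Q}
    (hi : i ∈ h j) (ω : Q → Bool) :
    fx i false (rf h K) ω = fx i true (rf h K) ω * (1 - 2 * dl ((h j).erase i) ω) := by
  have e : ∀ b, fx i b (rf h K) ω =
      (1 - 2 * dl (h j) (Function.update ω i b)) * rf h (K.erase j) ω := by
    intro b
    unfold fx
    have : rf h K (Function.update ω i b) = (1 - 2 * dl (h j) (Function.update ω i b)) *
        rf h (K.erase j) (Function.update ω i b) :=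
      (Finset.mul_prod_erase K (fun j => 1 - 2 * dl (h j) (Function.update ω i b)) hj).symm
    rw [this]
    congr 1
    apply rf_indep (q := i)
    · intro j' hj'
      rw [Finset.mem_erase] at hj'
      exact Finset.disjoint_left.mp (hh j j' hj'.1.symm) hi
    · intro q hq
      rw [Function.update_of_ne hq]
  rw [e, e]
  have e1 : dl (h j) (Function.update ω i true) = 0 := by
    unfold dl
    rw [if_neg]
    intro h1
    have := h1 i hi
    simp at this
  have e2 : dl (h j) (Function.update ω i false) = dl ((h j).erase i) ω := by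
    unfold dl
    congr 1
    apply propext
    constructor
    · intro h1 q hq
      have := h1 q (Finset.mem_of_mem_erase hq)
      rwa [Function.update_of_ne (Finset.ne_of_mem_erase hq)] at this
    · intro h1 q hq
      by_cases hqi : q = i
      · subst hqi; simp
      · rw [Function.update_of_ne hqi]
        exact h1 q (Finset.mem_erase.mpr ⟨hqi, hq⟩)
  rw [e1, e2]
  ring

lemma fx_rf_free {J : Type} {h : J → Finset Q} {K : Finset J} {i : Q}
    (hi : ∀ j ∈ K, i ∉ h j) : fx i false (rf h K) = fx i true (rf h K) := by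
  funext ω
  unfold fx
  apply rf_indep hi
  intro q hq
  rw [Function.update_of_ne hq, Function.update_of_ne hq]

include hV hC hD hs in
/-- bound for a wire with a small overlap -/
lemma typeA_bound {A : Finset Q} {i : Q} {J : Type} [DecidableEq J] {h : J → Finset Q}
    (hh : ∀ j j', j ≠ j' → Disjoint (h j) (h j')) {K : Finset J} {β : ℝ} (hβ : 0 ≤ β)
    (hsmall : ∀ j ∈ K, i ∈ h j → Disjoint ((h j).erase i) I ∧ bet V ((h j).erase i) ≤ β)
    (x : Q → Bool) :
    |ev (cj C s * cj D (dl A) * cj C s) (act (dg (fx i true (rf h K))) (uv V (msk I x))) -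
      ev (cj C s * cj D (dl A) * cj C s) (act (dg (fx i false (rf h K))) (uv V (msk I x)))| ≤
      4 * Real.sqrt β := by
  by_cases hex : ∃ j ∈ K, i ∈ h j
  · obtain ⟨j, hj, hij⟩ := hex
    obtain ⟨hdis, hle⟩ := hsmall j hj hij
    set u := uv V (msk I x) with hu
    set f₀ := fx i true (rf h K) with hf₀
    set f₁ := fx i false (rf h K) with hf₁
    have hf₀sq : ∀ ω, f₀ ω * f₀ ω = 1 := fun ω => rf_sq h K _
    have hf₁sq : ∀ ω, f₁ ω * f₁ ω = 1 := fun ω => rf_sq h K _
    have key : ∀ v : EQ Q, ev (cj C s * cj D (dl A) * cj C s) v =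
        ‖act (dg (dl A)) (hatv C D s v)‖ ^ 2 := by
      intro v
      rw [ev_RTR, norm_act_dg]
      congr 1
      funext ω
      rw [dl_sq]
    have nrm : ∀ v : EQ Q, ‖v‖ = 1 → ‖act (dg (dl A)) (hatv C D s v)‖ ≤ 1 := by
      intro v hv
      have : ‖act (dg (dl A)) (hatv C D s v)‖ ^ 2 ≤ 1 := by
        rw [norm_act_dg]
        refine (qf_le_const (c := 1) (fun ω => ?_) _).trans ?_
        · rw [dl_sq]; exact dl_le_one A ω
        · rw [norm_hatv hC hD hs, hv]; norm_num
      nlinarith [norm_nonneg (act (dg (dl A)) (hatv C D s v))]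
    rw [key, key]
    refine (abs_norm_sq_sub_le (nrm _ ?_) (nrm _ ?_)).trans ?_
    · rw [norm_dg_isom hf₀sq, hu, norm_uv hV]
    · rw [norm_dg_isom hf₁sq, hu, norm_uv hV]
    have e1 : act (dg (dl A)) (hatv C D s (act (dg f₀) u)) -
        act (dg (dl A)) (hatv C D s (act (dg f₁) u)) =
        act (dg (dl A)) (hatv C D s (act (dg (fun ω => f₀ ω - f₁ ω)) u)) := by
      unfold hatv
      rw [← act_vsub, ← act_vsub, ← act_vsub, ← act_sub, ← dg_sub]
    rw [e1]
    have e2 : ‖act (dg (dl A)) (hatv C D s (act (dg (fun ω => f₀ ω - f₁ ω)) u))‖ ≤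
        ‖act (dg (fun ω => f₀ ω - f₁ ω)) u‖ := by
      rw [← norm_hatv hC hD hs (act (dg (fun ω => f₀ ω - f₁ ω)) u)]
      set w := hatv C D s (act (dg (fun ω => f₀ ω - f₁ ω)) u)
      have : ‖act (dg (dl A)) w‖ ^ 2 ≤ ‖w‖ ^ 2 := by
        rw [norm_act_dg]
        refine (qf_le_const (c := 1) (fun ω => ?_) _).trans (by rw [one_mul])
        rw [dl_sq]; exact dl_le_one A ω
      exact (sq_le_sq₀ (norm_nonneg _) (norm_nonneg _)).mp this
    have e3 : ‖act (dg (fun ω => f₀ ω - f₁ ω)) u‖ ^ 2 = 4 * bet V ((h j).erase i) := by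
      rw [norm_act_dg, ← qf_dl_uv hV hdis x, ← qf_const_mul]
      congr 1
      funext ω
      have h1 : f₁ ω = f₀ ω * (1 - 2 * dl ((h j).erase i) ω) := fx_rf hh hj hij ω
      have h2 := hf₀sq ω
      have h3 := dl_sq ((h j).erase i) ω
      rw [h1]
      linear_combination (4 * dl ((h j).erase i) ω * dl ((h j).erase i) ω) * h2 + 4 * h3
    have e4 : ‖act (dg (fun ω => f₀ ω - f₁ ω)) u‖ ≤ 2 * Real.sqrt β := by
      have : ‖act (dg (fun ω => f₀ ω - f₁ ω)) u‖ ^ 2 ≤ (2 * Real.sqrt β) ^ 2 := by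
        rw [e3, mul_pow, Real.sq_sqrt hβ]
        linarith
      exact (sq_le_sq₀ (norm_nonneg _) (by positivity)).mp this
    linarith
  · push Not at hex
    rw [fx_rf_free hex, sub_self, abs_zero]
    positivity

end core

end Vale.Agent.P368
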