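import Vale.Agent.Lib.P368.CoreA

open Matrix Finset
open scoped ComplexOrder

set_option linter.unusedSectionVars false

namespace Vale.Agent.P368

variable {Q : Type} [Fintype Q] [DecidableEq Q]

/-- number of deviating wires -/
def kc (X : Finset Q) (ω : Q → Bool) : ℕ := (X.filter fun q => ω q = true).card

/-- the weight of an outcome -/
noncomputable def wW (X : Finset Q) (K₀ : ℕ) (ω : Q → Bool) : ℝ := 1 + 2 ^ kc X ω / 2 ^ K₀

/-- the deviation probability of a wire -/
noncomputable def ee (V : Q → M2) (q : Q) : ℝ := ‖V q true false‖ ^ 2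

lemma ee_nonneg (V : Q → M2) (q : Q) : 0 ≤ ee V q := by unfold ee; positivity

lemma wW_one_le (X : Finset Q) (K₀ : ℕ) (ω : Q → Bool) : 1 ≤ wW X K₀ ω := by
  unfold wW
  have : (0 : ℝ) ≤ 2 ^ kc X ω / 2 ^ K₀ := by positivity
  linarith

lemma wW_pos (X : Finset Q) (K₀ : ℕ) (ω : Q → Bool) : 0 < wW X K₀ ω :=
  lt_of_lt_of_le zero_lt_one (wW_one_le X K₀ ω)

lemma kc_div_le (X : Finset Q) (K₀ : ℕ) (ω : Q → Bool) :
    (kc X ω : ℝ) / wW X K₀ ω ≤ K₀ + 1 := by
  rw [div_le_iff₀ (wW_pos X K₀ ω)]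
  by_cases h : kc X ω ≤ K₀ + 1
  · have h1 : (kc X ω : ℝ) ≤ (K₀ : ℝ) + 1 := by exact_mod_cast h
    have h2 := wW_one_le X K₀ ω
    nlinarith
  · push Not at h
    obtain ⟨t, ht⟩ : ∃ t, kc X ω = K₀ + t := ⟨kc X ω - K₀, by omega⟩
    unfold wW
    rw [ht, pow_add]
    have e : (2 : ℝ) ^ K₀ * 2 ^ t / 2 ^ K₀ = 2 ^ t := by
      field_simp
    rw [e]
    have h3 : (t : ℝ) ≤ 2 ^ t := by exact_mod_cast (Nat.lt_two_pow_self (n := t)).le
    have h4 : (0 : ℝ) ≤ K₀ := by positivity
    have h5 : (0 : ℝ) ≤ t := by positivity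
    push_cast
    nlinarith [mul_nonneg h4 h5]

/-- product formula on a set of non-live wires -/
lemma qf_prod_on {V : Q → M2} (hV : IsPU V) {I X : Finset Q} (hX : Disjoint X I)
    (F : Q → Bool → ℝ) (x : Q → Bool) :
    qf (fun ω => ∏ q ∈ X, F q (ω q)) (uv V (msk I x)) =
      ∏ q ∈ X, (F q false * ‖V q false false‖ ^ 2 + F q true * ‖V q true false‖ ^ 2) := by
  have e : (fun ω : Q → Bool => ∏ q ∈ X, F q (ω q)) =
      fun ω => ∏ q, (if q ∈ X then F q (ω q) else 1) := by
    funext ω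
    rw [Finset.prod_ite_mem, Finset.univ_inter]
  rw [e]
  have := qf_uv_prod V (msk I x) (fun q c => if q ∈ X then F q c else 1)
  rw [this]
  rw [← Finset.univ_inter X, ← Finset.prod_ite_mem]
  apply Finset.prod_congr rfl
  intro q _
  rw [Finset.univ_inter, Fintype.sum_bool]
  by_cases hq : q ∈ X
  · have hqI : q ∉ I := Finset.disjoint_left.mp hX hq
    simp only [hq, if_true, msk, hqI, if_false]
    ring
  · simp only [hq, if_false, one_mul]
    have := col_norm (hV q).1 (msk I x q)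
    linarith

lemma qf_weight {V : Q → M2} (hV : IsPU V) {I X : Finset Q} (hX : Disjoint X I) {q : Q}
    (hq : q ∈ X) {K₀ : ℕ} (hW : 2 * ∏ q ∈ X, (1 + ee V q) ≤ 2 ^ K₀) (x : Q → Bool) :
    qf (fun ω => (if ω q = true then 1 else 0) * wW X K₀ ω) (uv V (msk I x)) ≤ 2 * ee V q := by
  have e : (fun ω : Q → Bool => (if ω q = true then (1 : ℝ) else 0) * wW X K₀ ω) =
      fun ω => (∏ r ∈ X, (if r = q then (if ω r = true then (1 : ℝ) else 0) else 1)) -
        (-(1 / 2 ^ K₀)) * ∏ r ∈ X, (if r = q then (if ω r = true then (2 : ℝ) else 0) else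
          (if ω r = true then 2 else 1)) := by
    funext ω
    have e1 : ∏ r ∈ X, (if r = q then (if ω r = true then (1 : ℝ) else 0) else 1) =
        if ω q = true then 1 else 0 := by
      rw [← Finset.mul_prod_erase X _ hq, Finset.prod_eq_one, mul_one, if_pos rfl]
      intro r hr
      rw [if_neg (Finset.ne_of_mem_erase hr)]
    have e2 : ∏ r ∈ X, (if r = q then (if ω r = true then (2 : ℝ) else 0) else
          (if ω r = true then 2 else 1)) = (if ω q = true then 1 else 0) * 2 ^ kc X ω := by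
      have e3 : (2 : ℝ) ^ kc X ω = ∏ r ∈ X, (if ω r = true then (2 : ℝ) else 1) := by
        unfold kc
        rw [Finset.prod_ite, Finset.prod_const, Finset.prod_const_one, mul_one]
      rw [e3, ← Finset.mul_prod_erase X _ hq, ← Finset.mul_prod_erase X
        (fun r => if ω r = true then (2 : ℝ) else 1) hq, if_pos rfl, ← mul_assoc]
      congr 1
      · split_ifs <;> norm_num
      · apply Finset.prod_congr rfl
        intro r hr
        rw [if_neg (Finset.ne_of_mem_erase hr)]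
    rw [e1, e2]
    unfold wW
    ring
  rw [e, qf_sub (fun ω => ∏ r ∈ X, (if r = q then (if ω r = true then (1 : ℝ) else 0) else 1)),
    qf_const_mul]
  have q1 := qf_prod_on hV hX (fun r c => if r = q then (if c = true then (1 : ℝ) else 0) else 1) x
  have q2 := qf_prod_on hV hX (fun r c => if r = q then (if c = true then (2 : ℝ) else 0) else
          (if c = true then 2 else 1)) x
  simp only at q1 q2
  rw [q1, q2]
  have nrm : ∀ r, ‖V r false false‖ ^ 2 = 1 - ee V r := by
    intro r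
    have := col_norm (hV r).1 false
    unfold ee
    linarith
  have p1 : ∏ r ∈ X, ((if r = q then (if (false : Bool) = true then (1 : ℝ) else 0) else 1) *
      ‖V r false false‖ ^ 2 + (if r = q then (if (true : Bool) = true then (1 : ℝ) else 0) else 1) *
      ‖V r true false‖ ^ 2) = ee V q := by
    rw [← Finset.mul_prod_erase X _ hq, Finset.prod_eq_one, mul_one]
    · simp [ee]
    · intro r hr
      rw [if_neg (Finset.ne_of_mem_erase hr), if_neg (Finset.ne_of_mem_erase hr), nrm]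
      unfold ee
      ring
  have p2 : ∏ r ∈ X, ((if r = q then (if (false : Bool) = true then (2 : ℝ) else 0) else
      (if (false : Bool) = true then 2 else 1)) *
      ‖V r false false‖ ^ 2 + (if r = q then (if (true : Bool) = true then (2 : ℝ) else 0) else
      (if (true : Bool) = true then 2 else 1)) * ‖V r true false‖ ^ 2) ≤
      2 * ee V q * ∏ r ∈ X, (1 + ee V r) := by
    rw [← Finset.mul_prod_erase X _ hq]
    have a1 : ∏ r ∈ X.erase q, ((if r = q then (if (false : Bool) = true then (2 : ℝ) else 0) else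
      (if (false : Bool) = true then 2 else 1)) *
      ‖V r false false‖ ^ 2 + (if r = q then (if (true : Bool) = true then (2 : ℝ) else 0) else
      (if (true : Bool) = true then 2 else 1)) * ‖V r true false‖ ^ 2) =
      ∏ r ∈ X.erase q, (1 + ee V r) := by
      apply Finset.prod_congr rfl
      intro r hr
      rw [if_neg (Finset.ne_of_mem_erase hr), if_neg (Finset.ne_of_mem_erase hr), nrm]
      simp only [Bool.false_eq_true, if_false, if_true]
      unfold ee
      ring
    rw [a1]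
    have a2 : ∏ r ∈ X.erase q, (1 + ee V r) ≤ ∏ r ∈ X, (1 + ee V r) := by
      rw [← Finset.mul_prod_erase X _ hq]
      have : 0 ≤ ∏ r ∈ X.erase q, (1 + ee V r) :=
        Finset.prod_nonneg fun r _ => by linarith [ee_nonneg V r]
      nlinarith [ee_nonneg V q]
    simp only [if_true, Bool.false_eq_true, if_false, zero_mul, zero_add]
    have : (2 : ℝ) * ‖V q true false‖ ^ 2 = 2 * ee V q := rfl
    rw [this]
    exact mul_le_mul_of_nonneg_left a2 (by linarith [ee_nonneg V q])
  have h2K : (0 : ℝ) < 2 ^ K₀ := by positivity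
  have p3 : (1 / 2 ^ K₀ : ℝ) * (2 * ee V q * ∏ r ∈ X, (1 + ee V r)) ≤ ee V q := by
    rw [one_div, inv_mul_le_iff₀ h2K]
    nlinarith [ee_nonneg V q]
  have p4 := mul_le_mul_of_nonneg_left p2 (by positivity : (0 : ℝ) ≤ 1 / 2 ^ K₀)
  simp only [] at *
  linarith

/-- conjugated measurement -/
noncomputable def rt (C D : Q → M2) (s f : (Q → Bool) → ℝ) : MQ Q := cj C s * cj D f * cj C s

lemma rt_conj (C D : Q → M2) (s f : (Q → Bool) → ℝ) : (rt C D s f)ᴴ = rt C D s f := by
  unfold rt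
  rw [Matrix.conjTranspose_mul, Matrix.conjTranspose_mul, cj_conj, cj_conj, mul_assoc]

lemma rt_sub (C D : Q → M2) (s f₁ f₂ : (Q → Bool) → ℝ) :
    rt C D s (fun ω => f₁ ω - f₂ ω) = rt C D s f₁ - rt C D s f₂ := by
  unfold rt
  rw [cj_sub, mul_sub, sub_mul]

/-- weighted Cauchy-Schwarz inequality -/
lemma weighted_cs {P W : (Q → Bool) → ℝ} (hP : ∀ ω, P ω = 0 ∨ P ω = 1) (hW : ∀ ω, 0 < W ω)
    {ζ w u : EQ Q} (hw : ∀ ω, ‖w ω‖ ≤ P ω * ‖u ω‖) :
    ‖inner ℂ ζ w‖ ^ 2 ≤ qf (fun ω => P ω / W ω) ζ * qf (fun ω => P ω * W ω) u := by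
  have hP0 : ∀ ω, 0 ≤ P ω := fun ω => by rcases hP ω with h | h <;> rw [h]; norm_num
  have h1 : ‖inner ℂ ζ w‖ ≤ ∑ ω, (Real.sqrt (P ω / W ω) * ‖ζ ω‖) *
      (Real.sqrt (P ω * W ω) * ‖u ω‖) := by
    simp only [PiLp.inner_apply, RCLike.inner_apply]
    refine (norm_sum_le _ _).trans (Finset.sum_le_sum fun ω _ => ?_)
    rw [norm_mul, RCLike.norm_conj]
    have e : Real.sqrt (P ω / W ω) * ‖ζ ω‖ * (Real.sqrt (P ω * W ω) * ‖u ω‖) =
        P ω * ‖u ω‖ * ‖ζ ω‖ := by
      have : Real.sqrt (P ω / W ω) * Real.sqrt (P ω * W ω) = P ω := by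
        rw [← Real.sqrt_mul (div_nonneg (hP0 ω) (hW ω).le)]
        have : P ω / W ω * (P ω * W ω) = P ω ^ 2 := by
          have := (hW ω).ne'
          field_simp
        rw [this, Real.sqrt_sq (hP0 ω)]
      calc _ = (Real.sqrt (P ω / W ω) * Real.sqrt (P ω * W ω)) * ‖u ω‖ * ‖ζ ω‖ := by ring
        _ = _ := by rw [this]
    rw [e]
    exact mul_le_mul_of_nonneg_right (hw ω) (norm_nonneg _)
  have h2 := Finset.sum_mul_sq_le_sq_mul_sq Finset.univ
    (fun ω => Real.sqrt (P ω / W ω) * ‖ζ ω‖) (fun ω => Real.sqrt (P ω * W ω) * ‖u ω‖)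
  have h3 : ∑ ω, (Real.sqrt (P ω / W ω) * ‖ζ ω‖) ^ 2 = qf (fun ω => P ω / W ω) ζ := by
    unfold qf
    apply Finset.sum_congr rfl
    intro ω _
    rw [mul_pow, Real.sq_sqrt (div_nonneg (hP0 ω) (hW ω).le)]
  have h4 : ∑ ω, (Real.sqrt (P ω * W ω) * ‖u ω‖) ^ 2 = qf (fun ω => P ω * W ω) u := by
    unfold qf
    apply Finset.sum_congr rfl
    intro ω _
    rw [mul_pow, Real.sq_sqrt (mul_nonneg (hP0 ω) (hW ω).le)]
  rw [h3, h4] at h2
  exact (pow_le_pow_left₀ (norm_nonneg _) h1 2).trans h2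

lemma vanish {q : Q} {M : MQ Q} (hM : Av q M) {v w : EQ Q}
    (hv : act (at1 q (basisP false)) v = v) (hw : act (at1 q (basisP true)) w = w) :
    inner ℂ v (act M w) = 0 := by
  rw [← hv, ← hw, inner_act, at1_conj, (isRP_basisP false).1, ← act_mul, ← act_mul]
  have : at1 q (basisP false) * M * at1 q (basisP true) = 0 := by
    rw [(hM (basisP false)).eq, mul_assoc, at1_mul]
    have e : basisP false * basisP true = (0 : M2) := by
      ext i j; cases i <;> cases j <;> simp [basisP, Matrix.mul_apply]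
    rw [e]
    have z : at1 q (0 : M2) = 0 := by
      have := at1_smul q (0 : ℂ) (0 : M2)
      simpa using this
    rw [z, mul_zero]
  rw [this]
  unfold act
  simp

end Vale.Agent.P368
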