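import Vale.Agent.Lib.P368.CoreB

open Matrix Finset
open scoped ComplexOrder

set_option linter.unusedSectionVars false

namespace Vale.Agent.P368

variable {Q : Type} [Fintype Q] [DecidableEq Q]

lemma ev_diff {M : MQ Q} (hM : Mᴴ = M) (a v : EQ Q) :
    ev M a - ev M (a - (2 : ℂ) • v) = 4 * (inner ℂ v (act M (a - v))).re := by
  have h1 : (inner ℂ a (act M v)).re = (inner ℂ v (act M a)).re := by
    rw [inner_act', hM, ← inner_conj_symm, Complex.conj_re]
  unfold ev
  rw [act_vsub, act_vsub, act_vsmul, inner_sub_left, inner_sub_right, inner_sub_right,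
    inner_smul_left, inner_smul_right, inner_smul_left, inner_smul_right, inner_sub_right]
  have h2 : (starRingEnd ℂ) (2 : ℂ) = 2 := map_ofNat (starRingEnd ℂ) 2
  rw [h2]
  simp only [Complex.sub_re, Complex.mul_re, Complex.re_ofNat, Complex.im_ofNat, zero_mul,
    sub_zero, Complex.mul_im, add_zero]
  rw [h1]
  ring

/-- the fraction of deviation attributed to one wire -/
noncomputable def fq (b : Finset Q) (q : Q) (ω : Q → Bool) : ℝ :=
  (if ω q = true then 1 else 0) / kc b ω

lemma sum_fq (b : Finset Q) (ω : Q → Bool) : ∑ q ∈ b, fq b q ω = 1 - dl b ω := by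
  unfold fq
  rw [← Finset.sum_div]
  have e : ∑ q ∈ b, (if ω q = true then (1 : ℝ) else 0) = kc b ω := by
    unfold kc
    rw [← Finset.sum_filter, Finset.sum_const, nsmul_eq_mul, mul_one]
  rw [e]
  by_cases h : kc b ω = 0
  · rw [h]
    unfold kc at h
    rw [Finset.card_eq_zero, Finset.filter_eq_empty_iff] at h
    unfold dl
    rw [if_pos (fun q hq => by simpa using h hq)]
    simp
  · rw [div_self (by exact_mod_cast h)]
    unfold dl
    rw [if_neg, sub_zero]
    intro h1
    apply h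
    unfold kc
    rw [Finset.card_eq_zero, Finset.filter_eq_empty_iff]
    intro q hq
    rw [h1 q hq]
    simp

lemma fq_le {b : Finset Q} {q : Q} (hq : q ∈ b) (ω : Q → Bool) :
    0 ≤ fq b q ω ∧ fq b q ω ≤ if ω q = true then 1 else 0 := by
  unfold fq
  constructor
  · apply div_nonneg
    · split_ifs <;> norm_num
    · positivity
  · by_cases h : ω q = true
    · rw [if_pos h]
      have : 1 ≤ kc b ω := by
        unfold kc
        apply Finset.card_pos.mpr
        exact ⟨q, Finset.mem_filter.mpr ⟨hq, h⟩⟩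
      have h' : (1 : ℝ) ≤ kc b ω := by exact_mod_cast this
      rw [div_le_one (by linarith)]
      exact h'
    · rw [if_neg h]; simp

/-- the per-gate deviation function -/
noncomputable def FF (b gγ LW : Finset Q) (K₀ : ℕ) (ω : Q → Bool) : ℝ :=
  kc (b ∩ gγ) ω / wW (gγ ∩ LW) K₀ ω

lemma FF_nonneg (b gγ LW : Finset Q) (K₀ : ℕ) (ω : Q → Bool) : 0 ≤ FF b gγ LW K₀ ω :=
  div_nonneg (by positivity) (wW_pos _ _ _).le

/-- the difference of two measurements -/
noncomputable def zf (S Del gγ : Finset Q) (ω : Q → Bool) : ℝ :=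
  dl (S \ (Del ∪ gγ)) ω - dl (S \ Del) ω

section pointwise

variable {V C D : Q → M2} (hV : IsPU V) (hC : IsPU C) (hD : IsPU D)
  {J Γ : Type} [DecidableEq J] [DecidableEq Γ]
  {h : J → Finset Q} (hh : ∀ j j', j ≠ j' → Disjoint (h j) (h j')) {K : Finset J}
  {g : Γ → Finset Q} (hg : ∀ γ γ', γ ≠ γ' → Disjoint (g γ) (g γ')) {G : Finset Γ}
  {j : J} (hj : j ∈ K) {i : Q} (hij : i ∈ h j)
  {I LW Del S : Finset Q} (hLW : (h j).erase i ⊆ LW)
  (hLWI : Disjoint LW I)
  (hcase : ∀ q ∈ (h j).erase i, q ∈ Del ∨ ∃ γ ∈ G, q ∈ g γ ∧ Disjoint (g γ) Del)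
  (hDG : ∀ γ ∈ G, g γ ⊆ Del ∨ Disjoint (g γ) Del)
  {K₀ : ℕ} (hW : ∀ γ ∈ G, 2 * ∏ q ∈ g γ ∩ LW, (1 + ee V q) ≤ 2 ^ K₀)
  {Λ : ℝ} (hΛ : ∑ q ∈ (h j).erase i, ee V q ≤ Λ)

include hh hj hij in
lemma psi_one (u : EQ Q) :
    act (dg (fx i false (rf h K))) u = act (dg (fx i true (rf h K))) u -
      (2 : ℂ) • act (dg (dl ((h j).erase i))) (act (dg (fx i true (rf h K))) u) := by
  ext ω
  rw [PiLp.sub_apply, PiLp.smul_apply, act_dg, act_dg, act_dg, act_dg, fx_rf hh hj hij ω]
  push_cast
  rw [smul_eq_mul]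
  ring

include hC hD hg hDG in
lemma av_del {q : Q} (hq : q ∈ Del) : Av q (rt C D (rf g G) (dl (S \ Del))) := by
  apply av_RTR hC hD hg
  · intro h1; exact (Finset.mem_sdiff.mp h1).2 hq
  · intro γ hγ hqγ
    rcases hDG γ hγ with h1 | h1
    · exact Finset.disjoint_of_subset_right h1 Finset.sdiff_disjoint
    · exact absurd hq (Finset.disjoint_left.mp h1 hqγ)

include hC hD hg hDG in
lemma av_del_union {q : Q} (hq : q ∈ Del) (γ₀ : Γ) :
    Av q (rt C D (rf g G) (dl (S \ (Del ∪ g γ₀)))) := by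
  apply av_RTR hC hD hg
  · intro h1; exact (Finset.mem_sdiff.mp h1).2 (Finset.mem_union_left _ hq)
  · intro γ hγ hqγ
    rcases hDG γ hγ with h1 | h1
    · exact Finset.disjoint_of_subset_right (h1.trans Finset.subset_union_left)
        Finset.sdiff_disjoint
    · exact absurd hq (Finset.disjoint_left.mp h1 hqγ)

include hC hD hg in
lemma av_gate {q : Q} {γ₀ : Γ} (hq : q ∈ g γ₀) :
    Av q (rt C D (rf g G) (dl (S \ (Del ∪ g γ₀)))) := by
  apply av_RTR hC hD hg
  · intro h1; exact (Finset.mem_sdiff.mp h1).2 (Finset.mem_union_right _ hq)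
  · intro γ _ hqγ
    have : γ = γ₀ := by
      by_contra hne
      exact Finset.disjoint_left.mp (hg γ γ₀ hne) hqγ hq
    rw [this]
    exact Finset.disjoint_of_subset_right Finset.subset_union_right Finset.sdiff_disjoint

include hV hC hD hh hg hj hij hLW hLWI hcase hDG hW hΛ in
lemma typeB_pointwise (x : Q → Bool) :
    (ev (rt C D (rf g G) (dl (S \ Del))) (act (dg (fx i true (rf h K))) (uv V (msk I x))) -
      ev (rt C D (rf g G) (dl (S \ Del))) (act (dg (fx i false (rf h K))) (uv V (msk I x)))) ^ 2 ≤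
      32 * Λ * ∑ γ ∈ G.filter (fun γ => Disjoint (g γ) Del),
        qf (FF ((h j).erase i) (g γ) LW K₀) (act (rt C D (rf g G) (zf S Del (g γ)))
          (act (dg (dl ((h j).erase i))) (act (dg (fx i true (rf h K))) (uv V (msk I x))))) := by
  set u := uv V (msk I x) with hu
  set b := (h j).erase i with hb
  set M := rt C D (rf g G) (dl (S \ Del)) with hM
  set Ψ := act (dg (fx i true (rf h K))) u with hΨ
  set v := act (dg (dl b)) Ψ with hv
  set w : Q → EQ Q := fun q => act (dg (fq b q)) Ψ with hw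
  set Z : Γ → MQ Q := fun γ => rt C D (rf g G) (zf S Del (g γ)) with hZ
  set G' := G.filter (fun γ => Disjoint (g γ) Del) with hG'
  have hMc : Mᴴ = M := rt_conj _ _ _ _
  have e1 : act (dg (fx i false (rf h K))) u = Ψ - (2 : ℂ) • v := psi_one hh hj hij u
  rw [e1, ev_diff hMc]
  have e2 : Ψ - v = ∑ q ∈ b, w q := by
    ext ω
    rw [PiLp.sub_apply, hv, act_dg (dl b) Ψ ω]
    have : (∑ q ∈ b, w q) ω = ∑ q ∈ b, (w q) ω := by
      simp
    rw [this]
    simp only [hw, act_dg]
    rw [← Finset.sum_mul]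
    have e3 : ∑ q ∈ b, ((fq b q ω : ℝ) : ℂ) = ((1 - dl b ω : ℝ) : ℂ) := by
      rw [← sum_fq]
      push_cast
      rfl
    rw [e3]
    push_cast
    ring
  -- bound for every wire
  set X : Q → ℝ := fun q => ∑ γ ∈ G', (if q ∈ g γ then
      qf (fun ω => (if ω q = true then 1 else 0) / wW (g γ ∩ LW) K₀ ω) (act (Z γ) v) else 0)
    with hX
  have hXterm : ∀ q γ, 0 ≤ (if q ∈ g γ then
      qf (fun ω => (if ω q = true then 1 else 0) / wW (g γ ∩ LW) K₀ ω) (act (Z γ) v) else 0) := by
    intro q γ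
    split_ifs
    · apply qf_nonneg
      intro ω
      apply div_nonneg
      · split_ifs <;> norm_num
      · exact (wW_pos _ _ _).le
    · exact le_refl _
  have hX0 : ∀ q, 0 ≤ X q := fun q => Finset.sum_nonneg fun γ _ => hXterm q γ
  have hterm : ∀ q ∈ b, ‖inner ℂ v (act M (w q))‖ ^ 2 ≤ 2 * ee V q * X q := by
    intro q hq
    have hvq : act (at1 q (basisP false)) v = v := by
      rw [hv, ← act_mul, at1_basisP, dg_mul]
      congr 2
      funext ω
      by_cases h1 : ω q = false
      · rw [if_pos h1, one_mul]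
      · rw [if_neg h1, zero_mul]
        unfold dl
        rw [if_neg]
        intro h2
        exact h1 (h2 q hq)
    have hwq : act (at1 q (basisP true)) (w q) = w q := by
      rw [hw]
      simp only
      rw [← act_mul, at1_basisP, dg_mul]
      congr 2
      funext ω
      unfold fq
      by_cases h1 : ω q = true
      · rw [if_pos h1, one_mul]
      · rw [if_neg h1, zero_mul, zero_div]
    rcases hcase q hq with hD1 | ⟨γ, hγ, hqγ, hdis⟩
    · rw [vanish (av_del hC hD hg hDG hD1) hvq hwq]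
      have := mul_nonneg (mul_nonneg (by norm_num : (0 : ℝ) ≤ 2) (ee_nonneg V q)) (hX0 q)
      simpa using this
    · have hγ' : γ ∈ G' := Finset.mem_filter.mpr ⟨hγ, hdis⟩
      have e4 : M = rt C D (rf g G) (dl (S \ (Del ∪ g γ))) - Z γ := by
        rw [hM, hZ]
        simp only
        rw [← rt_sub]
        congr 1
        funext ω
        unfold zf
        ring
      have e5 : inner ℂ v (act M (w q)) = - inner ℂ (act (Z γ) v) (w q) := by
        have hZc : (Z γ)ᴴ = Z γ := rt_conj _ _ _ _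
        rw [e4, act_sub, inner_sub_right, vanish (av_gate hC hD hg hqγ) hvq hwq, zero_sub,
          inner_act (Z γ), hZc]
      rw [e5, norm_neg]
      have hqLW : q ∈ g γ ∩ LW := Finset.mem_inter.mpr ⟨hqγ, hLW hq⟩
      have hdisI : Disjoint (g γ ∩ LW) I :=
        Finset.disjoint_of_subset_left Finset.inter_subset_right hLWI
      have cs := weighted_cs (P := fun ω => if ω q = true then (1 : ℝ) else 0)
        (W := wW (g γ ∩ LW) K₀) (fun ω => by by_cases h1 : ω q = true <;> simp [h1])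
        (fun ω => wW_pos _ _ ω) (ζ := act (Z γ) v) (w := w q) (u := u) (by
          intro ω
          rw [hw]
          simp only
          rw [act_dg, hΨ, act_dg, norm_mul, norm_mul, Complex.norm_real, Complex.norm_real,
            ← mul_assoc]
          apply mul_le_mul_of_nonneg_right _ (norm_nonneg _)
          obtain ⟨h1, h2⟩ := fq_le hq ω
          have h3 : ‖fx i true (rf h K) ω‖ = 1 := by
            have := rf_sq h K (Function.update ω i true)
            have h4 : fx i true (rf h K) ω * fx i true (rf h K) ω = 1 := this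
            rw [Real.norm_eq_abs]
            have h5 : |fx i true (rf h K) ω| * |fx i true (rf h K) ω| = 1 := by
              rw [abs_mul_abs_self, h4]
            nlinarith [abs_nonneg (fx i true (rf h K) ω)]
          rw [h3, mul_one, Real.norm_of_nonneg h1]
          exact h2)
      have q1 := qf_weight hV hdisI hqLW (hW γ hγ) x
      refine cs.trans ?_
      have q2 : qf (fun ω => (if ω q = true then (1 : ℝ) else 0) / wW (g γ ∩ LW) K₀ ω)
          (act (Z γ) v) ≤ X q := by
        rw [hX]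
        simp only
        have := Finset.single_le_sum (f := fun γ => (if q ∈ g γ then
          qf (fun ω => (if ω q = true then 1 else 0) / wW (g γ ∩ LW) K₀ ω) (act (Z γ) v) else 0))
          (fun γ _ => hXterm q γ) hγ'
        simp only [hqγ, if_true] at this
        exact this
      have q3 : 0 ≤ qf (fun ω => (if ω q = true then (1 : ℝ) else 0) / wW (g γ ∩ LW) K₀ ω)
          (act (Z γ) v) := by
        have := hXterm q γ
        simpa [hqγ] using this
      calc _ ≤ X q * (2 * ee V q) := by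
            apply mul_le_mul q2 q1 _ (hX0 q)
            apply qf_nonneg
            intro ω
            apply mul_nonneg
            · split_ifs <;> norm_num
            · exact (wW_pos _ _ _).le
        _ = _ := by ring
  -- summation
  have hsum : (∑ q ∈ b, ‖inner ℂ v (act M (w q))‖) ^ 2 ≤ (2 * Λ) * ∑ q ∈ b, X q := by
    have h1 : ∀ q ∈ b, ‖inner ℂ v (act M (w q))‖ ≤ Real.sqrt (2 * ee V q) * Real.sqrt (X q) := by
      intro q hq
      rw [← Real.sqrt_mul (by linarith [ee_nonneg V q])]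
      exact Real.le_sqrt_of_sq_le (hterm q hq)
    have h2 := Finset.sum_mul_sq_le_sq_mul_sq b (fun q => Real.sqrt (2 * ee V q))
      (fun q => Real.sqrt (X q))
    have h3 : ∑ q ∈ b, Real.sqrt (2 * ee V q) ^ 2 ≤ 2 * Λ := by
      have : ∑ q ∈ b, Real.sqrt (2 * ee V q) ^ 2 = 2 * ∑ q ∈ b, ee V q := by
        rw [Finset.mul_sum]
        apply Finset.sum_congr rfl
        intro q _
        exact Real.sq_sqrt (by linarith [ee_nonneg V q])
      rw [this]
      linarith
    have h4 : ∑ q ∈ b, Real.sqrt (X q) ^ 2 = ∑ q ∈ b, X q :=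
      Finset.sum_congr rfl fun q _ => Real.sq_sqrt (hX0 q)
    rw [h4] at h2
    calc _ ≤ (∑ q ∈ b, Real.sqrt (2 * ee V q) * Real.sqrt (X q)) ^ 2 :=
          pow_le_pow_left₀ (Finset.sum_nonneg fun q _ => norm_nonneg _)
            (Finset.sum_le_sum h1) 2
      _ ≤ _ := h2
      _ ≤ _ := mul_le_mul_of_nonneg_right h3 (Finset.sum_nonneg fun q _ => hX0 q)
  have hXsum : ∑ q ∈ b, X q = ∑ γ ∈ G', qf (FF b (g γ) LW K₀) (act (Z γ) v) := by
    rw [hX]
    simp only
    rw [Finset.sum_comm]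
    apply Finset.sum_congr rfl
    intro γ _
    rw [← Finset.sum_filter, qf_sum]
    congr 1
    funext ω
    unfold FF
    rw [← Finset.sum_div]
    congr 1
    unfold kc
    rw [← Finset.sum_filter, Finset.sum_const, nsmul_eq_mul, mul_one]
    congr 2
  rw [hXsum] at hsum
  have hre : |(inner ℂ v (act M (Ψ - v))).re| ≤ ∑ q ∈ b, ‖inner ℂ v (act M (w q))‖ := by
    refine (Complex.abs_re_le_norm _).trans ?_
    rw [e2, act_vsum, inner_sum]
    exact norm_sum_le _ _
  calc (4 * (inner ℂ v (act M (Ψ - v))).re) ^ 2 = 16 * |(inner ℂ v (act M (Ψ - v))).re| ^ 2 := by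
        rw [sq_abs]; ring
    _ ≤ 16 * (∑ q ∈ b, ‖inner ℂ v (act M (w q))‖) ^ 2 :=
        mul_le_mul_of_nonneg_left (pow_le_pow_left₀ (abs_nonneg _) hre 2) (by norm_num)
    _ ≤ 16 * ((2 * Λ) * ∑ γ ∈ G', qf (FF b (g γ) LW K₀) (act (Z γ) v)) :=
        mul_le_mul_of_nonneg_left hsum (by norm_num)
    _ = _ := by ring

lemma qf_half_sub {F : (Q → Bool) → ℝ} (hF : ∀ ω, 0 ≤ F ω) (Z : MQ Q) {v a b : EQ Q}
    (hv : b = a - (2 : ℂ) • v) :
    qf F (act Z v) ≤ (1 / 2) * (qf F (act Z a) + qf F (act Z b)) := by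
  have e1 : act Z v = (1 / 2 : ℂ) • (act Z a - act Z b) := by
    rw [hv, act_vsub, act_vsmul, sub_sub_cancel, smul_smul]
    norm_num
  unfold qf
  rw [← Finset.sum_add_distrib, Finset.mul_sum]
  apply Finset.sum_le_sum
  intro ω _
  have h1 : ‖act Z v ω‖ ≤ (1 / 2) * (‖act Z a ω‖ + ‖act Z b ω‖) := by
    rw [e1, PiLp.smul_apply, PiLp.sub_apply, norm_smul]
    have : ‖(1 / 2 : ℂ)‖ = 1 / 2 := by simp
    rw [this]
    exact mul_le_mul_of_nonneg_left (norm_sub_le _ _) (by norm_num)
  have h2 : ‖act Z v ω‖ ^ 2 ≤ (1 / 2) * (‖act Z a ω‖ ^ 2 + ‖act Z b ω‖ ^ 2) := by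
    have h3 := pow_le_pow_left₀ (norm_nonneg _) h1 2
    nlinarith [sq_nonneg (‖act Z a ω‖ - ‖act Z b ω‖)]
  nlinarith [hF ω]

lemma kc_indep {X : Finset Q} {i : Q} (hi : i ∉ X) (ω η : Q → Bool)
    (hωη : ∀ r, r ≠ i → ω r = η r) : kc X ω = kc X η := by
  unfold kc
  congr 1
  apply Finset.filter_congr
  intro q hq
  rw [hωη q (fun h1 => hi (h1 ▸ hq))]

include hV hC hD hh hg hj hij hLW hLWI hcase hDG hW hΛ in
lemma typeB_avg (hi : i ∈ I) (hiD : i ∈ Del) (hΛ0 : 0 ≤ Λ) :
    Ex (fun x => (ev (rt C D (rf g G) (dl (S \ Del)))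
        (act (dg (fx i true (rf h K))) (uv V (msk I x))) -
      ev (rt C D (rf g G) (dl (S \ Del)))
        (act (dg (fx i false (rf h K))) (uv V (msk I x)))) ^ 2) ≤
      32 * Λ * Ex (fun x => ∑ γ ∈ G.filter (fun γ => Disjoint (g γ) Del),
        qf (FF ((h j).erase i) (g γ) LW K₀) (act (rt C D (rf g G) (zf S Del (g γ)))
          (act (dg (rf h K)) (uv V (msk I x))))) := by
  set G' := G.filter (fun γ => Disjoint (g γ) Del) with hG'
  set b := (h j).erase i with hb
  set Z : Γ → MQ Q := fun γ => rt C D (rf g G) (zf S Del (g γ)) with hZ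
  have hiLW : i ∉ LW := Finset.disjoint_right.mp hLWI hi
  -- the quadratic form as an expectation
  have evq : ∀ γ Φ, qf (FF b (g γ) LW K₀) (act (Z γ) Φ) =
      ev (Z γ * dg (FF b (g γ) LW K₀) * Z γ) Φ := by
    intro γ Φ
    have hZc : (Z γ)ᴴ = Z γ := rt_conj _ _ _ _
    have : Z γ * dg (FF b (g γ) LW K₀) * Z γ = (Z γ)ᴴ * dg (FF b (g γ) LW K₀) * Z γ := by
      rw [hZc]
    rw [this, ev_conj_mul, ev_dg]
  have avq : ∀ γ, Av i (Z γ * dg (FF b (g γ) LW K₀) * Z γ) := by
    intro γ
    have a1 : Av i (Z γ) := by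
      rw [hZ]
      simp only
      have : zf S Del (g γ) = fun ω => dl (S \ (Del ∪ g γ)) ω - dl (S \ Del) ω := rfl
      rw [this, rt_sub]
      exact (av_del_union hC hD hg hDG hiD γ).sub (av_del hC hD hg hDG hiD)
    have a2 : Av i (dg (FF b (g γ) LW K₀)) := by
      apply av_dg
      intro ω η hωη
      unfold FF wW
      have k1 : kc (b ∩ g γ) ω = kc (b ∩ g γ) η := by
        apply kc_indep _ ω η hωη
        intro h1
        exact Finset.notMem_erase i (h j) (Finset.mem_inter.mp h1).1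
      have k2 : kc (g γ ∩ LW) ω = kc (g γ ∩ LW) η := by
        apply kc_indep _ ω η hωη
        intro h1
        exact hiLW (Finset.mem_inter.mp h1).2
      rw [k1, k2]
    exact (a1.mul a2).mul a1
  have step : ∀ x, (ev (rt C D (rf g G) (dl (S \ Del)))
        (act (dg (fx i true (rf h K))) (uv V (msk I x))) -
      ev (rt C D (rf g G) (dl (S \ Del)))
        (act (dg (fx i false (rf h K))) (uv V (msk I x)))) ^ 2 ≤
      16 * Λ * ∑ γ ∈ G', (ev (Z γ * dg (FF b (g γ) LW K₀) * Z γ)
          (act (dg (fx i true (rf h K))) (uv V (msk I x))) +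
        ev (Z γ * dg (FF b (g γ) LW K₀) * Z γ)
          (act (dg (fx i false (rf h K))) (uv V (msk I x)))) := by
    intro x
    refine (typeB_pointwise hV hC hD hh hg hj hij hLW hLWI hcase hDG hW hΛ x).trans ?_
    have : ∀ T : ℝ, 32 * Λ * T = 16 * Λ * (2 * T) := fun T => by ring
    rw [this]
    apply mul_le_mul_of_nonneg_left _ (by positivity)
    rw [Finset.mul_sum]
    apply Finset.sum_le_sum
    intro γ _
    have h1 := qf_half_sub (FF_nonneg b (g γ) LW K₀) (Z γ)
      (psi_one hh hj hij (K := K) (uv V (msk I x)))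
    rw [← evq, ← evq]
    change 2 * qf (FF b (g γ) LW K₀) (act (Z γ) (act (dg (dl ((h j).erase i)))
      (act (dg (fx i true (rf h K))) (uv V (msk I x))))) ≤ _
    linarith
  refine (Ex_mono step).trans ?_
  rw [Ex_const_mul, Ex_sum, Ex_sum]
  have e3 : ∀ γ ∈ G', Ex (fun x => ev (Z γ * dg (FF b (g γ) LW K₀) * Z γ)
          (act (dg (fx i true (rf h K))) (uv V (msk I x))) +
        ev (Z γ * dg (FF b (g γ) LW K₀) * Z γ)
          (act (dg (fx i false (rf h K))) (uv V (msk I x)))) =
      2 * Ex (fun x => qf (FF b (g γ) LW K₀) (act (Z γ)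
          (act (dg (rf h K)) (uv V (msk I x))))) := by
    intro γ _
    rw [Ex_add, Ex_flip_sum hV hi (avq γ) (rf h K)]
    congr 2
    funext x
    rw [evq]
  rw [Finset.sum_congr rfl e3, ← Finset.mul_sum]
  apply le_of_eq
  ring

end pointwise

end Vale.Agent.P368
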