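import Vale.Agent.Lib.P368.CoreC

open Matrix Finset
open scoped ComplexOrder

set_option linter.unusedSectionVars false

namespace Vale.Agent.P368

variable {Q : Type} [Fintype Q] [DecidableEq Q]

lemma qf_two {F : (Q → Bool) → ℝ} (hF : ∀ ω, 0 ≤ F ω) (x a : EQ Q) :
    qf F x ≤ 2 * qf F a + 2 * qf F (x - a) := by
  unfold qf
  rw [Finset.mul_sum, Finset.mul_sum, ← Finset.sum_add_distrib]
  apply Finset.sum_le_sum
  intro ω _
  have h1 : ‖x ω‖ ≤ ‖a ω‖ + ‖(x - a) ω‖ := by
    have e : x ω = a ω + (x - a) ω := by rw [PiLp.sub_apply]; ring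
    nth_rewrite 1 [e]
    exact norm_add_le _ _
  have h2 : ‖x ω‖ ^ 2 ≤ 2 * ‖a ω‖ ^ 2 + 2 * ‖(x - a) ω‖ ^ 2 := by
    have h3 := pow_le_pow_left₀ (norm_nonneg _) h1 2
    nlinarith [sq_nonneg (‖a ω‖ - ‖(x - a) ω‖)]
  nlinarith [hF ω]

lemma norm_act_rt {C D : Q → M2} (hC : IsPU C) (hD : IsPU D) {s : (Q → Bool) → ℝ}
    (hs : ∀ ω, s ω * s ω = 1) (f : (Q → Bool) → ℝ) (v : EQ Q) :
    ‖act (rt C D s f) v‖ ^ 2 = qf (fun ω => f ω * f ω) (hatv C D s v) := by
  unfold rt hatv
  rw [mul_assoc, act_mul, norm_act_isom (cj_isom hC hs), act_mul, norm_act_cj hD]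

lemma kc_mono {X Y : Finset Q} (h : X ⊆ Y) (ω : Q → Bool) : kc X ω ≤ kc Y ω :=
  Finset.card_le_card (Finset.filter_subset_filter _ h)

section sum

variable {V C D : Q → M2} (hV : IsPU V) (hC : IsPU C) (hD : IsPU D)
  {J Γ : Type} [DecidableEq J] [DecidableEq Γ]
  {h : J → Finset Q} (hh : ∀ j j', j ≠ j' → Disjoint (h j) (h j')) {K : Finset J}
  {g : Γ → Finset Q} (hg : ∀ γ γ', γ ≠ γ' → Disjoint (g γ) (g γ')) {G : Finset Γ}

include hC hD hg in
lemma typeB_sum {B : Finset Q} {b Del : Q → Finset Q} {S LW : Finset Q} {L K₀ : ℕ}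
    (hb : ∀ i ∈ B, b i ⊆ LW) (hbd : ∀ i ∈ B, ∀ i' ∈ B, i ≠ i' → Disjoint (b i) (b i'))
    (hL : ∀ q, (B.filter fun i => q ∈ Del i).card ≤ L) {ψ : EQ Q} (hψ : ‖ψ‖ = 1) :
    ∑ i ∈ B, ∑ γ ∈ G.filter (fun γ => Disjoint (g γ) (Del i)),
      qf (FF (b i) (g γ) LW K₀) (act (rt C D (rf g G) (zf S (Del i) (g γ))) ψ) ≤
      2 * (K₀ + 1) * (1 + 2 * L) := by
  set s := rf g G with hs
  have hss : ∀ ω, s ω * s ω = 1 := rf_sq g G
  set za : Γ → (Q → Bool) → ℝ := fun γ ω => dl (S \ g γ) ω - dl S ω with hza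
  set a : Γ → EQ Q := fun γ => act (rt C D s (za γ)) ψ with ha
  have hhat : ‖hatv C D s ψ‖ = 1 := by rw [norm_hatv hC hD hss, hψ]
  have hFle : ∀ i ∈ B, ∀ γ ω, FF (b i) (g γ) LW K₀ ω ≤ K₀ + 1 := by
    intro i hi γ ω
    refine le_trans ?_ (kc_div_le (g γ ∩ LW) K₀ ω)
    unfold FF
    apply div_le_div_of_nonneg_right _ (wW_pos _ _ _).le
    have : kc (b i ∩ g γ) ω ≤ kc (g γ ∩ LW) ω := by
      apply kc_mono
      intro q hq
      rw [Finset.mem_inter] at hq ⊢
      exact ⟨hq.2, hb i hi hq.1⟩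
    exact_mod_cast this
  have hsplit : ∀ i ∈ B, ∀ γ, qf (FF (b i) (g γ) LW K₀)
      (act (rt C D s (zf S (Del i) (g γ))) ψ) ≤
      2 * qf (FF (b i) (g γ) LW K₀) (a γ) + 2 * ((K₀ + 1) *
        qf (fun ω => (zf S (Del i) (g γ) ω - za γ ω) ^ 2) (hatv C D s ψ)) := by
    intro i hi γ
    refine (qf_two (FF_nonneg _ _ _ _) _ (a γ)).trans ?_
    have e1 : act (rt C D s (zf S (Del i) (g γ))) ψ - a γ =
        act (rt C D s (fun ω => zf S (Del i) (g γ) ω - za γ ω)) ψ := by
      rw [ha, rt_sub, act_sub]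
    rw [e1]
    have e2 : qf (FF (b i) (g γ) LW K₀)
        (act (rt C D s (fun ω => zf S (Del i) (g γ) ω - za γ ω)) ψ) ≤
        (K₀ + 1) * qf (fun ω => (zf S (Del i) (g γ) ω - za γ ω) ^ 2) (hatv C D s ψ) := by
      refine (qf_le_const (hFle i hi γ) _).trans ?_
      rw [norm_act_rt hC hD hss]
      apply le_of_eq
      congr 2
      funext ω
      ring
    linarith
  -- first part
  have part1 : ∑ i ∈ B, ∑ γ ∈ G.filter (fun γ => Disjoint (g γ) (Del i)),
      qf (FF (b i) (g γ) LW K₀) (a γ) ≤ K₀ + 1 := by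
    calc _ ≤ ∑ i ∈ B, ∑ γ ∈ G, qf (FF (b i) (g γ) LW K₀) (a γ) := by
          apply Finset.sum_le_sum
          intro i _
          apply Finset.sum_le_sum_of_subset_of_nonneg (Finset.filter_subset _ _)
          intro γ _ _
          exact qf_nonneg (FF_nonneg _ _ _ _) _
      _ = ∑ γ ∈ G, qf (fun ω => ∑ i ∈ B, FF (b i) (g γ) LW K₀ ω) (a γ) := by
          rw [Finset.sum_comm]
          apply Finset.sum_congr rfl
          intro γ _
          rw [qf_sum]
      _ ≤ ∑ γ ∈ G, (K₀ + 1) * qf (fun ω => (za γ ω) ^ 2) (hatv C D s ψ) := by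
          apply Finset.sum_le_sum
          intro γ _
          have hle : ∀ ω, ∑ i ∈ B, FF (b i) (g γ) LW K₀ ω ≤ K₀ + 1 := by
            intro ω
            refine le_trans ?_ (kc_div_le (g γ ∩ LW) K₀ ω)
            unfold FF
            rw [← Finset.sum_div]
            apply div_le_div_of_nonneg_right _ (wW_pos _ _ _).le
            have : ∑ i ∈ B, kc (b i ∩ g γ) ω ≤ kc (g γ ∩ LW) ω := by
              unfold kc
              rw [← Finset.card_biUnion]
              · apply Finset.card_le_card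
                intro q hq
                rw [Finset.mem_biUnion] at hq
                obtain ⟨i, hi, hq⟩ := hq
                rw [Finset.mem_filter, Finset.mem_inter] at hq ⊢
                exact ⟨⟨hq.1.2, hb i hi hq.1.1⟩, hq.2⟩
              · intro i hi i' hi' hne
                apply Finset.disjoint_filter_filter
                exact Finset.disjoint_of_subset_left Finset.inter_subset_left
                  (Finset.disjoint_of_subset_right Finset.inter_subset_left (hbd i hi i' hi' hne))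
            exact_mod_cast this
          refine (qf_le_const hle _).trans ?_
          rw [ha]
          simp only
          rw [norm_act_rt hC hD hss]
          apply le_of_eq
          congr 2
          funext ω
          ring
      _ = (K₀ + 1) * qf (fun ω => ∑ γ ∈ G, (za γ ω) ^ 2) (hatv C D s ψ) := by
          rw [← Finset.mul_sum, qf_sum]
      _ ≤ (K₀ + 1) * 1 := by
          apply mul_le_mul_of_nonneg_left _ (by positivity)
          refine (qf_le_const (c := 1) (fun ω => count_two hg G S ω) _).trans ?_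
          rw [hhat]
          norm_num
      _ = K₀ + 1 := mul_one _
  have part2 : ∑ i ∈ B, ∑ γ ∈ G.filter (fun γ => Disjoint (g γ) (Del i)),
      qf (fun ω => (zf S (Del i) (g γ) ω - za γ ω) ^ 2) (hatv C D s ψ) ≤ 2 * L := by
    have e : ∑ i ∈ B, ∑ γ ∈ G.filter (fun γ => Disjoint (g γ) (Del i)),
        qf (fun ω => (zf S (Del i) (g γ) ω - za γ ω) ^ 2) (hatv C D s ψ) =
        qf (fun ω => ∑ i ∈ B, ∑ γ ∈ G.filter (fun γ => Disjoint (g γ) (Del i)),
          (zf S (Del i) (g γ) ω - za γ ω) ^ 2) (hatv C D s ψ) := by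
      rw [← qf_sum]
      apply Finset.sum_congr rfl
      intro i _
      rw [← qf_sum]
    rw [e]
    refine (qf_le_const (c := 2 * L) (fun ω => ?_) _).trans ?_
    · have := count_three hL hg G S ω
      simpa only [zf, hza] using this
    · rw [hhat]
      norm_num
  calc _ ≤ ∑ i ∈ B, ∑ γ ∈ G.filter (fun γ => Disjoint (g γ) (Del i)),
        (2 * qf (FF (b i) (g γ) LW K₀) (a γ) + 2 * ((K₀ + 1) *
        qf (fun ω => (zf S (Del i) (g γ) ω - za γ ω) ^ 2) (hatv C D s ψ))) :=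
        Finset.sum_le_sum fun i hi => Finset.sum_le_sum fun γ _ => hsplit i hi γ
    _ = 2 * ∑ i ∈ B, ∑ γ ∈ G.filter (fun γ => Disjoint (g γ) (Del i)),
          qf (FF (b i) (g γ) LW K₀) (a γ) +
        2 * (K₀ + 1) * ∑ i ∈ B, ∑ γ ∈ G.filter (fun γ => Disjoint (g γ) (Del i)),
          qf (fun ω => (zf S (Del i) (g γ) ω - za γ ω) ^ 2) (hatv C D s ψ) := by
        rw [Finset.mul_sum, Finset.mul_sum, ← Finset.sum_add_distrib]
        apply Finset.sum_congr rfl
        intro i _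
        rw [Finset.mul_sum, Finset.mul_sum, ← Finset.sum_add_distrib]
        apply Finset.sum_congr rfl
        intro γ _
        ring
    _ ≤ 2 * (K₀ + 1) + 2 * (K₀ + 1) * (2 * L) := by
        apply add_le_add
        · exact mul_le_mul_of_nonneg_left part1 (by norm_num)
        · exact mul_le_mul_of_nonneg_left part2 (by positivity)
    _ = _ := by ring

include hV hC hD hh hg in
/-- the core estimate -/
theorem core_bound {I B LW S : Finset Q} (hBI : B ⊆ I) (hLWI : Disjoint LW I)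
    {Del : Q → Finset Q} {L K₀ : ℕ}
    (hL : ∀ q, (I.filter fun i => q ∈ Del i).card ≤ L)
    (hself : ∀ i ∈ I, i ∈ Del i)
    (hDG : ∀ i ∈ I, ∀ γ ∈ G, g γ ⊆ Del i ∨ Disjoint (g γ) (Del i))
    {b : Q → Finset Q}
    (hB : ∀ i ∈ B, ∃ j ∈ K, i ∈ h j ∧ b i = (h j).erase i)
    (hbLW : ∀ i ∈ B, b i ⊆ LW) (hbd : ∀ i ∈ B, ∀ i' ∈ B, i ≠ i' → Disjoint (b i) (b i'))
    (hcase : ∀ i ∈ B, ∀ q ∈ b i, q ∈ Del i ∨ ∃ γ ∈ G, q ∈ g γ)
    (hW : ∀ γ ∈ G, 2 * ∏ q ∈ g γ ∩ LW, (1 + ee V q) ≤ 2 ^ K₀)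
    {Λ : ℝ} (hΛ0 : 0 ≤ Λ) (hΛ : ∀ i ∈ B, ∑ q ∈ b i, ee V q ≤ Λ)
    {β : ℝ} (hβ : 0 ≤ β)
    (hA : ∀ i ∈ I, i ∉ B → ∀ j ∈ K, i ∈ h j →
      Disjoint ((h j).erase i) I ∧ bet V ((h j).erase i) ≤ β) :
    (I.card : ℝ) * |Ex fun x => sgn I x * ev (rt C D (rf g G) (dl S))
        (act (dg (rf h K)) (uv V (msk I x)))| ≤
      L + 2 * I.card * Real.sqrt β +
        (1 / 2) * Real.sqrt (I.card * (64 * Λ * (K₀ + 1) * (1 + 2 * L))) := by
  set s := rf g G with hs
  have hss : ∀ ω, s ω * s ω = 1 := rf_sq g G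
  set Δ : Q → (Q → Bool) → ℝ := fun i x =>
    |ev (rt C D s (dl (S \ Del i))) (act (dg (fx i true (rf h K))) (uv V (msk I x))) -
      ev (rt C D s (dl (S \ Del i))) (act (dg (fx i false (rf h K))) (uv V (msk I x)))| with hΔ
  have hmain := core_sum (r := rf h K) (s := s) hV hC hD (rf_sq h K) hss S I hL
    (fun i hi => av_del hC hD hg (hDG i hi) (hself i hi))
  have hmain' : (I.card : ℝ) * |Ex fun x => sgn I x * ev (rt C D s (dl S))
        (act (dg (rf h K)) (uv V (msk I x)))| ≤ L + (1 / 2) * ∑ i ∈ I, Ex (Δ i) := hmain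
  have hcard : (B.card : ℝ) ≤ I.card := by exact_mod_cast Finset.card_le_card hBI
  have hLB : ∀ q, (B.filter fun i => q ∈ Del i).card ≤ L := fun q =>
    (Finset.card_le_card (Finset.filter_subset_filter _ hBI)).trans (hL q)
  have sA : ∑ i ∈ I \ B, Ex (Δ i) ≤ 4 * I.card * Real.sqrt β := by
    calc ∑ i ∈ I \ B, Ex (Δ i) ≤ ∑ i ∈ I \ B, 4 * Real.sqrt β := by
          apply Finset.sum_le_sum
          intro i hi
          rw [Finset.mem_sdiff] at hi
          apply Ex_le_const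
          intro x
          exact typeA_bound hV hC hD hss I hh hβ (hA i hi.1 hi.2) x
      _ = (I \ B).card * (4 * Real.sqrt β) := by rw [Finset.sum_const, nsmul_eq_mul]
      _ ≤ I.card * (4 * Real.sqrt β) := by
          apply mul_le_mul_of_nonneg_right _ (by positivity)
          exact_mod_cast Finset.card_le_card Finset.sdiff_subset
      _ = _ := by ring
  have sB : ∑ i ∈ B, Ex (Δ i) ≤ Real.sqrt (I.card * (64 * Λ * (K₀ + 1) * (1 + 2 * L))) := by
    apply Real.le_sqrt_of_sq_le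
    have h1 : (∑ i ∈ B, Ex (Δ i)) ^ 2 ≤ B.card * ∑ i ∈ B, (Ex (Δ i)) ^ 2 :=
      sq_sum_le_card_mul_sum_sq
    have h2 : ∑ i ∈ B, (Ex (Δ i)) ^ 2 ≤ 64 * Λ * (K₀ + 1) * (1 + 2 * L) := by
      calc ∑ i ∈ B, (Ex (Δ i)) ^ 2 ≤ ∑ i ∈ B, 32 * Λ * Ex (fun x =>
            ∑ γ ∈ G.filter (fun γ => Disjoint (g γ) (Del i)),
              qf (FF (b i) (g γ) LW K₀) (act (rt C D s (zf S (Del i) (g γ)))
                (act (dg (rf h K)) (uv V (msk I x))))) := by
            apply Finset.sum_le_sum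
            intro i hi
            refine (Ex_sq_le _).trans ?_
            obtain ⟨j, hj, hij, hbi⟩ := hB i hi
            have hiI := hBI hi
            rw [hbi]
            have hcase' : ∀ q ∈ (h j).erase i, q ∈ Del i ∨
                ∃ γ ∈ G, q ∈ g γ ∧ Disjoint (g γ) (Del i) := by
              intro q hq
              rw [← hbi] at hq
              rcases hcase i hi q hq with h1 | ⟨γ, hγ, hqγ⟩
              · exact Or.inl h1
              · rcases hDG i hiI γ hγ with h2 | h2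
                · exact Or.inl (h2 hqγ)
                · exact Or.inr ⟨γ, hγ, hqγ, h2⟩
            have := typeB_avg (K := K) (G := G) (S := S) (K₀ := K₀) (Λ := Λ) (I := I) (LW := LW)
              (Del := Del i) hV hC hD hh hg hj hij
              (by rw [← hbi]; exact hbLW i hi) hLWI hcase' (hDG i hiI) hW
              (by rw [← hbi]; exact hΛ i hi) hiI (hself i hiI) hΛ0
            refine le_trans (le_of_eq ?_) this
            congr 1
            funext x
            rw [hΔ]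
            simp only
            rw [sq_abs]
        _ = 32 * Λ * Ex (fun x => ∑ i ∈ B, ∑ γ ∈ G.filter (fun γ => Disjoint (g γ) (Del i)),
              qf (FF (b i) (g γ) LW K₀) (act (rt C D s (zf S (Del i) (g γ)))
                (act (dg (rf h K)) (uv V (msk I x))))) := by
            rw [← Finset.mul_sum, Ex_sum]
        _ ≤ 32 * Λ * (2 * (K₀ + 1) * (1 + 2 * L)) := by
            apply mul_le_mul_of_nonneg_left _ (by positivity)
            apply Ex_le_const
            intro x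
            apply typeB_sum hC hD hg hbLW hbd hLB
            rw [norm_dg_isom (rf_sq h K), norm_uv hV]
        _ = _ := by ring
    calc _ ≤ (B.card : ℝ) * ∑ i ∈ B, (Ex (Δ i)) ^ 2 := h1
      _ ≤ I.card * (64 * Λ * (K₀ + 1) * (1 + 2 * L)) :=
        mul_le_mul hcard h2 (Finset.sum_nonneg fun i _ => by positivity) (by positivity)
  have hsumI : ∑ i ∈ I, Ex (Δ i) = ∑ i ∈ I \ B, Ex (Δ i) + ∑ i ∈ B, Ex (Δ i) :=
    (Finset.sum_sdiff hBI).symm
  rw [hsumI] at hmain'
  linarith

end sum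

end Vale.Agent.P368
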