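import Vale.Agent.Lib.P368.Circ

open Matrix Finset
open scoped ComplexOrder

set_option linter.unusedSectionVars false

namespace Vale.Agent.P368

variable {N : ℕ}

/-- the set of input qubits -/
def inputs (n N : ℕ) : Finset (Fin N) := Finset.univ.filter fun q => q.val < n

lemma card_inputs {n N : ℕ} (h : n ≤ N) : (inputs n N).card = n := by
  unfold inputs
  have : (Finset.univ.filter fun q : Fin N => q.val < n) =
      Finset.univ.image (fun i : Fin n => (⟨i.val, lt_of_lt_of_le i.isLt h⟩ : Fin N)) := by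
    ext q
    simp only [Finset.mem_filter, Finset.mem_univ, true_and, Finset.mem_image]
    constructor
    · intro hq; exact ⟨⟨q.val, hq⟩, rfl⟩
    · rintro ⟨i, rfl⟩; exact i.isLt
  rw [this, Finset.card_image_of_injective, Finset.card_univ, Fintype.card_fin]
  intro i j hij
  simpa [Fin.ext_iff] using hij

/-- the projectors on the two basis states -/
def stdρ (_ : Fin N) (b : Bool) : M2 := basisP b

lemma inOK_std (n N : ℕ) : InOK (inputs n N) (stdρ (N := N)) := by
  refine ⟨fun q b => isRP_basisP b, fun q _ => ?_⟩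
  ext i j
  cases i <;> cases j <;> simp [stdρ, basisP]

lemma pad_injective {n N : ℕ} (h : n ≤ N) : Function.Injective (pad (n := n) (N := N)) := by
  intro x y hxy
  funext i
  have := congrFun hxy ⟨i.val, lt_of_lt_of_le i.isLt h⟩
  simpa [pad] using this

lemma gam_diag_entries (n : ℕ) (q : Fin N) (a b : Bool) (hab : a ≠ b) :
    Gam (inputs n N) stdρ q a b = 0 := by
  unfold Gam
  split_ifs <;> cases a <;> cases b <;> simp_all [stdρ, basisP]

lemma gam_top_offdiag (n : ℕ) {y x : Bits N} (h : y ≠ x) :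
    top (Gam (inputs n N) stdρ) y x = 0 := by
  obtain ⟨q, hq⟩ := Function.ne_iff.mp h
  rw [top_apply]
  exact Finset.prod_eq_zero (Finset.mem_univ q) (gam_diag_entries n q _ _ hq)

/-- the sign of a bit -/
def sg (b : Bool) : ℂ := if b then -1 else 1

lemma prod_sg {n : ℕ} (x : Fin n → Bool) : ∏ i, sg (x i) = sg (parity x) := by
  unfold sg parity
  rw [Finset.prod_ite, Finset.prod_const, Finset.prod_const_one, mul_one]
  by_cases h : Odd (Finset.univ.filter fun i => x i = true).card
  · rw [h.neg_one_pow]; simp [h]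
  · rw [(Nat.not_odd_iff_even.mp h).neg_one_pow]; simp [h]

lemma gam_top_pad {n : ℕ} (h : n ≤ N) (x : Fin n → Bool) :
    top (Gam (inputs n N) stdρ) (pad x) (pad x) = (1 / 2 ^ n : ℂ) * sg (parity x) := by
  rw [top_apply]
  have e1 : ∀ q : Fin N, Gam (inputs n N) stdρ q (pad x q) (pad x q) =
      if hq : q.val < n then (1 / 2 : ℂ) * sg (x ⟨q.val, hq⟩) else 1 := by
    intro q
    by_cases hq : q.val < n
    · have : q ∈ inputs n N := by simp [inputs, hq]
      simp only [Gam, this, if_true, hq, dif_pos, pad]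
      cases x ⟨q.val, hq⟩ <;> simp [stdρ, basisP, sg]
    · have : q ∉ inputs n N := by simp [inputs, hq]
      simp [Gam, this, hq, pad, stdρ, basisP]
  simp_rw [e1]
  have e2 : ∏ q : Fin N, (if hq : q.val < n then (1 / 2 : ℂ) * sg (x ⟨q.val, hq⟩) else 1) =
      ∏ i : Fin n, ((1 / 2 : ℂ) * sg (x i)) := by
    rw [← Finset.prod_subset (Finset.subset_univ
      (Finset.univ.image (Fin.castLE h)))]
    · rw [Finset.prod_image (fun i _ j _ hij => Fin.castLE_injective h hij)]
      apply Finset.prod_congr rfl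
      intro i _
      simp
    · intro q _ hq
      rw [dif_neg]
      intro hqn
      apply hq
      exact Finset.mem_image.mpr ⟨⟨q.val, hqn⟩, Finset.mem_univ _, rfl⟩
  rw [e2]
  rw [Finset.prod_mul_distrib, Finset.prod_const, prod_sg]
  simp

lemma gam_top_nonpad {n : ℕ} (z : Bits N) (hz : z ∉ Set.range (pad (n := n) (N := N))) :
    top (Gam (inputs n N) stdρ) z z = 0 := by
  have : ∃ q : Fin N, ¬ q.val < n ∧ z q = true := by
    by_contra hc
    push Not at hc
    apply hz
    by_cases hn : n ≤ N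
    · refine ⟨fun i => z ⟨i.val, lt_of_lt_of_le i.isLt hn⟩, ?_⟩
      funext q
      unfold pad
      split_ifs with hq
      · rfl
      · have := hc q (by omega)
        simpa using this.symm
    · refine ⟨fun i => if hi : i.val < N then z ⟨i.val, hi⟩ else false, ?_⟩
      funext q
      unfold pad
      have hq : q.val < n := lt_trans q.isLt (by omega)
      simp [hq, q.isLt]
  obtain ⟨q, hq, hzq⟩ := this
  rw [top_apply]
  apply Finset.prod_eq_zero (Finset.mem_univ q)
  have : q ∉ inputs n N := by simp [inputs, hq]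
  simp [Gam, this, stdρ, basisP, hzq]

/-- the observable `Z` on one qubit -/
def zObs : M2 := Matrix.of fun i j => if i = j then sg i else 0

lemma isObs_z : IsObs zObs := by
  refine ⟨?_, ?_, ?_⟩
  · ext i j
    cases i <;> cases j <;> simp [zObs, sg]
  · simp [zObs, sg, Matrix.trace]
  · ext i j
    cases i <;> cases j <;> simp [zObs, sg, Matrix.mul_apply]

lemma at1_z (out : Fin N) : at1 out zObs = Matrix.diagonal fun y : Bits N => sg (y out) := by
  unfold at1
  rw [topOn_singleton]
  ext y x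
  rw [top_apply]
  by_cases h : y = x
  · subst h
    rw [Matrix.diagonal_apply_eq, ← Finset.mul_prod_erase _ _ (Finset.mem_univ out),
      Finset.prod_eq_one, mul_one, Function.update_self]
    · simp [zObs]
    · intro r hr
      rw [Function.update_of_ne (Finset.ne_of_mem_erase hr), Matrix.one_apply_eq]
  · rw [Matrix.diagonal_apply_ne _ h]
    obtain ⟨q, hq⟩ := Function.ne_iff.mp h
    apply Finset.prod_eq_zero (Finset.mem_univ q)
    by_cases hqo : q = out
    · subst hqo; simp [zObs, hq]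
    · rw [Function.update_of_ne hqo, Matrix.one_apply_ne hq]

/-- the parity correlation as a trace -/
theorem corr_eq_trace {n : ℕ} (h : n ≤ N) (C : Circuit N) (out : Fin N) :
    ((C.parityCorrelation n out : ℝ) : ℂ) =
      (at1 out zObs * C.mat * top (Gam (inputs n N) stdρ) * C.matᴴ).trace := by
  set G : MQ (Fin N) := top (Gam (inputs n N) stdρ) with hG
  have e1 : (at1 out zObs * C.mat * G * C.matᴴ).trace =
      ∑ z : Bits N, G z z * ∑ y : Bits N, sg (y out) * ((‖C.mat y z‖ ^ 2 : ℝ) : ℂ) := by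
    rw [at1_z]
    simp only [Matrix.trace, Matrix.diag_apply]
    simp_rw [Matrix.mul_apply (M := Matrix.diagonal _ * C.mat * G)]
    rw [Finset.sum_comm]
    apply Finset.sum_congr rfl
    intro z _
    rw [Finset.mul_sum]
    apply Finset.sum_congr rfl
    intro y _
    rw [Matrix.mul_apply]
    rw [Finset.sum_eq_single z]
    · rw [Matrix.diagonal_mul, Matrix.conjTranspose_apply]
      have := Complex.mul_conj' (C.mat y z)
      rw [← RCLike.star_def] at this
      push_cast
      rw [← this]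
      ring
    · intro w _ hw
      have := gam_top_offdiag (N := N) n hw
      rw [← hG] at this
      rw [this, mul_zero]
    · intro hz; exact absurd (Finset.mem_univ z) hz
  rw [e1]
  have e2 : ∀ z : Bits N, z ∉ Finset.univ.image (pad (n := n) (N := N)) → G z z = 0 := by
    intro z hz
    apply gam_top_nonpad z
    intro ⟨x, hx⟩
    exact hz (Finset.mem_image.mpr ⟨x, Finset.mem_univ x, hx⟩)
  rw [← Finset.sum_subset (Finset.subset_univ (Finset.univ.image (pad (n := n) (N := N))))
    (fun z _ hz => by rw [e2 z hz, zero_mul]),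
    Finset.sum_image (fun x _ y _ hxy => pad_injective h hxy)]
  unfold Circuit.parityCorrelation
  push_cast
  rw [Finset.mul_sum]
  apply Finset.sum_congr rfl
  intro x _
  rw [hG, gam_top_pad h]
  rw [mul_assoc]
  congr 1
  have e3 : ∀ b, ((C.prob out x b : ℝ) : ℂ) =
      ∑ y : Bits N, if y out = b then ((‖C.mat y (pad x)‖ ^ 2 : ℝ) : ℂ) else 0 := by
    intro b
    unfold Circuit.prob
    rw [Finset.sum_filter, Complex.ofReal_sum]
    apply Finset.sum_congr rfl
    intro y _
    split_ifs <;> simp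
  have e4 : ∑ y : Bits N, sg (y out) * ((‖C.mat y (pad x)‖ ^ 2 : ℝ) : ℂ) =
      ((C.prob out x false : ℝ) : ℂ) - ((C.prob out x true : ℝ) : ℂ) := by
    rw [e3, e3, ← Finset.sum_sub_distrib]
    apply Finset.sum_congr rfl
    intro y _
    cases y out <;> simp [sg]
  have e4' : ∑ y : Bits N, sg (y out) * ((‖C.mat y (pad x)‖ : ℂ) ^ 2) =
      ((C.prob out x false : ℝ) : ℂ) - ((C.prob out x true : ℝ) : ℂ) := by
    rw [← e4]; push_cast; rfl
  rw [e4']
  cases parity x <;> simp [sg]

/-- reduction of one layer for a one-qubit observable -/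
theorem reduce_obs {Q : Type} [Fintype Q] [DecidableEq Q] {d : ℕ} {M : MQ Q}
    (hM : NF (d + 1) M) (G : MQ Q) {ε : ℝ}
    (hε : ∀ (M' : MQ Q) (Y : Q → M2), NF d M' → IsPP Y → ‖(top Y * M' * G * M'ᴴ).trace‖ ≤ ε)
    {O : M2} (hO : IsObs O) (i : Q) :
    ‖(at1 i O * M * G * Mᴴ).trace‖ ≤ 6 * ε := by
  cases hM with
  | succ _ M' U κ L hM' hU hκ hL =>
    have hO' : IsObs ((U i)ᴴ * O * U i) := by
      obtain ⟨h1, h2, h3⟩ := hO
      refine ⟨?_, ?_, ?_⟩
      · rw [Matrix.conjTranspose_mul, Matrix.conjTranspose_mul, h1,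
          Matrix.conjTranspose_conjTranspose, mul_assoc]
      · rw [Matrix.trace_mul_comm, ← mul_assoc, (hU i).2, one_mul, h2]
      · rw [show (U i)ᴴ * O * U i * ((U i)ᴴ * O * U i) = (U i)ᴴ * O * (U i * (U i)ᴴ) * O * U i by
          simp only [mul_assoc], (hU i).2, mul_one, mul_assoc (U i)ᴴ O O, h3, mul_one, (hU i).1]
    have e0 : (top U)ᴴ * at1 i O * top U = at1 i ((U i)ᴴ * O * U i) := by
      unfold at1
      rw [mul_assoc, topOn_mul_topU hU, ← mul_assoc, hU.top_left, one_mul]
      apply topOn_congr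
      intro q hq
      rw [Finset.mem_singleton.mp hq]
    obtain ⟨S, s, s', s0, s1, s0', s1', Y₁, Y₂, Y₃, Y₄, h1, h2, h3, h4, -, hW⟩ :=
      obsForm_layer hO' i hκ L hL
    have e1 : (at1 i O * (top U * reflProd κ L * M') * G * (top U * reflProd κ L * M')ᴴ).trace =
        (((reflProd κ L)ᴴ * at1 i ((U i)ᴴ * O * U i) * reflProd κ L) * (M' * G * M'ᴴ)).trace := by
      rw [← e0, Matrix.conjTranspose_mul, Matrix.conjTranspose_mul]
      have : at1 i O * (top U * reflProd κ L * M') * G *
          (M'ᴴ * ((reflProd κ L)ᴴ * (top U)ᴴ)) =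
          (at1 i O * (top U * reflProd κ L * M') * G * M'ᴴ) * ((reflProd κ L)ᴴ * (top U)ᴴ) := by
        simp only [mul_assoc]
      rw [this, Matrix.trace_mul_comm]
      congr 1
      simp only [mul_assoc]
    rw [e1, hW]
    have b : ∀ Y : Q → M2, IsPP Y → ‖(top Y * (M' * G * M'ᴴ)).trace‖ ≤ ε := by
      intro Y hY
      have := hε M' Y hM' hY
      rwa [show top Y * M' * G * M'ᴴ = top Y * (M' * G * M'ᴴ) by simp only [mul_assoc]] at this
    have hε0 : 0 ≤ ε := (norm_nonneg _).trans (b Y₁ h1)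
    rw [sub_mul, smul_mul_assoc, smul_mul_assoc, sub_mul, sub_mul, Matrix.trace_sub,
      Matrix.trace_smul, Matrix.trace_smul, Matrix.trace_sub, Matrix.trace_sub]
    have n1 : ‖(top Y₁ * (M' * G * M'ᴴ)).trace - (top Y₂ * (M' * G * M'ᴴ)).trace‖ ≤ 2 * ε := by
      refine (norm_sub_le _ _).trans ?_
      linarith [b Y₁ h1, b Y₂ h2]
    have n2 : ‖(top Y₃ * (M' * G * M'ᴴ)).trace - (top Y₄ * (M' * G * M'ᴴ)).trace‖ ≤ 2 * ε := by
      refine (norm_sub_le _ _).trans ?_
      linarith [b Y₃ h3, b Y₄ h4]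
    refine (norm_sub_le _ _).trans ?_
    rw [smul_eq_mul, smul_eq_mul, norm_mul, norm_mul]
    have n3 : ‖(s : ℂ)‖ = s := by rw [Complex.norm_real, Real.norm_of_nonneg s0]
    have n4 : ‖(2 * s' : ℂ)‖ = 2 * s' := by
      rw [norm_mul, Complex.norm_real, Real.norm_of_nonneg s0']; simp
    rw [n3, n4]
    have m1 : s * ‖(top Y₁ * (M' * G * M'ᴴ)).trace - (top Y₂ * (M' * G * M'ᴴ)).trace‖ ≤
        1 * (2 * ε) := mul_le_mul s1 n1 (norm_nonneg _) zero_le_one
    have m2 : 2 * s' * ‖(top Y₃ * (M' * G * M'ᴴ)).trace - (top Y₄ * (M' * G * M'ᴴ)).trace‖ ≤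
        2 * (2 * ε) := mul_le_mul (by linarith) n2 (norm_nonneg _) (by norm_num)
    linarith

end Vale.Agent.P368
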