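import Vale.Agent.Lib.P368.Flip

open Matrix Finset
open scoped ComplexOrder

set_option linter.unusedSectionVars false

namespace Vale.Agent.P368

variable {Q : Type} [Fintype Q] [DecidableEq Q]

/-- the set of violated wires -/
def vio (S : Finset Q) (ω : Q → Bool) : Finset Q := S.filter fun q => ω q = true

lemma dl_sdiff (S X : Finset Q) (ω : Q → Bool) :
    dl (S \ X) ω = if vio S ω ⊆ X then 1 else 0 := by
  unfold dl
  congr 1
  apply propext
  constructor
  · intro h q hq
    unfold vio at hq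
    rw [Finset.mem_filter] at hq
    by_contra hX
    have := h q (Finset.mem_sdiff.mpr ⟨hq.1, hX⟩)
    rw [hq.2] at this
    simp at this
  · intro h q hq
    rw [Finset.mem_sdiff] at hq
    by_contra hne
    have : q ∈ vio S ω := by
      unfold vio
      rw [Finset.mem_filter]
      exact ⟨hq.1, by simpa using hne⟩
    exact hq.2 (h this)

lemma dl_eq_vio (S : Finset Q) (ω : Q → Bool) : dl S ω = if vio S ω ⊆ ∅ then 1 else 0 := by
  have := dl_sdiff S ∅ ω
  rwa [Finset.sdiff_empty] at this

section counting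

variable {ι Γ : Type} [DecidableEq ι] [DecidableEq Γ]

lemma count_one {I : Finset ι} {Del : ι → Finset Q} {L : ℕ}
    (hL : ∀ q, (I.filter fun i => q ∈ Del i).card ≤ L) (S : Finset Q) (ω : Q → Bool) :
    ∑ i ∈ I, (dl (S \ Del i) ω - dl S ω) ≤ L := by
  simp_rw [dl_sdiff, dl_eq_vio]
  rcases (vio S ω).eq_empty_or_nonempty with h | ⟨q, hq⟩
  · rw [h]
    simp
  · have h1 : ∀ i ∈ I, ((if vio S ω ⊆ Del i then (1 : ℝ) else 0) -
        (if vio S ω ⊆ ∅ then 1 else 0)) ≤ if q ∈ Del i then 1 else 0 := by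
      intro i _
      have h2 : ¬ vio S ω ⊆ ∅ := fun h => by simpa using h hq
      rw [if_neg h2, sub_zero]
      by_cases h3 : vio S ω ⊆ Del i
      · rw [if_pos h3, if_pos (h3 hq)]
      · rw [if_neg h3]; split_ifs <;> norm_num
    refine (Finset.sum_le_sum h1).trans ?_
    rw [Finset.sum_ite, Finset.sum_const_zero, add_zero, Finset.sum_const, nsmul_eq_mul, mul_one]
    exact_mod_cast hL q

lemma count_two {g : Γ → Finset Q} (hg : ∀ γ γ', γ ≠ γ' → Disjoint (g γ) (g γ'))
    (K : Finset Γ) (S : Finset Q) (ω : Q → Bool) :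
    ∑ γ ∈ K, (dl (S \ g γ) ω - dl S ω) ^ 2 ≤ 1 := by
  simp_rw [dl_sdiff, dl_eq_vio]
  rcases (vio S ω).eq_empty_or_nonempty with h | ⟨q, hq⟩
  · rw [h]
    simp
  · have h2 : ¬ vio S ω ⊆ ∅ := fun h => by simpa using h hq
    have h1 : ∀ γ ∈ K, ((if vio S ω ⊆ g γ then (1 : ℝ) else 0) -
        (if vio S ω ⊆ ∅ then 1 else 0)) ^ 2 ≤ if q ∈ g γ then 1 else 0 := by
      intro γ _
      rw [if_neg h2, sub_zero]
      by_cases h3 : vio S ω ⊆ g γ
      · rw [if_pos h3, if_pos (h3 hq)]; norm_num
      · rw [if_neg h3]; split_ifs <;> norm_num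
    refine (Finset.sum_le_sum h1).trans ?_
    rw [Finset.sum_ite, Finset.sum_const_zero, add_zero, Finset.sum_const, nsmul_eq_mul, mul_one]
    have : (K.filter fun γ => q ∈ g γ).card ≤ 1 := by
      rw [Finset.card_le_one]
      intro a ha b hb
      rw [Finset.mem_filter] at ha hb
      by_contra hab
      exact Finset.disjoint_left.mp (hg a b hab) ha.2 hb.2
    exact_mod_cast this

lemma count_three {B : Finset ι} {Del : ι → Finset Q} {L : ℕ}
    (hL : ∀ q, (B.filter fun i => q ∈ Del i).card ≤ L)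
    {g : Γ → Finset Q} (hg : ∀ γ γ', γ ≠ γ' → Disjoint (g γ) (g γ'))
    (K : Finset Γ) (S : Finset Q) (ω : Q → Bool) :
    ∑ i ∈ B, ∑ γ ∈ K.filter (fun γ => Disjoint (g γ) (Del i)),
      (dl (S \ (Del i ∪ g γ)) ω - dl (S \ Del i) ω - (dl (S \ g γ) ω - dl S ω)) ^ 2
        ≤ 2 * L := by
  simp_rw [dl_sdiff, dl_eq_vio]
  set U := vio S ω with hU
  rcases U.eq_empty_or_nonempty with h | hne
  · rw [h]
    simp
  · have h2 : ¬ U ⊆ ∅ := fun h => by
      obtain ⟨q, hq⟩ := hne
      simpa using h hq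
    -- validity of a pair
    have h1 : ∀ i ∈ B, ∀ γ ∈ K.filter (fun γ => Disjoint (g γ) (Del i)),
        ((if U ⊆ Del i ∪ g γ then (1 : ℝ) else 0) - (if U ⊆ Del i then 1 else 0) -
        ((if U ⊆ g γ then 1 else 0) - (if U ⊆ ∅ then 1 else 0))) ^ 2 ≤
        if (U ⊆ Del i ∪ g γ ∧ ¬ U ⊆ Del i ∧ ¬ U ⊆ g γ) then 1 else 0 := by
      intro i _ γ hγ
      rw [Finset.mem_filter] at hγ
      rw [if_neg h2, sub_zero]
      by_cases ha : U ⊆ Del i
      · have hb : ¬ U ⊆ g γ := by
          intro hb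
          obtain ⟨q, hq⟩ := hne
          exact Finset.disjoint_left.mp hγ.2 (hb hq) (ha hq)
        rw [if_pos (ha.trans Finset.subset_union_left), if_pos ha, if_neg hb]
        split_ifs <;> norm_num
      · by_cases hb : U ⊆ g γ
        · rw [if_pos (hb.trans Finset.subset_union_right), if_neg ha, if_pos hb]
          split_ifs <;> norm_num
        · rw [if_neg ha, if_neg hb]
          by_cases hc : U ⊆ Del i ∪ g γ
          · rw [if_pos hc, if_pos ⟨hc, ha, hb⟩]; norm_num
          · rw [if_neg hc]; split_ifs <;> norm_num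
    refine (Finset.sum_le_sum fun i hi => Finset.sum_le_sum (h1 i hi)).trans ?_
    by_cases hex : ∃ i₀ ∈ B, ∃ γ₀ ∈ K, U ⊆ Del i₀ ∪ g γ₀ ∧ ¬ U ⊆ Del i₀ ∧ ¬ U ⊆ g γ₀
    · obtain ⟨i₀, -, γ₀, -, h3, h4, h5⟩ := hex
      obtain ⟨q₁, hq₁, hq₁'⟩ := Finset.not_subset.mp h4
      obtain ⟨q₂, hq₂, hq₂'⟩ := Finset.not_subset.mp h5
      have hq₁g : q₁ ∈ g γ₀ := by
        rcases Finset.mem_union.mp (h3 hq₁) with h | h
        · exact absurd h hq₁'
        · exact h
      have h6 : ∀ i ∈ B, ∑ γ ∈ K.filter (fun γ => Disjoint (g γ) (Del i)),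
          (if (U ⊆ Del i ∪ g γ ∧ ¬ U ⊆ Del i ∧ ¬ U ⊆ g γ) then (1 : ℝ) else 0) ≤
          (if q₁ ∈ Del i then 1 else 0) + (if q₂ ∈ Del i then 1 else 0) := by
        intro i _
        rw [← Finset.sum_filter, Finset.sum_const, nsmul_eq_mul, mul_one]
        set F := (K.filter (fun γ => Disjoint (g γ) (Del i))).filter
          (fun γ => U ⊆ Del i ∪ g γ ∧ ¬ U ⊆ Del i ∧ ¬ U ⊆ g γ) with hF
        have hcard : F.card ≤ 1 := by
          rw [Finset.card_le_one]
          intro a ha b hb
          rw [hF, Finset.mem_filter] at ha hb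
          by_contra hab
          obtain ⟨q, hq, hq'⟩ := Finset.not_subset.mp ha.2.2.1
          have m1 : q ∈ g a := by
            rcases Finset.mem_union.mp (ha.2.1 hq) with h | h
            · exact absurd h hq'
            · exact h
          have m2 : q ∈ g b := by
            rcases Finset.mem_union.mp (hb.2.1 hq) with h | h
            · exact absurd h hq'
            · exact h
          exact Finset.disjoint_left.mp (hg a b hab) m1 m2
        rcases F.eq_empty_or_nonempty with hF0 | ⟨γ, hγ⟩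
        · rw [hF0]
          simp only [Finset.card_empty, Nat.cast_zero]
          split_ifs <;> norm_num
        · rw [hF, Finset.mem_filter] at hγ
          have hor : q₁ ∈ Del i ∨ q₂ ∈ Del i := by
            by_contra hcon
            push Not at hcon
            have m1 : q₁ ∈ g γ := by
              rcases Finset.mem_union.mp (hγ.2.1 hq₁) with h | h
              · exact absurd h hcon.1
              · exact h
            have m2 : q₂ ∈ g γ := by
              rcases Finset.mem_union.mp (hγ.2.1 hq₂) with h | h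
              · exact absurd h hcon.2
              · exact h
            have : γ = γ₀ := by
              by_contra hne'
              exact Finset.disjoint_left.mp (hg γ γ₀ hne') m1 hq₁g
            rw [this] at m2
            exact hq₂' m2
          have hc : (F.card : ℝ) ≤ 1 := by exact_mod_cast hcard
          rcases hor with h | h
          · rw [if_pos h]
            have : (0 : ℝ) ≤ if q₂ ∈ Del i then 1 else 0 := by split_ifs <;> norm_num
            linarith
          · rw [if_pos h]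
            have : (0 : ℝ) ≤ if q₁ ∈ Del i then 1 else 0 := by split_ifs <;> norm_num
            linarith
      refine (Finset.sum_le_sum h6).trans ?_
      rw [Finset.sum_add_distrib, ← Finset.sum_filter, ← Finset.sum_filter, Finset.sum_const,
        Finset.sum_const, nsmul_eq_mul, nsmul_eq_mul, mul_one, mul_one]
      have a1 : (((B.filter fun i => q₁ ∈ Del i).card : ℕ) : ℝ) ≤ L := by exact_mod_cast hL q₁
      have a2 : (((B.filter fun i => q₂ ∈ Del i).card : ℕ) : ℝ) ≤ L := by exact_mod_cast hL q₂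
      linarith
    · push Not at hex
      have : ∀ i ∈ B, ∑ γ ∈ K.filter (fun γ => Disjoint (g γ) (Del i)),
          (if (U ⊆ Del i ∪ g γ ∧ ¬ U ⊆ Del i ∧ ¬ U ⊆ g γ) then (1 : ℝ) else 0) = 0 := by
        intro i hi
        apply Finset.sum_eq_zero
        intro γ hγ
        rw [Finset.mem_filter] at hγ
        rw [if_neg]
        intro ⟨h3, h4, h5⟩
        exact h5 (hex i hi γ hγ.1 h3 h4)
      rw [Finset.sum_eq_zero this]
      positivity

end counting

/-! ### families of reflections -/

/-- phase function of a family of reflections -/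
noncomputable def rf {J : Type} (h : J → Finset Q) (K : Finset J) (ω : Q → Bool) : ℝ :=
  ∏ j ∈ K, (1 - 2 * dl (h j) ω)

lemma one_sub_dl_sq (A : Finset Q) (ω : Q → Bool) :
    (1 - 2 * dl A ω) * (1 - 2 * dl A ω) = 1 := by
  have := dl_sq A ω
  linear_combination 4 * this

lemma rf_sq {J : Type} (h : J → Finset Q) (K : Finset J) (ω : Q → Bool) :
    rf h K ω * rf h K ω = 1 := by
  unfold rf
  rw [← Finset.prod_mul_distrib]
  exact Finset.prod_eq_one fun j _ => one_sub_dl_sq _ _

lemma dl_indep {A : Finset Q} {q : Q} (hq : q ∉ A) (ω η : Q → Bool)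
    (h : ∀ r, r ≠ q → ω r = η r) : dl A ω = dl A η := by
  unfold dl
  congr 1
  apply propext
  constructor
  · intro h1 r hr
    rw [← h r (fun h2 => hq (h2 ▸ hr))]
    exact h1 r hr
  · intro h1 r hr
    rw [h r (fun h2 => hq (h2 ▸ hr))]
    exact h1 r hr

lemma rf_indep {J : Type} {h : J → Finset Q} {K : Finset J} {q : Q} (hq : ∀ j ∈ K, q ∉ h j)
    (ω η : Q → Bool) (hωη : ∀ r, r ≠ q → ω r = η r) : rf h K ω = rf h K η := by
  unfold rf
  apply Finset.prod_congr rfl
  intro j hj
  rw [dl_indep (hq j hj) ω η hωη]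

lemma rf_cj_sq {C : Q → M2} (hC : IsPU C) {J : Type} (h : J → Finset Q) (K : Finset J) :
    cj C (rf h K) * cj C (rf h K) = 1 := by
  rw [cj_mul hC]
  simp_rw [rf_sq]
  exact cj_one hC

lemma cj_dl_eq (D : Q → M2) (hD : IsPU D) (A : Finset Q) :
    cj D (dl A) = topOn A (fun q => D q * basisP false * (D q)ᴴ) :=
  (topOn_eq_cj hD (fun _ => rfl) A).symm

/-- wires avoided by a conjugated measurement -/
lemma av_RTR {C D : Q → M2} (hC : IsPU C) (hD : IsPU D) {Γ : Type} [DecidableEq Γ]
    {g : Γ → Finset Q} (hg : ∀ γ γ', γ ≠ γ' → Disjoint (g γ) (g γ')) (K : Finset Γ)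
    {A : Finset Q} {q : Q} (hqA : q ∉ A) (hA : ∀ γ ∈ K, q ∈ g γ → Disjoint A (g γ)) :
    Av q (cj C (rf g K) * cj D (dl A) * cj C (rf g K)) := by
  have hT : Av q (cj D (dl A)) := by
    rw [cj_dl_eq D hD]
    exact av_topOn hqA _
  by_cases hex : ∃ γ ∈ K, q ∈ g γ
  · obtain ⟨γ, hγ, hqγ⟩ := hex
    set R₁ : MQ Q := cj C (fun ω => 1 - 2 * dl (g γ) ω) with hR₁
    set R' : MQ Q := cj C (rf g (K.erase γ)) with hR'
    have e1 : cj C (rf g K) = R₁ * R' := by
      rw [hR₁, hR', cj_mul hC]
      congr 1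
      funext ω
      exact (Finset.mul_prod_erase K (fun j => 1 - 2 * dl (g j) ω) hγ).symm
    have e2 : R₁ * R' = R' * R₁ := by rw [hR₁, hR', cj_comm hC]
    have e3 : R₁ * R₁ = 1 := by
      rw [hR₁, cj_mul hC]
      simp_rw [one_sub_dl_sq]
      exact cj_one hC
    have e4 : cj D (dl A) * R₁ = R₁ * cj D (dl A) := by
      rw [cj_dl_eq D hD]
      apply (commute_topOn _ _).eq
      intro r hr
      apply av_cj hC
      intro ω η h
      rw [dl_indep (Finset.disjoint_left.mp (hA γ hγ hqγ) hr) ω η h]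
    have e5 : cj C (rf g K) * cj D (dl A) * cj C (rf g K) = R' * cj D (dl A) * R' := by
      rw [e1]
      nth_rewrite 1 [e2]
      calc R' * R₁ * cj D (dl A) * (R₁ * R') = R' * (R₁ * (cj D (dl A) * R₁)) * R' := by
            simp only [mul_assoc]
        _ = R' * (R₁ * R₁ * cj D (dl A)) * R' := by rw [e4]; simp only [mul_assoc]
        _ = _ := by rw [e3, one_mul]
    rw [e5]
    have hR'av : Av q R' := by
      rw [hR']
      apply av_cj hC
      apply rf_indep
      intro γ' hγ'
      rw [Finset.mem_erase] at hγ'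
      exact Finset.disjoint_left.mp (hg γ γ' hγ'.1.symm) hqγ
    exact (hR'av.mul hT).mul hR'av
  · push Not at hex
    have hR : Av q (cj C (rf g K)) := av_cj hC (rf_indep hex)
    exact (hR.mul hT).mul hR

end Vale.Agent.P368
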