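import Vale.Agent.Lib.P368.BlockBound

open Matrix Finset
open scoped ComplexOrder

set_option linter.unusedSectionVars false

namespace Vale.Agent.P368

variable {Q : Type} [Fintype Q] [DecidableEq Q]

lemma blockF_le {r : ℝ} (hr0 : 0 ≤ r) (hr4 : r ^ 4 = 1 / 2)
    {I : Finset Q} {ρ : Q → Bool → M2} (h : InOK I ρ) {κ Y : Q → M2}
    (hκ : ∀ q, IsRP (κ q)) (hY : IsPP Y) (b : Finset Q) :
    ‖blockF κ Y (Gam I ρ) b‖ ≤ r ^ (b ∩ I).card := by
  have hr1 : r ≤ 85 / 100 := by
    by_contra hc
    push Not at hc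
    have : (85 / 100 : ℝ) ^ 4 < r ^ 4 := pow_lt_pow_left₀ hc (by norm_num) (by norm_num)
    rw [hr4] at this
    norm_num at this
  have hr1' : r ≤ 1 := hr1.trans (by norm_num)
  rcases Nat.eq_zero_or_pos (b ∩ I).card with h0 | hpos
  · rw [h0, pow_zero]
    exact blockF_one h hκ hY b (Finset.card_eq_zero.mp h0)
  · by_cases hm : (b ∩ I).card ≤ 4
    · refine (blockF_half h hκ hY b (Finset.card_pos.mp hpos)).trans ?_
      rw [← hr4]
      exact pow_le_pow_of_le_one hr0 hr1' hm
    · push Not at hm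
      refine (blockF_small h hκ hY b).trans ?_
      set m := (b ∩ I).card with hmdef
      rw [← hr4, ← pow_mul]
      have e : r ^ (4 * m) = r ^ m * r ^ (3 * m) := by rw [← pow_add]; congr 1; ring
      rw [e]
      have h2 : r ^ (3 * m) ≤ r ^ 15 := pow_le_pow_of_le_one hr0 hr1' (by omega)
      have h3 : r ^ 15 = (1 / 8) * r ^ 3 := by
        have : r ^ 15 = (r ^ 4) ^ 3 * r ^ 3 := by ring
        rw [this, hr4]; norm_num
      have h4 : r ^ 3 ≤ (85 / 100) ^ 3 := pow_le_pow_left₀ hr0 hr1 3
      have h5 : 9 * r ^ (3 * m) ≤ 1 := by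
        calc 9 * r ^ (3 * m) ≤ 9 * ((1 / 8) * (85 / 100) ^ 3) := by
              have := h2.trans (h3.le.trans (mul_le_mul_of_nonneg_left h4 (by norm_num)))
              linarith
          _ ≤ 1 := by norm_num
      have h6 : 0 ≤ r ^ m := pow_nonneg hr0 m
      calc 9 * (r ^ m * r ^ (3 * m)) = r ^ m * (9 * r ^ (3 * m)) := by ring
        _ ≤ r ^ m * 1 := mul_le_mul_of_nonneg_left h5 h6
        _ = r ^ m := mul_one _

lemma prod_card_cov (r : ℝ) (I : Finset Q) (L : List (Finset Q)) (hL : L.Pairwise Disjoint) :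
    (L.map fun h => r ^ (h ∩ I).card).prod = r ^ (cov L ∩ I).card := by
  induction L with
  | nil => simp
  | cons h L ih =>
    rw [List.pairwise_cons] at hL
    obtain ⟨hd, hL⟩ := hL
    have hdc : Disjoint h (cov L) := disjoint_cov hd
    rw [List.map_cons, List.prod_cons, ih hL, cov_cons, Finset.union_inter_distrib_right,
      Finset.card_union_of_disjoint, pow_add]
    exact Finset.disjoint_of_subset_left Finset.inter_subset_left
      (Finset.disjoint_of_subset_right Finset.inter_subset_left hdc)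

/-- the parity correlation of a product measurement after one layer of reflections -/
theorem depth_one_bound {r : ℝ} (hr0 : 0 ≤ r) (hr4 : r ^ 4 = 1 / 2)
    {I : Finset Q} {ρ : Q → Bool → M2} (h : InOK I ρ) {κ Y : Q → M2}
    (hκ : ∀ q, IsRP (κ q)) (hY : IsPP Y) (L : List (Finset Q)) (hL : L.Pairwise Disjoint) :
    ‖(top Y * reflProd κ L * top (Gam I ρ) * (reflProd κ L)ᴴ).trace‖ ≤ r ^ I.card := by
  have hr1' : r ≤ 1 := by
    by_contra hc
    push Not at hc
    have : (1 : ℝ) ^ 4 < r ^ 4 := pow_lt_pow_left₀ hc (by norm_num) (by norm_num)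
    rw [hr4] at this
    norm_num at this
  rw [trace_reflProd (fun q => (hκ q).1) _ L hL, norm_mul]
  have h1 : ‖(L.map (blockF κ Y (Gam I ρ))).prod‖ ≤ (L.map fun h => r ^ (h ∩ I).card).prod := by
    clear hL
    induction L with
    | nil => simp
    | cons b L ih =>
      simp only [List.map_cons, List.prod_cons]
      rw [norm_mul]
      exact mul_le_mul (blockF_le hr0 hr4 h hκ hY b) ih (norm_nonneg _) (pow_nonneg hr0 _)
  have h2 : ‖∏ q ∈ (cov L)ᶜ, (Y q * Gam I ρ q).trace‖ ≤ r ^ ((cov L)ᶜ ∩ I).card := by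
    rw [norm_prod]
    calc _ ≤ ∏ q ∈ (cov L)ᶜ, wt I q :=
          Finset.prod_le_prod (fun _ _ => norm_nonneg _) fun q _ => gam_b1 h (hY q) q
      _ = (1 / 2 : ℝ) ^ ((cov L)ᶜ ∩ I).card := prod_wt _ _
      _ ≤ _ := by
        apply pow_le_pow_left₀ (by norm_num)
        rw [← hr4]
        calc r ^ 4 ≤ r ^ 1 := pow_le_pow_of_le_one hr0 hr1' (by norm_num)
          _ = r := pow_one r
  calc _ ≤ (L.map fun h => r ^ (h ∩ I).card).prod * r ^ ((cov L)ᶜ ∩ I).card :=
        mul_le_mul h1 h2 (norm_nonneg _)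
          (List.prod_nonneg (by
            intro a ha
            obtain ⟨b, _, rfl⟩ := List.mem_map.mp ha
            exact pow_nonneg hr0 _))
    _ = r ^ I.card := by
      rw [prod_card_cov r I L hL, ← pow_add]
      congr 1
      rw [← Finset.card_union_of_disjoint]
      · congr 1
        ext q
        simp only [Finset.mem_union, Finset.mem_inter, Finset.mem_compl]
        tauto
      · rw [Finset.disjoint_left]
        intro q hq hq'
        simp only [Finset.mem_inter, Finset.mem_compl] at hq hq'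
        exact hq'.1 hq.1

end Vale.Agent.P368
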