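import Vale.Agent.Lib.P368.Live

open Matrix Finset
open scoped ComplexOrder

set_option linter.unusedSectionVars false

namespace Vale.Agent.P368

variable {Q : Type} [Fintype Q] [DecidableEq Q]

lemma exp_neg_le_quarter (t : ℕ) : Real.exp (-(4 * t)) ≤ ((1 / 4 : ℝ) ^ t) ^ 2 := by
  have h1 : Real.exp (-(4 * (t : ℝ))) = (Real.exp (-4)) ^ t := by
    rw [← Real.exp_nat_mul]
    congr 1
    ring
  rw [h1, ← pow_mul, mul_comm t 2, pow_mul]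
  apply pow_le_pow_left₀ (Real.exp_pos _).le
  have h2 : (2 : ℝ) ≤ Real.exp 1 := by linarith [Real.add_one_le_exp (1 : ℝ)]
  have h3 : Real.exp (-4) = (Real.exp 1 ^ 4)⁻¹ := by
    rw [← Real.exp_nat_mul, ← Real.exp_neg]
    norm_num
  rw [h3]
  have h4 : (16 : ℝ) ≤ Real.exp 1 ^ 4 := by
    calc (16 : ℝ) = 2 ^ 4 := by norm_num
      _ ≤ Real.exp 1 ^ 4 := pow_le_pow_left₀ (by norm_num) h2 4
  rw [inv_eq_one_div]
  calc 1 / Real.exp 1 ^ 4 ≤ 1 / 16 := one_div_le_one_div_of_le (by norm_num) h4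
    _ = (1 / 4) ^ 2 := by norm_num

lemma num_exp {t : ℕ} {m μ : ℝ} (hμ0 : 0 < μ) (hμ : μ ^ 4 = m) (hm2 : m ≤ 2 ^ t) :
    Real.exp (-(t : ℝ)) ≤ 1 / μ ^ 2 := by
  rw [Real.exp_neg, inv_eq_one_div]
  apply one_div_le_one_div_of_le (by positivity)
  have h1 : (μ ^ 2) ^ 2 ≤ (Real.exp t) ^ 2 := by
    have e0 : (μ ^ 2) ^ 2 = m := by rw [← hμ]; ring
    rw [e0]
    refine hm2.trans ?_
    have h2 : Real.exp (t : ℝ) = Real.exp 1 ^ t := by rw [← Real.exp_nat_mul, mul_one]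
    rw [h2, ← pow_mul, mul_comm, pow_mul]
    apply pow_le_pow_left₀ (by norm_num)
    have h3 : (2 : ℝ) ≤ Real.exp 1 := by linarith [Real.add_one_le_exp (1 : ℝ)]
    nlinarith
  exact (sq_le_sq₀ (by positivity) (Real.exp_pos _).le).mp h1

lemma num_x2 {t : ℕ} {μ L4 : ℝ} (hμ0 : 0 < μ) (ht' : (1 : ℝ) ≤ t)
    (hΛlow : 8 * (t : ℝ) ^ 2 * μ ^ 2 ≤ L4) :
    Real.sqrt (Real.exp (-(1 / μ ^ 2 / (1 + (t : ℝ))) * L4)) ≤ (1 / 4 : ℝ) ^ t := by
  apply Real.sqrt_le_iff.mpr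
  refine ⟨by positivity, ?_⟩
  refine le_trans (Real.exp_le_exp.mpr ?_) (exp_neg_le_quarter t)
  have h2 : 1 / μ ^ 2 / (1 + (t : ℝ)) * (8 * (t : ℝ) ^ 2 * μ ^ 2) ≤
      1 / μ ^ 2 / (1 + (t : ℝ)) * L4 := mul_le_mul_of_nonneg_left hΛlow (by positivity)
  have h3 : 1 / μ ^ 2 / (1 + (t : ℝ)) * (8 * (t : ℝ) ^ 2 * μ ^ 2) =
      8 * (t : ℝ) ^ 2 / (1 + t) := by
    field_simp
  have h4 : 4 * (t : ℝ) ≤ 8 * (t : ℝ) ^ 2 / (1 + t) := by
    rw [le_div_iff₀ (by linarith)]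
    nlinarith
  linarith

lemma num_drop {t : ℕ} {m L4 x₂ : ℝ} (hm1 : 1 ≤ m) (hm2 : m ≤ 2 ^ t)
    (hL : (t : ℝ) ≤ L4 / 8) (hLpos : 0 < L4) (hx0 : 0 ≤ x₂) (hx : x₂ ≤ (1 / 4 : ℝ) ^ t) :
    m * (4 * (m * (1 / 4 : ℝ) ^ t + m * t / L4 * x₂)) ≤ 9 / 2 := by
  have ha0 : (0 : ℝ) < (1 / 4) ^ t := by positivity
  have hm2a : m * m * (1 / 4) ^ t ≤ 1 := by
    have h1 : m * m ≤ 4 ^ t := by
      calc m * m ≤ 2 ^ t * 2 ^ t := mul_le_mul hm2 hm2 (by linarith) (by positivity)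
        _ = 4 ^ t := by rw [← mul_pow]; norm_num
    calc m * m * (1 / 4) ^ t ≤ 4 ^ t * (1 / 4) ^ t := mul_le_mul_of_nonneg_right h1 ha0.le
      _ = 1 := by rw [← mul_pow]; norm_num
  have h1 : m * t / L4 ≤ m / 8 := by
    rw [div_le_iff₀ hLpos]
    nlinarith
  have h4 : m * t / L4 * x₂ ≤ m / 8 * (1 / 4) ^ t := mul_le_mul h1 hx hx0 (by positivity)
  have h5 : m * (4 * (m * (1 / 4) ^ t + m / 8 * (1 / 4) ^ t)) =
      (9 / 2) * (m * m * (1 / 4) ^ t) := by ring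
  calc _ ≤ m * (4 * (m * (1 / 4) ^ t + m / 8 * (1 / 4) ^ t)) := by
        apply mul_le_mul_of_nonneg_left _ (by linarith)
        linarith
    _ ≤ 9 / 2 := by rw [h5]; linarith

lemma num_sqrt {t m μ L4 : ℝ} (ht' : 1 ≤ t) (hμ0 : 0 < μ) (hμ : μ ^ 4 = m)
    (hL0 : 0 ≤ L4) (hL : 2 * L4 + 2 ≤ 20 * t ^ 2 * μ ^ 2) :
    Real.sqrt (m * (64 * t * (2 * L4 + 2) * (1 + 2 * (4 * t)))) ≤ 108 * t ^ 2 * μ ^ 3 := by
  apply Real.sqrt_le_iff.mpr
  refine ⟨by positivity, ?_⟩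
  have h2 : 1 + 2 * (4 * t) ≤ 9 * t := by linarith
  have h3 : (2 * L4 + 2) * (1 + 2 * (4 * t)) ≤ (20 * t ^ 2 * μ ^ 2) * (9 * t) :=
    mul_le_mul hL h2 (by positivity) (by positivity)
  have h4 : 0 ≤ t ^ 4 * μ ^ 6 := by positivity
  have hm0 : 0 ≤ m := by rw [← hμ]; positivity
  have h5 : m * (64 * t) * ((2 * L4 + 2) * (1 + 2 * (4 * t))) ≤
      m * (64 * t) * ((20 * t ^ 2 * μ ^ 2) * (9 * t)) :=
    mul_le_mul_of_nonneg_left h3 (by positivity)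
  have h6 : m * (64 * t) * ((20 * t ^ 2 * μ ^ 2) * (9 * t)) =
      11520 * (t ^ 4 * μ ^ 6) := by rw [← hμ]; ring
  have h7 : (108 * t ^ 2 * μ ^ 3) ^ 2 = 11664 * (t ^ 4 * μ ^ 6) := by ring
  have h8 : m * (64 * t * (2 * L4 + 2) * (1 + 2 * (4 * t))) =
      m * (64 * t) * ((2 * L4 + 2) * (1 + 2 * (4 * t))) := by ring
  rw [h7, h8]
  rw [h6] at h5
  linarith

lemma num_final {t m μ c : ℝ} (ht' : 1 ≤ t) (hμ1 : 1 ≤ μ) (hμ : μ ^ 4 = m)
    (h : m * c ≤ 4 * t + 2 * μ ^ 3 + (1 / 2) * (108 * t ^ 2 * μ ^ 3) + 9 / 2) :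
    c ≤ 65 * t ^ 2 / μ := by
  have hμ3 : 1 ≤ μ ^ 3 := one_le_pow₀ hμ1
  have ht2 : 1 ≤ t ^ 2 := one_le_pow₀ ht'
  have ht2' : t ≤ t ^ 2 := by nlinarith
  have e1 : t ^ 2 ≤ t ^ 2 * μ ^ 3 := le_mul_of_one_le_right (by positivity) hμ3
  have e2 : μ ^ 3 ≤ t ^ 2 * μ ^ 3 := le_mul_of_one_le_left (by positivity) ht2
  have htot : m * c ≤ 65 * t ^ 2 * μ ^ 3 := by linarith
  rw [le_div_iff₀ (by linarith)]
  have h1 : μ ^ 3 * (c * μ) ≤ μ ^ 3 * (65 * t ^ 2) := by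
    have : μ ^ 3 * (c * μ) = m * c := by rw [← hμ]; ring
    rw [this]
    linarith
  exact le_of_mul_le_mul_left h1 (by positivity)

/-- optimisation of the parameters -/
lemma live_num {t : ℕ} (ht : 1 ≤ t) {m μ c : ℝ} (hμ0 : 0 < μ) (hμ : μ ^ 4 = m) (hm1 : 1 ≤ m)
    (hm2 : m ≤ 2 ^ t)
    (hmain : ∀ (β lam : ℝ) (ℓ Λ₄ : ℕ), 0 < β → 0 ≤ lam → Real.exp (-lam) ≤ β → 1 ≤ ℓ →
      1 ≤ Λ₄ → m * c ≤ ℓ + 2 * m * Real.sqrt β +
        (1 / 2) * Real.sqrt (m * (64 * lam * (2 * Λ₄ + 2) * (1 + 2 * ℓ))) +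
      m * (4 * (m * Real.sqrt ((1 / 2) ^ ℓ) +
        m * lam / Λ₄ * Real.sqrt (Real.exp (-(β / (1 + lam)) * Λ₄))))) :
    c ≤ 65 * (t : ℝ) ^ 2 / μ := by
  have ht' : (1 : ℝ) ≤ t := by exact_mod_cast ht
  have hμ1 : 1 ≤ μ := by
    by_contra hcon
    push Not at hcon
    have : μ ^ 4 < 1 := pow_lt_one₀ hμ0.le hcon (by norm_num)
    linarith
  have hμ2 : 1 ≤ μ ^ 2 := one_le_pow₀ hμ1
  have ht2 : 1 ≤ (t : ℝ) ^ 2 := one_le_pow₀ ht'
  have hβ0 : 0 < 1 / μ ^ 2 := by positivity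
  have hsqβ : Real.sqrt (1 / μ ^ 2) = 1 / μ := by
    rw [show 1 / μ ^ 2 = (1 / μ) ^ 2 by rw [div_pow, one_pow], Real.sqrt_sq (by positivity)]
  have htt : (t : ℝ) ≤ (t : ℝ) ^ 2 := by nlinarith
  have htm0 : (t : ℝ) ^ 2 ≤ (t : ℝ) ^ 2 * μ ^ 2 := le_mul_of_one_le_right (by positivity) hμ2
  obtain ⟨Λ₄, hΛlow, hΛup⟩ : ∃ Λ₄ : ℕ, 8 * (t : ℝ) ^ 2 * μ ^ 2 ≤ Λ₄ ∧
      (Λ₄ : ℝ) ≤ 9 * (t : ℝ) ^ 2 * μ ^ 2 := by
    refine ⟨⌈8 * (t : ℝ) ^ 2 * μ ^ 2⌉₊, Nat.le_ceil _, ?_⟩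
    have := (Nat.ceil_lt_add_one (by positivity : (0 : ℝ) ≤ 8 * (t : ℝ) ^ 2 * μ ^ 2)).le
    linarith
  have hΛ41 : 1 ≤ Λ₄ := by
    have : (1 : ℝ) ≤ Λ₄ := by linarith
    exact_mod_cast this
  have hΛpos : (0 : ℝ) < Λ₄ := by exact_mod_cast hΛ41
  have hmm := hmain (1 / μ ^ 2) t (4 * t) Λ₄ hβ0 (by linarith) (num_exp hμ0 hμ hm2)
    (by omega) hΛ41
  have hx₁ : Real.sqrt ((1 / 2 : ℝ) ^ (4 * t)) = (1 / 4 : ℝ) ^ t := by
    have : (1 / 2 : ℝ) ^ (4 * t) = ((1 / 4 : ℝ) ^ t) ^ 2 := by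
      rw [← pow_mul, mul_comm t 2, pow_mul, pow_mul]
      norm_num
    rw [this, Real.sqrt_sq (by positivity)]
  have h4t : ((4 * t : ℕ) : ℝ) = 4 * t := by push_cast; rfl
  have h2m : 2 * m * (1 / μ) = 2 * μ ^ 3 := by
    rw [← hμ]
    field_simp
  rw [hx₁, h4t, hsqβ, h2m] at hmm
  have h1 := num_drop hm1 hm2 (L4 := Λ₄) (by linarith) hΛpos (Real.sqrt_nonneg _)
    (num_x2 hμ0 ht' hΛlow)
  have h2 := num_sqrt ht' hμ0 hμ (L4 := Λ₄) hΛpos.le (by linarith)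
  apply num_final ht' hμ1 hμ
  linarith

/-- numerical form of the bound for one live input per block -/
theorem live_bound_num {V C D : Q → M2} (hV : IsPU V) (hC : IsPU C) (hD : IsPU D)
    {J Γ : Type} [DecidableEq J] [DecidableEq Γ]
    {h : J → Finset Q} (hh : ∀ j j', j ≠ j' → Disjoint (h j) (h j'))
    {g : Γ → Finset Q} (hg : ∀ γ γ', γ ≠ γ' → Disjoint (g γ) (g γ'))
    (K : Finset J) (G : Finset Γ) (S I : Finset Q)
    (hK : ∀ j ∈ K, (h j ∩ I).card ≤ 1) {t : ℕ} (ht : 1 ≤ t) (hI : 1 ≤ I.card)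
    (hIt : I.card ≤ 2 ^ t) {μ : ℝ} (hμ0 : 0 < μ) (hμ : μ ^ 4 = I.card) :
    |cc V C D h g S I K G| ≤ 65 * (t : ℝ) ^ 2 / μ :=
  live_num ht hμ0 hμ (by exact_mod_cast hI) (by exact_mod_cast hIt)
    (fun _ _ _ _ h1 h2 h3 h4 h5 => live_bound hV hC hD hh hg K G S I hK h1 h2 h3 h4 h5)

/-- the parity correlation of a product measurement after two layers of reflections -/
theorem nf_two_bound {M : MQ Q} (hM : NF 2 M) {Y : Q → M2} (hY : IsPP Y) {I₀ : Finset Q}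
    {ρ : Q → Bool → M2} (hρ : InOK I₀ ρ) {t : ℕ} (ht : 1 ≤ t) (hI : 1 ≤ I₀.card)
    (hIt : I₀.card ≤ 2 ^ t) :
    ‖(top Y * M * top (Gam I₀ ρ) * Mᴴ).trace‖ ≤
      65 * (t : ℝ) ^ 2 * (4 * (t : ℝ) / I₀.card) ^ ((1 : ℝ) / 4) +
        4 * (I₀.card * (1 / 4) ^ t) := by
  obtain ⟨n₁, n₂, h, g, C, D, U, S, hh, hg, hC, hD, hU, hform⟩ := nf_two_form hM hY
  set N₀ := dg (rf h Finset.univ) * rt C D (rf g Finset.univ) (dl S) * dg (rf h Finset.univ)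
    with hN₀
  have e1 : (top Y * M * top (Gam I₀ ρ) * Mᴴ).trace =
      (N₀ * top (Gam I₀ (fun q b => U q * ρ q b * (U q)ᴴ))).trace := by
    have eG : top (Gam I₀ (fun q b => U q * ρ q b * (U q)ᴴ)) =
        top U * top (Gam I₀ ρ) * (top U)ᴴ := by
      rw [top_conjTranspose, top_mul, top_mul]
      congr 1
      funext q
      exact gam_conj_unitary U q
    have s1 : (top Y * M * top (Gam I₀ ρ) * Mᴴ).trace =
        ((Mᴴ * top Y * M) * top (Gam I₀ ρ)).trace := by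
      rw [Matrix.trace_mul_comm]
      simp only [mul_assoc]
    rw [s1, hform, eG]
    rw [show (top U)ᴴ * N₀ * top U * top (Gam I₀ ρ) =
      (top U)ᴴ * (N₀ * top U * top (Gam I₀ ρ)) by simp only [mul_assoc], Matrix.trace_mul_comm]
    simp only [mul_assoc]
  rw [e1]
  obtain ⟨V, hV, hVG⟩ := exists_rhoV (inOK_conj hρ hU)
  rw [hVG, hN₀, cc_eq_trace, Complex.norm_real, Real.norm_eq_abs]
  -- drop the blocks with many inputs
  classical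
  set K₁ : Finset (Fin n₁) := Finset.univ.filter fun j => (h j ∩ I₀).card ≤ 4 * t with hK₁
  set K₂ : Finset (Fin n₁) := Finset.univ.filter fun j => ¬ (h j ∩ I₀).card ≤ 4 * t with hK₂
  have hKU : K₁ ∪ K₂ = Finset.univ := Finset.filter_union_filter_not_eq _ _
  have hKd : Disjoint K₁ K₂ := Finset.disjoint_filter_filter_not _ _ _
  have hdrop := cc_drop_blocks hV hC hD h g S I₀ Finset.univ K₁ K₂ hKd
  rw [hKU] at hdrop
  have hdrop' : |cc V C D h g S I₀ Finset.univ Finset.univ - cc V C D h g S I₀ K₁ Finset.univ| ≤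
      4 * (I₀.card * (1 / 4) ^ t) := by
    refine hdrop.trans ?_
    apply mul_le_mul_of_nonneg_left _ (by norm_num)
    calc _ ≤ ∑ j ∈ K₂, ((h j ∩ I₀).card : ℝ) * (1 / 4) ^ t := by
          apply Finset.sum_le_sum
          intro j hj
          rw [hK₂, Finset.mem_filter] at hj
          have hc : 4 * t < (h j ∩ I₀).card := by omega
          have h1 : Real.sqrt (Ex fun x => ‖act (dg (dl (h j))) (uv V (msk I₀ x))‖ ^ 2) ≤
              (1 / 4) ^ t := by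
            apply Real.sqrt_le_iff.mpr
            refine ⟨by positivity, (ex_block hV (h j) I₀).trans ?_⟩
            have h2 : ((1 / 4 : ℝ) ^ t) ^ 2 = (1 / 2) ^ (4 * t) := by
              rw [← pow_mul, mul_comm t 2, pow_mul, pow_mul]
              norm_num
            rw [h2]
            exact pow_le_pow_of_le_one (by norm_num) (by norm_num) hc.le
          have h3 : (1 : ℝ) ≤ (h j ∩ I₀).card := by
            exact_mod_cast (by omega : 1 ≤ (h j ∩ I₀).card)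
          have h4 : (0 : ℝ) ≤ (1 / 4) ^ t := by positivity
          nlinarith
      _ = (∑ j ∈ K₂, ((h j ∩ I₀).card : ℝ)) * (1 / 4) ^ t := by rw [Finset.sum_mul]
      _ ≤ I₀.card * (1 / 4) ^ t := by
          apply mul_le_mul_of_nonneg_right _ (by positivity)
          exact_mod_cast sum_card_inter_le hh I₀
  -- one live input per block
  obtain ⟨I, hII₀, hItr, hIc⟩ := exists_transversal hh K₁ I₀ (τ := 4 * t) (by omega)
    (fun j hj => (Finset.mem_filter.mp hj).2)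
  have hI1 : 1 ≤ I.card := by
    by_contra hcon
    have : I.card = 0 := by omega
    rw [this, zero_mul] at hIc
    omega
  have hI2 : I.card ≤ 2 ^ t := (Finset.card_le_card hII₀).trans hIt
  set μ : ℝ := (I.card : ℝ) ^ ((1 : ℝ) / 4) with hμ
  have hIpos : (0 : ℝ) < I.card := by exact_mod_cast hI1
  have hμ0 : 0 < μ := Real.rpow_pos_of_pos hIpos _
  have hμ4 : μ ^ 4 = I.card := by
    rw [hμ, ← Real.rpow_natCast, ← Real.rpow_mul hIpos.le]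
    norm_num
  have hlive : |cc V C D h g S I₀ K₁ Finset.univ| ≤ 65 * (t : ℝ) ^ 2 / μ := by
    set N₁ := dg (rf h K₁) * rt C D (rf g Finset.univ) (dl S) * dg (rf h K₁) with hN₁
    have hfix := fix_inputs N₁ (ε := 65 * (t : ℝ) ^ 2 / μ) I (I₀ \ I) Finset.disjoint_sdiff
      (by
        intro ρ' hρ'
        obtain ⟨V', hV', hVG'⟩ := exists_rhoV hρ'
        rw [hVG', hN₁, cc_eq_trace, Complex.norm_real, Real.norm_eq_abs]
        exact live_bound_num hV' hC hD hh hg K₁ Finset.univ S I hItr ht hI1 hI2 hμ0 hμ4)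
      (rhoV V) ⟨fun q b => isRP_rhoV hV q b, fun q _ => rhoV_add hV q⟩
    rw [Finset.union_sdiff_of_subset hII₀, hN₁, cc_eq_trace, Complex.norm_real,
      Real.norm_eq_abs] at hfix
    exact hfix
  have hμinv : 1 / μ ≤ (4 * (t : ℝ) / I₀.card) ^ ((1 : ℝ) / 4) := by
    have h1 : 1 / μ = (1 / (I.card : ℝ)) ^ ((1 : ℝ) / 4) := by
      rw [hμ, Real.div_rpow zero_le_one hIpos.le, Real.one_rpow]
    rw [h1]
    apply Real.rpow_le_rpow (by positivity) _ (by norm_num)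
    have hI0 : (0 : ℝ) < I₀.card := by exact_mod_cast hI
    rw [div_le_div_iff₀ hIpos hI0]
    have : (I₀.card : ℝ) ≤ I.card * (4 * t) := by exact_mod_cast hIc
    linarith
  have hfin : |cc V C D h g S I₀ Finset.univ Finset.univ| ≤
      |cc V C D h g S I₀ K₁ Finset.univ| + 4 * (I₀.card * (1 / 4) ^ t) := by
    have := abs_sub_abs_le_abs_sub (cc V C D h g S I₀ Finset.univ Finset.univ)
      (cc V C D h g S I₀ K₁ Finset.univ)
    linarith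
  have h65 : 65 * (t : ℝ) ^ 2 / μ ≤
      65 * (t : ℝ) ^ 2 * (4 * (t : ℝ) / I₀.card) ^ ((1 : ℝ) / 4) := by
    rw [div_eq_mul_one_div]
    exact mul_le_mul_of_nonneg_left hμinv (by positivity)
  linarith

end Vale.Agent.P368
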