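import Vale.Agent.Lib.P368.DepthThree

open Matrix Finset
open scoped ComplexOrder

set_option linter.unusedSectionVars false

namespace Vale.Agent.P368

lemma NF.isom {Q : Type} [Fintype Q] [DecidableEq Q] {d : ℕ} {M : MQ Q} (h : NF d M) :
    Mᴴ * M = 1 := by
  induction h with
  | zero U hU => exact hU.top_left
  | succ d M U κ L hM hU hκ hL ih =>
    rw [Matrix.conjTranspose_mul, Matrix.conjTranspose_mul]
    rw [show Mᴴ * ((reflProd κ L)ᴴ * (top U)ᴴ) * (top U * reflProd κ L * M) =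
      Mᴴ * ((reflProd κ L)ᴴ * ((top U)ᴴ * top U) * reflProd κ L) * M by simp only [mul_assoc],
      hU.top_left, mul_one, reflProd_unitary hκ, mul_one, ih]

variable {N : ℕ}

lemma prob_add {n : ℕ} (C : Circuit N) (out : Fin N) (x : Fin n → Bool) :
    C.prob out x false + C.prob out x true = 1 := by
  unfold Circuit.prob
  have h1 : ∑ y : Bits N, ‖C.mat y (pad x)‖ ^ 2 = 1 := by
    have h := (circuit_nf C).isom
    have h2 := congrFun (congrFun h (pad x)) (pad x)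
    simp only [Matrix.mul_apply, Matrix.conjTranspose_apply, RCLike.star_def,
      Complex.conj_mul', Matrix.one_apply_eq] at h2
    exact_mod_cast h2
  rw [← h1, ← Finset.sum_filter_add_sum_filter_not Finset.univ (fun y : Bits N => y out = false)]
  congr 1
  apply Finset.sum_congr _ (fun _ _ => rfl)
  apply Finset.filter_congr
  intro y _
  cases y out <;> simp

/-- a worst-case advantage gives correlation -/
lemma advantage_le {n : ℕ} (C : Circuit N) (out : Fin N) {ε : ℝ}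
    (hε : ∀ x : Fin n → Bool, 1 / 2 + ε ≤ C.prob out x (parity x)) :
    2 * ε ≤ C.parityCorrelation n out := by
  unfold Circuit.parityCorrelation
  have h1 : ∀ x : Fin n → Bool, 2 * ε ≤ C.prob out x (parity x) - C.prob out x (!parity x) := by
    intro x
    have h2 := prob_add C out x
    have h3 := hε x
    cases h4 : parity x <;> rw [h4] at h3 <;> simp <;> linarith
  have h5 : ∑ _x : Fin n → Bool, 2 * ε ≤
      ∑ x : Fin n → Bool, (C.prob out x (parity x) - C.prob out x (!parity x)) :=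
    Finset.sum_le_sum fun x _ => h1 x
  rw [Finset.sum_const, Finset.card_univ, Fintype.card_fun, Fintype.card_bool, Fintype.card_fin,
    nsmul_eq_mul] at h5
  have h6 : (0 : ℝ) < 2 ^ n := by positivity
  rw [one_div, ← div_eq_inv_mul, le_div_iff₀ h6]
  push_cast at h5
  linarith

theorem depth_three_bound {n : ℕ} (hn1 : 1 ≤ n) (hn : n ≤ N) (C : Circuit N) (out : Fin N)
    (hd : C.entanglingDepth ≤ 3) :
    |C.parityCorrelation n out| ≤
      600 * ((Nat.log 2 n : ℝ) + 1) ^ ((9 : ℝ) / 4) / (n : ℝ) ^ ((1 : ℝ) / 4) := by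
  obtain ⟨t, ht⟩ : ∃ t : ℕ, t = Nat.log 2 n + 1 := ⟨_, rfl⟩
  have ht1 : 1 ≤ t := by omega
  have hnt : n < 2 ^ t := by rw [ht]; exact Nat.lt_pow_succ_log_self (by norm_num) n
  have hM : NF 3 C.mat := (circuit_nf C).mono hd
  have hred := reduce_obs hM (top (Gam (inputs n N) stdρ))
    (ε := 65 * (t : ℝ) ^ 2 * (4 * (t : ℝ) / n) ^ ((1 : ℝ) / 4) + 4 * (n * (1 / 4) ^ t))
    (fun M' Y hM' hY => by
      have := nf_two_bound hM' hY (inOK_std n N) ht1 (by rw [card_inputs hn]; exact hn1)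
        (by rw [card_inputs hn]; exact hnt.le)
      rwa [card_inputs hn] at this) isObs_z out
  rw [← corr_eq_trace hn C out, Complex.norm_real, Real.norm_eq_abs] at hred
  refine hred.trans ?_
  have hn' : (1 : ℝ) ≤ n := by exact_mod_cast hn1
  have hn0 : (0 : ℝ) < n := by linarith
  have ht' : (1 : ℝ) ≤ t := by exact_mod_cast ht1
  have ht0 : (0 : ℝ) < t := by linarith
  have hcast : ((Nat.log 2 n : ℝ) + 1) = t := by rw [ht]; push_cast; rfl
  rw [hcast]
  -- the main term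
  have e1 : (4 * (t : ℝ) / n) ^ ((1 : ℝ) / 4) =
      (4 : ℝ) ^ ((1 : ℝ) / 4) * ((t : ℝ) ^ ((1 : ℝ) / 4) / (n : ℝ) ^ ((1 : ℝ) / 4)) := by
    rw [Real.div_rpow (by positivity) hn0.le, Real.mul_rpow (by norm_num) ht0.le]
    ring
  have e2 : (t : ℝ) ^ ((9 : ℝ) / 4) = (t : ℝ) ^ 2 * (t : ℝ) ^ ((1 : ℝ) / 4) := by
    rw [← Real.rpow_natCast, ← Real.rpow_add ht0]
    norm_num
  have e3 : (4 : ℝ) ^ ((1 : ℝ) / 4) ≤ 71 / 50 := by
    have h4 : ((4 : ℝ) ^ ((1 : ℝ) / 4)) ^ 4 = 4 := by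
      rw [← Real.rpow_natCast, ← Real.rpow_mul (by norm_num)]
      norm_num
    by_contra hcon
    push Not at hcon
    have h5 : (71 / 50 : ℝ) ^ 4 < ((4 : ℝ) ^ ((1 : ℝ) / 4)) ^ 4 :=
      pow_lt_pow_left₀ hcon (by norm_num) (by norm_num)
    rw [h4] at h5
    norm_num at h5
  obtain ⟨A, hA⟩ : ∃ A : ℝ, A = (t : ℝ) ^ 2 * (t : ℝ) ^ ((1 : ℝ) / 4) / (n : ℝ) ^ ((1 : ℝ) / 4) :=
    ⟨_, rfl⟩
  have hA0 : 0 ≤ A := by rw [hA]; positivity
  have e4 : 65 * (t : ℝ) ^ 2 * (4 * (t : ℝ) / n) ^ ((1 : ℝ) / 4) ≤ 65 * (71 / 50) * A := by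
    have : 65 * (t : ℝ) ^ 2 * (4 * (t : ℝ) / n) ^ ((1 : ℝ) / 4) =
        65 * (4 : ℝ) ^ ((1 : ℝ) / 4) * A := by
      rw [e1, hA]; ring
    rw [this]
    apply mul_le_mul_of_nonneg_right _ hA0
    linarith
  -- the small term
  have e5 : (n : ℝ) * (1 / 4) ^ t ≤ A := by
    have h1 : (n : ℝ) ≤ 2 ^ t := by exact_mod_cast hnt.le
    have h2 : (n : ℝ) * n * (1 / 4) ^ t ≤ 1 := by
      calc (n : ℝ) * n * (1 / 4) ^ t ≤ (2 ^ t * 2 ^ t) * (1 / 4) ^ t := by
            apply mul_le_mul_of_nonneg_right _ (by positivity)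
            exact mul_le_mul h1 h1 hn0.le (by positivity)
        _ = 1 := by rw [← mul_pow, ← mul_pow]; norm_num
    have h3 : (n : ℝ) * (1 / 4) ^ t ≤ 1 / n := by
      rw [le_div_iff₀ hn0]
      linarith
    have h4 : (1 : ℝ) / n ≤ 1 / (n : ℝ) ^ ((1 : ℝ) / 4) := by
      apply one_div_le_one_div_of_le (by positivity)
      calc (n : ℝ) ^ ((1 : ℝ) / 4) ≤ (n : ℝ) ^ (1 : ℝ) :=
            Real.rpow_le_rpow_of_exponent_le hn' (by norm_num)
        _ = n := Real.rpow_one _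
    have h5 : 1 / (n : ℝ) ^ ((1 : ℝ) / 4) ≤ A := by
      rw [hA]
      apply div_le_div_of_nonneg_right _ (by positivity)
      have h6 : 1 ≤ (t : ℝ) ^ 2 := one_le_pow₀ ht'
      have h7 : 1 ≤ (t : ℝ) ^ ((1 : ℝ) / 4) := Real.one_le_rpow ht' (by norm_num)
      nlinarith
    linarith
  have e6 : 600 * (t : ℝ) ^ ((9 : ℝ) / 4) / (n : ℝ) ^ ((1 : ℝ) / 4) = 600 * A := by
    rw [e2, hA]
    ring
  rw [e6]
  linarith

/-- no worst-case advantage at entangling depth three -/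
theorem depth_three_advantage {n : ℕ} (hn1 : 1 ≤ n) (hn : n ≤ N) (C : Circuit N) (out : Fin N)
    (hd : C.entanglingDepth ≤ 3) {ε : ℝ}
    (hε : ∀ x : Fin n → Bool, 1 / 2 + ε ≤ C.prob out x (parity x)) :
    ε ≤ 300 * ((Nat.log 2 n : ℝ) + 1) ^ ((9 : ℝ) / 4) / (n : ℝ) ^ ((1 : ℝ) / 4) := by
  have h1 := advantage_le C out hε
  have h2 := depth_three_bound hn1 hn C out hd
  have h3 := le_abs_self (C.parityCorrelation n out)
  have h4 : 300 * ((Nat.log 2 n : ℝ) + 1) ^ ((9 : ℝ) / 4) / (n : ℝ) ^ ((1 : ℝ) / 4) =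
      (1 / 2) * (600 * ((Nat.log 2 n : ℝ) + 1) ^ ((9 : ℝ) / 4) / (n : ℝ) ^ ((1 : ℝ) / 4)) := by
    ring
  rw [h4]
  linarith

end Vale.Agent.P368
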