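import Vale.Agent.Lib.P368.Corr

open Matrix Finset
open scoped ComplexOrder

set_option linter.unusedSectionVars false

namespace Vale.Agent.P368

variable {Q : Type} [Fintype Q] [DecidableEq Q]

lemma inOK_conj {I : Finset Q} {ρ : Q → Bool → M2} (h : InOK I ρ) {V : Q → M2} (hV : IsPU V) :
    InOK I (fun q b => V q * ρ q b * (V q)ᴴ) := by
  constructor
  · intro q b
    have := (h.1 q b).conj_unitary (hV.star q)
    simpa using this
  · intro q hq
    rw [← add_mul, ← mul_add, h.2 q hq, mul_one, (hV q).2]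

lemma gam_conj_unitary {I : Finset Q} {ρ : Q → Bool → M2} (V : Q → M2) (q : Q) :
    Gam I (fun q b => V q * ρ q b * (V q)ᴴ) q = V q * Gam I ρ q * (V q)ᴴ := by
  unfold Gam
  split_ifs
  · rw [mul_smul_comm, smul_mul_assoc, mul_sub, sub_mul]
  · rfl

lemma isPP_conj {Y : Q → M2} (hY : IsPP Y) {U : Q → M2} (hU : IsPU U) :
    IsPP (fun q => (U q)ᴴ * Y q * U q) := fun q => (hY q).conj_unitary (hU q)

lemma top_conj_top {U : Q → M2} (Y : Q → M2) :
    (top U)ᴴ * top Y * top U = top (fun q => (U q)ᴴ * Y q * U q) := by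
  rw [top_conjTranspose, top_mul, top_mul]

theorem nf_one_bound {r : ℝ} (hr0 : 0 ≤ r) (hr4 : r ^ 4 = 1 / 2)
    {I : Finset Q} {ρ : Q → Bool → M2} (h : InOK I ρ) (M : MQ Q) (Y : Q → M2) (hM : NF 1 M)
    (hY : IsPP Y) : ‖(top Y * M * top (Gam I ρ) * Mᴴ).trace‖ ≤ r ^ I.card := by
  cases hM with
  | succ _ M' U κ L hM' hU hκ hL =>
    cases hM' with
    | zero V hV =>
      have e : (top Y * (top U * reflProd κ L * top V) * top (Gam I ρ) *
          (top U * reflProd κ L * top V)ᴴ).trace =
          (top (fun q => (U q)ᴴ * Y q * U q) * reflProd κ L *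
            top (Gam I (fun q b => V q * ρ q b * (V q)ᴴ)) * (reflProd κ L)ᴴ).trace := by
        rw [← top_conj_top]
        have g : top (Gam I (fun q b => V q * ρ q b * (V q)ᴴ)) =
            top V * top (Gam I ρ) * (top V)ᴴ := by
          rw [top_conjTranspose, top_mul, top_mul]
          congr 1
          funext q
          exact gam_conj_unitary V q
        rw [g, Matrix.conjTranspose_mul, Matrix.conjTranspose_mul]
        rw [show top Y * (top U * reflProd κ L * top V) * top (Gam I ρ) *
          ((top V)ᴴ * ((reflProd κ L)ᴴ * (top U)ᴴ)) =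
          (top Y * (top U * reflProd κ L * top V) * top (Gam I ρ) *
          ((top V)ᴴ * (reflProd κ L)ᴴ)) * (top U)ᴴ by simp only [mul_assoc],
          Matrix.trace_mul_comm]
        congr 1
        simp only [mul_assoc]
      rw [e]
      exact depth_one_bound hr0 hr4 (inOK_conj h hV) hκ (isPP_conj hY hU) L hL

theorem depth_two_bound {N n : ℕ} (hn : n ≤ N) (C : Circuit N) (out : Fin N)
    (hd : C.entanglingDepth ≤ 2) :
    |C.parityCorrelation n out| ≤ 6 * (2 : ℝ) ^ (-(n : ℝ) / 4) := by
  set r : ℝ := (2 : ℝ) ^ (-(1 : ℝ) / 4) with hr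
  have hr0 : 0 ≤ r := by positivity
  have hr4 : r ^ 4 = 1 / 2 := by
    rw [hr, ← Real.rpow_natCast, ← Real.rpow_mul (by norm_num)]
    norm_num
  have hrn : r ^ n = (2 : ℝ) ^ (-(n : ℝ) / 4) := by
    rw [hr, ← Real.rpow_natCast, ← Real.rpow_mul (by norm_num)]
    congr 1
    ring
  have hM : NF 2 C.mat := (circuit_nf C).mono hd
  have := reduce_obs hM (top (Gam (inputs n N) stdρ)) (ε := r ^ n)
    (fun M' Y hM' hY => by
      have := nf_one_bound hr0 hr4 (inOK_std n N) M' Y hM' hY
      rwa [card_inputs hn] at this) isObs_z out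
  rw [← corr_eq_trace hn C out, Complex.norm_real, Real.norm_eq_abs, hrn] at this
  exact this

end Vale.Agent.P368
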