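import Vale.Agent.Lib.P368.CoreD

open Matrix Finset
open scoped ComplexOrder

set_option linter.unusedSectionVars false

namespace Vale.Agent.P368

variable {Q : Type} [Fintype Q] [DecidableEq Q]

lemma norm_act_cj_isom {C : Q → M2} (hC : IsPU C) {s : (Q → Bool) → ℝ}
    (hs : ∀ ω, s ω * s ω = 1) (v : EQ Q) : ‖act (cj C s) v‖ = ‖v‖ :=
  norm_act_isom (cj_isom hC hs) v

/-- dropping reflections from a layer -/
lemma drop_norm {C : Q → M2} (hC : IsPU C) {Γ : Type} [DecidableEq Γ] (g : Γ → Finset Q)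
    (G₁ D : Finset Γ) (hD : Disjoint G₁ D) (v : EQ Q) :
    ‖act (cj C (rf g (G₁ ∪ D))) v - act (cj C (rf g G₁)) v‖ ≤
      2 * ∑ γ ∈ D, ‖act (cj C (dl (g γ))) v‖ := by
  induction D using Finset.induction_on with
  | empty => simp
  | insert γ D hγ ih =>
    rw [Finset.disjoint_insert_right] at hD
    have ih' := ih hD.2
    rw [Finset.sum_insert hγ, Finset.union_insert]
    have hγ' : γ ∉ G₁ ∪ D := by
      rw [Finset.mem_union]
      push Not
      exact ⟨hD.1, hγ⟩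
    have e1 : act (cj C (rf g (insert γ (G₁ ∪ D)))) v - act (cj C (rf g (G₁ ∪ D))) v =
        act (cj C (rf g (G₁ ∪ D))) ((-2 : ℂ) • act (cj C (dl (g γ))) v) := by
      rw [act_vsmul, ← act_mul, cj_mul hC, ← act_sub, ← cj_sub, ← act_smul]
      congr 1
      have := cj_smul C (-2) (fun ω => rf g (G₁ ∪ D) ω * dl (g γ) ω)
      rw [show ((-2 : ℂ)) = (((-2 : ℝ)) : ℂ) by push_cast; rfl, ← this]
      congr 1
      funext ω
      unfold rf
      rw [Finset.prod_insert hγ']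
      ring
    have e2 : act (cj C (rf g (insert γ (G₁ ∪ D)))) v - act (cj C (rf g G₁)) v =
        act (cj C (rf g (G₁ ∪ D))) ((-2 : ℂ) • act (cj C (dl (g γ))) v) +
        (act (cj C (rf g (G₁ ∪ D))) v - act (cj C (rf g G₁)) v) := by
      rw [← e1]; abel
    rw [e2]
    refine (norm_add_le _ _).trans ?_
    rw [norm_act_cj_isom hC (rf_sq g _), norm_smul]
    have : ‖(-2 : ℂ)‖ = 2 := by simp
    rw [this]
    linarith

lemma cj_one_eq (f : (Q → Bool) → ℝ) : cj (fun _ : Q => (1 : M2)) f = dg f := by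
  unfold cj
  rw [top_one]
  simp

lemma Ex_norm_le (f : (Q → Bool) → ℝ) : Ex f ≤ Real.sqrt (Ex fun x => f x ^ 2) :=
  Ex_le_sqrt

section

variable {V C D : Q → M2} (hV : IsPU V) (hC : IsPU C) (hD : IsPU D)
  {J Γ : Type} [DecidableEq J] [DecidableEq Γ]
  (h : J → Finset Q) (g : Γ → Finset Q) (S I : Finset Q)

/-- the signed average -/
noncomputable def cc (V C D : Q → M2) (h : J → Finset Q) (g : Γ → Finset Q) (S I : Finset Q)
    (K : Finset J) (G : Finset Γ) : ℝ :=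
  Ex fun x => sgn I x * ev (rt C D (rf g G) (dl S)) (act (dg (rf h K)) (uv V (msk I x)))

lemma ev_rt_eq_norm (s : (Q → Bool) → ℝ) (hD : IsPU D) (v : EQ Q) :
    ev (rt C D s (dl S)) v = ‖act (cj D (dl S)) (act (cj C s) v)‖ ^ 2 := by
  rw [norm_act_cj hD]
  unfold rt
  rw [ev_RTR]
  unfold hatv
  congr 1
  funext ω
  rw [dl_sq]

lemma norm_act_cj_dl_le (hD : IsPU D) (A : Finset Q) (v : EQ Q) :
    ‖act (cj D (dl A)) v‖ ≤ ‖v‖ := by
  have : ‖act (cj D (dl A)) v‖ ^ 2 ≤ ‖v‖ ^ 2 := by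
    rw [norm_act_cj hD]
    refine (qf_le_const (c := 1) (fun ω => ?_) _).trans ?_
    · rw [dl_sq]; exact dl_le_one A ω
    · rw [one_mul, norm_act_isom (by rw [Matrix.conjTranspose_conjTranspose]; exact hD.top_right)]
  exact (sq_le_sq₀ (norm_nonneg _) (norm_nonneg _)).mp this

include hV hC hD in
/-- dropping gates of the second layer -/
lemma cc_drop_gates (K : Finset J) (G₁ G₂ : Finset Γ) (hdis : Disjoint G₁ G₂) :
    |cc V C D h g S I K (G₁ ∪ G₂) - cc V C D h g S I K G₁| ≤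
      4 * ∑ γ ∈ G₂, Real.sqrt (Ex fun x =>
        ‖act (cj C (dl (g γ))) (act (dg (rf h K)) (uv V (msk I x)))‖ ^ 2) := by
  unfold cc
  rw [← Ex_sub]
  refine (abs_Ex_le _).trans ?_
  have step : ∀ x, |sgn I x * ev (rt C D (rf g (G₁ ∪ G₂)) (dl S))
      (act (dg (rf h K)) (uv V (msk I x))) - sgn I x * ev (rt C D (rf g G₁) (dl S))
      (act (dg (rf h K)) (uv V (msk I x)))| ≤
      4 * ∑ γ ∈ G₂, ‖act (cj C (dl (g γ))) (act (dg (rf h K)) (uv V (msk I x)))‖ := by
    intro x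
    set ψ := act (dg (rf h K)) (uv V (msk I x)) with hψ
    have hn : ‖ψ‖ = 1 := by rw [hψ, norm_dg_isom (rf_sq h K), norm_uv hV]
    rw [← mul_sub, abs_mul, abs_sgn, one_mul, ev_rt_eq_norm S _ hD, ev_rt_eq_norm S _ hD]
    refine (abs_norm_sq_sub_le ?_ ?_).trans ?_
    · refine (norm_act_cj_dl_le hD _ _).trans ?_
      rw [norm_act_cj_isom hC (rf_sq g _), hn]
    · refine (norm_act_cj_dl_le hD _ _).trans ?_
      rw [norm_act_cj_isom hC (rf_sq g _), hn]
    · rw [← act_vsub]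
      have h1 := norm_act_cj_dl_le hD S (act (cj C (rf g (G₁ ∪ G₂))) ψ - act (cj C (rf g G₁)) ψ)
      have h2 := drop_norm hC g G₁ G₂ hdis ψ
      linarith
  refine (Ex_mono step).trans ?_
  rw [Ex_const_mul, Ex_sum]
  apply mul_le_mul_of_nonneg_left _ (by norm_num)
  apply Finset.sum_le_sum
  intro γ _
  exact Ex_norm_le _

include hV hC hD in
/-- dropping blocks of the first layer -/
lemma cc_drop_blocks (G : Finset Γ) (K₁ K₂ : Finset J) (hdis : Disjoint K₁ K₂) :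
    |cc V C D h g S I (K₁ ∪ K₂) G - cc V C D h g S I K₁ G| ≤
      4 * ∑ j ∈ K₂, Real.sqrt (Ex fun x => ‖act (dg (dl (h j))) (uv V (msk I x))‖ ^ 2) := by
  unfold cc
  rw [← Ex_sub]
  refine (abs_Ex_le _).trans ?_
  have step : ∀ x, |sgn I x * ev (rt C D (rf g G) (dl S))
      (act (dg (rf h (K₁ ∪ K₂))) (uv V (msk I x))) - sgn I x * ev (rt C D (rf g G) (dl S))
      (act (dg (rf h K₁)) (uv V (msk I x)))| ≤
      4 * ∑ j ∈ K₂, ‖act (dg (dl (h j))) (uv V (msk I x))‖ := by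
    intro x
    set u := uv V (msk I x) with hu
    have hn : ‖u‖ = 1 := by rw [hu, norm_uv hV]
    rw [← mul_sub, abs_mul, abs_sgn, one_mul, ev_rt_eq_norm S _ hD, ev_rt_eq_norm S _ hD]
    refine (abs_norm_sq_sub_le ?_ ?_).trans ?_
    · refine (norm_act_cj_dl_le hD _ _).trans ?_
      rw [norm_act_cj_isom hC (rf_sq g _), norm_dg_isom (rf_sq h _), hn]
    · refine (norm_act_cj_dl_le hD _ _).trans ?_
      rw [norm_act_cj_isom hC (rf_sq g _), norm_dg_isom (rf_sq h _), hn]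
    · rw [← act_vsub, ← act_vsub]
      have h1 := norm_act_cj_dl_le hD S (act (cj C (rf g G))
        (act (dg (rf h (K₁ ∪ K₂))) u - act (dg (rf h K₁)) u))
      rw [norm_act_cj_isom hC (rf_sq g _)] at h1
      have h2 := drop_norm (isPU_one (Q := Q)) h K₁ K₂ hdis u
      simp only [cj_one_eq] at h2
      linarith
  refine (Ex_mono step).trans ?_
  rw [Ex_const_mul, Ex_sum]
  apply mul_le_mul_of_nonneg_left _ (by norm_num)
  apply Finset.sum_le_sum
  intro γ _
  exact Ex_norm_le _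

end

end Vale.Agent.P368
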