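import Vale.Agent.Lib.P368.GateE
import Vale.Agent.Lib.P368.DepthTwo

open Matrix Finset
open scoped ComplexOrder

set_option linter.unusedSectionVars false

namespace Vale.Agent.P368

variable {Q : Type} [Fintype Q] [DecidableEq Q]

/-- fixing some of the inputs -/
lemma fix_inputs (N : MQ Q) {ε : ℝ} (I T : Finset Q) (hT : Disjoint I T)
    (hε : ∀ ρ : Q → Bool → M2, InOK I ρ → ‖(N * top (Gam I ρ)).trace‖ ≤ ε)
    (ρ : Q → Bool → M2) (hρ : InOK (I ∪ T) ρ) : ‖(N * top (Gam (I ∪ T) ρ)).trace‖ ≤ ε := by
  induction T using Finset.induction_on generalizing ρ with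
  | empty => simpa using hε ρ (by simpa using hρ)
  | insert q T hq ih =>
    rw [Finset.disjoint_insert_right] at hT
    have hqI : q ∉ I ∪ T := by
      rw [Finset.mem_union]
      push Not
      exact ⟨hT.1, hq⟩
    set ρ' : Bool → Q → Bool → M2 := fun b => Function.update ρ q (fun _ => ρ q b) with hρ'
    have hok : ∀ b, InOK (I ∪ T) (ρ' b) := by
      intro b
      constructor
      · intro r c
        simp only [hρ']
        by_cases hr : r = q
        · subst hr
          rw [Function.update_self]
          exact hρ.1 r b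
        · rw [Function.update_of_ne hr]
          exact hρ.1 r c
      · intro r hr
        have hrq : r ≠ q := fun h => hqI (h ▸ hr)
        simp only [hρ']
        rw [Function.update_of_ne hrq]
        apply hρ.2
        rw [Finset.union_insert]
        exact Finset.mem_insert_of_mem hr
    have b1 := ih hT.2 (ρ' false) (hok false)
    have b2 := ih hT.2 (ρ' true) (hok true)
    have eG : ∀ b, top (Gam (I ∪ T) (ρ' b)) =
        top (Function.update (Gam (I ∪ T) ρ) q (ρ q b)) := by
      intro b
      congr 1
      funext r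
      by_cases hr : r = q
      · subst hr
        rw [Function.update_self]
        unfold Gam
        rw [if_neg hqI]
        simp [hρ']
      · rw [Function.update_of_ne hr]
        unfold Gam
        simp only [hρ']
        rw [Function.update_of_ne hr]
    have e : top (Gam (I ∪ insert q T) ρ) = (1 / 2 : ℂ) •
        (top (Gam (I ∪ T) (ρ' false)) - top (Gam (I ∪ T) (ρ' true))) := by
      rw [eG, eG, ← top_update_sub, ← top_update_smul]
      congr 1
      funext r
      by_cases hr : r = q
      · subst hr
        rw [Function.update_self]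
        unfold Gam
        rw [if_pos (by rw [Finset.union_insert]; exact Finset.mem_insert_self r _)]
      · rw [Function.update_of_ne hr]
        unfold Gam
        have : (r ∈ I ∪ insert q T) ↔ (r ∈ I ∪ T) := by
          rw [Finset.union_insert, Finset.mem_insert]
          simp [hr]
        by_cases h1 : r ∈ I ∪ T
        · rw [if_pos h1, if_pos (this.mpr h1)]
        · rw [if_neg h1, if_neg (fun h2 => h1 (this.mp h2))]
    rw [e, mul_smul_comm, Matrix.trace_smul, mul_sub, Matrix.trace_sub, norm_smul]
    have h2 : ‖(1 / 2 : ℂ)‖ = 1 / 2 := by simp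
    rw [h2]
    have h3 := norm_sub_le (N * top (Gam (I ∪ T) (ρ' false))).trace
      (N * top (Gam (I ∪ T) (ρ' true))).trace
    linarith

/-- choosing one input in every block -/
lemma exists_transversal {J : Type} [DecidableEq J] {h : J → Finset Q}
    (hh : ∀ j j', j ≠ j' → Disjoint (h j) (h j')) (K : Finset J) (I₀ : Finset Q) {τ : ℕ}
    (hτ : 1 ≤ τ) (hK : ∀ j ∈ K, (h j ∩ I₀).card ≤ τ) :
    ∃ I ⊆ I₀, (∀ j ∈ K, (h j ∩ I).card ≤ 1) ∧ I₀.card ≤ I.card * τ := by
  classical
  set P : Finset (Finset Q) := I₀.powerset.filter fun I => ∀ j ∈ K, (h j ∩ I).card ≤ 1 with hP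
  have hne : P.Nonempty := ⟨∅, by
    rw [hP, Finset.mem_filter]
    exact ⟨Finset.empty_mem_powerset _, fun j _ => by simp⟩⟩
  obtain ⟨I, hI, hmax⟩ := Finset.exists_max_image P Finset.card hne
  rw [hP, Finset.mem_filter, Finset.mem_powerset] at hI
  refine ⟨I, hI.1, hI.2, ?_⟩
  have hcover : I₀ ⊆ I.biUnion (fun i => I₀.filter (fun q => q = i ∨ ∃ j ∈ K, i ∈ h j ∧ q ∈ h j)) := by
    intro q hq
    rw [Finset.mem_biUnion]
    by_cases hqI : q ∈ I
    · exact ⟨q, hqI, Finset.mem_filter.mpr ⟨hq, Or.inl rfl⟩⟩
    · have hnot : insert q I ∉ P := by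
        intro hin
        have := hmax _ hin
        rw [Finset.card_insert_of_notMem hqI] at this
        omega
      rw [hP, Finset.mem_filter, Finset.mem_powerset] at hnot
      have hsub : insert q I ⊆ I₀ := by
        intro r hr
        rcases Finset.mem_insert.mp hr with rfl | h1
        · exact hq
        · exact hI.1 h1
      have : ∃ j ∈ K, 1 < (h j ∩ insert q I).card := by
        by_contra hcon
        push Not at hcon
        exact hnot ⟨hsub, hcon⟩
      obtain ⟨j, hj, hcard⟩ := this
      have hqj : q ∈ h j := by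
        by_contra hqj
        rw [Finset.inter_insert_of_notMem hqj] at hcard
        have := hI.2 j hj
        omega
      have hnon : (h j ∩ I).Nonempty := by
        by_contra hcon
        rw [Finset.not_nonempty_iff_eq_empty] at hcon
        rw [Finset.inter_insert_of_mem hqj, hcon] at hcard
        simp at hcard
      obtain ⟨i, hi⟩ := hnon
      rw [Finset.mem_inter] at hi
      exact ⟨i, hi.2, Finset.mem_filter.mpr ⟨hq, Or.inr ⟨j, hj, hi.1, hqj⟩⟩⟩
  refine (Finset.card_le_card hcover).trans (Finset.card_biUnion_le_card_mul _ _ _ ?_)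
  intro i hi
  by_cases hex : ∃ j ∈ K, i ∈ h j
  · obtain ⟨j, hj, hij⟩ := hex
    refine (Finset.card_le_card ?_).trans (hK j hj)
    intro q hq
    rw [Finset.mem_filter] at hq
    rw [Finset.mem_inter]
    refine ⟨?_, hq.1⟩
    rcases hq.2 with rfl | ⟨j', _, hij', hqj'⟩
    · exact hij
    · have : j' = j := by
        by_contra hne'
        exact Finset.disjoint_left.mp (hh j' j hne') hij' hij
      rw [← this]
      exact hqj'
  · push Not at hex
    refine le_trans ?_ hτ
    rw [Finset.card_le_one]
    intro a ha b hb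
    rw [Finset.mem_filter] at ha hb
    have key : ∀ c, (c = i ∨ ∃ j ∈ K, i ∈ h j ∧ c ∈ h j) → c = i := by
      intro c hc
      rcases hc with h1 | ⟨j, hj, hij, _⟩
      · exact h1
      · exact absurd hij (hex j hj)
    rw [key a ha.2, key b hb.2]

/-- the signed average as a trace -/
lemma cc_eq_trace {V C D : Q → M2} {J Γ : Type} (h : J → Finset Q) (g : Γ → Finset Q)
    (S I : Finset Q) (K : Finset J) (G : Finset Γ) :
    ((dg (rf h K) * rt C D (rf g G) (dl S) * dg (rf h K)) * top (Gam I (rhoV V))).trace =
      ((cc V C D h g S I K G : ℝ) : ℂ) := by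
  have hNc : (dg (rf h K) * rt C D (rf g G) (dl S) * dg (rf h K))ᴴ =
      dg (rf h K) * rt C D (rf g G) (dl S) * dg (rf h K) := by
    rw [Matrix.conjTranspose_mul, Matrix.conjTranspose_mul, dg_conj, rt_conj, mul_assoc]
  have e : ∀ u : EQ Q, ev (dg (rf h K) * rt C D (rf g G) (dl S) * dg (rf h K)) u =
      ev (rt C D (rf g G) (dl S)) (act (dg (rf h K)) u) := by
    intro u
    have := ev_conj_mul (rt C D (rf g G) (dl S)) (dg (rf h K)) u
    rwa [dg_conj] at this
  rw [trace_gam V I hNc]
  unfold cc
  simp only [e]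

/-- the product measurement in diagonal form -/
lemma isPP_eq_cj {Y : Q → M2} (hY : IsPP Y) :
    ∃ (D : Q → M2) (S : Finset Q), IsPU D ∧ top Y = cj D (dl S) := by
  classical
  have key : ∀ q, ∃ D : M2, (Dᴴ * D = 1 ∧ D * Dᴴ = 1) ∧
      (Y q ≠ 1 → Y q = D * basisP false * Dᴴ) := by
    intro q
    rcases hY q with h1 | h1
    · exact ⟨1, by simp, fun h => absurd h1 h⟩
    · obtain ⟨U, hU, hP⟩ := h1.exists_unitary
      exact ⟨U, hU, fun _ => hP⟩
  choose D hD hDY using key
  refine ⟨D, Finset.univ.filter (fun q => Y q ≠ 1), hD, ?_⟩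
  rw [cj_dl_eq D hD]
  unfold topOn
  congr 1
  funext q
  by_cases hq : Y q = 1
  · rw [if_neg (by simp [hq])]
    exact hq
  · rw [if_pos (by simp [hq])]
    exact hDY q hq

/-- moving a product unitary through the functional calculus -/
lemma cj_mul_topU {C W : Q → M2} (hW : IsPU W) (f : (Q → Bool) → ℝ) :
    cj C f * top W = top W * cj (fun q => (W q)ᴴ * C q) f := by
  unfold cj
  have e1 : top (fun q => (W q)ᴴ * C q) = (top W)ᴴ * top C := by
    rw [top_conjTranspose, top_mul]
  rw [e1, Matrix.conjTranspose_mul, Matrix.conjTranspose_conjTranspose]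
  calc top C * dg f * (top C)ᴴ * top W = 1 * top C * dg f * (top C)ᴴ * top W := by rw [one_mul]
    _ = (top W * (top W)ᴴ) * top C * dg f * (top C)ᴴ * top W := by rw [hW.top_right]
    _ = _ := by simp only [mul_assoc]

lemma topU_conj_cj {D W : Q → M2} (hW : IsPU W) (f : (Q → Bool) → ℝ) :
    (top W)ᴴ * cj D f * top W = cj (fun q => (W q)ᴴ * D q) f := by
  rw [mul_assoc, cj_mul_topU hW, ← mul_assoc, hW.top_left, one_mul]

lemma rf_get (L : List (Finset Q)) (ω : Q → Bool) :
    (L.map fun h => 1 - 2 * dl h ω).prod = rf (fun i : Fin L.length => L.get i) Finset.univ ω := by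
  unfold rf
  rw [← List.prod_ofFn]
  congr 1
  have : L = List.ofFn (fun i : Fin L.length => L.get i) := (List.ofFn_get L).symm
  conv_lhs => rw [this]
  rw [List.map_ofFn]
  rfl

lemma get_disjoint {L : List (Finset Q)} (hL : L.Pairwise Disjoint) :
    ∀ i j : Fin L.length, i ≠ j → Disjoint (L.get i) (L.get j) := by
  intro i j hij
  rw [List.pairwise_iff_get] at hL
  rcases lt_or_gt_of_ne hij with h | h
  · exact hL i j h
  · exact (hL j i h).symm

/-- canonical form of a two-layer circuit with a product measurement -/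
theorem nf_two_form {M : MQ Q} (hM : NF 2 M) {Y : Q → M2} (hY : IsPP Y) :
    ∃ (n₁ n₂ : ℕ) (h : Fin n₁ → Finset Q) (g : Fin n₂ → Finset Q) (C D U : Q → M2)
      (S : Finset Q), (∀ i j, i ≠ j → Disjoint (h i) (h j)) ∧
      (∀ i j, i ≠ j → Disjoint (g i) (g j)) ∧ IsPU C ∧ IsPU D ∧ IsPU U ∧
      Mᴴ * top Y * M = (top U)ᴴ *
        (dg (rf h Finset.univ) * rt C D (rf g Finset.univ) (dl S) * dg (rf h Finset.univ)) *
          top U := by
  cases hM with
  | succ _ M₁ U₂ χ Lg hM₁ hU₂ hχ hLg =>
    cases hM₁ with
    | succ _ M₀ U₁ κ Lh hM₀ hU₁ hκ hLh =>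
      cases hM₀ with
      | zero U₀ hU₀ =>
        choose B hB hκB using fun q => (hκ q).exists_unitary
        choose C₀ hC₀ hχC using fun q => (hχ q).exists_unitary
        obtain ⟨D₀, S, hD₀, hYD⟩ := isPP_eq_cj hY
        have hB' : IsPU B := hB
        have hC₀' : IsPU C₀ := hC₀
        set W : Q → M2 := fun q => U₁ q * B q with hW
        have hWU : IsPU W := hU₁.mul hB'
        set W₂ : Q → M2 := fun q => U₂ q * W q with hW₂
        have hW₂U : IsPU W₂ := hU₂.mul hWU
        set U : Q → M2 := fun q => (B q)ᴴ * U₀ q with hU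
        refine ⟨Lh.length, Lg.length, fun i => Lh.get i, fun i => Lg.get i,
          fun q => (W q)ᴴ * C₀ q, fun q => (W₂ q)ᴴ * D₀ q, U, S, get_disjoint hLh,
          get_disjoint hLg, hWU.star.mul hC₀', hW₂U.star.mul hD₀, hB'.star.mul hU₀, ?_⟩
        set r := rf (fun i => Lh.get i) Finset.univ with hr
        set s := rf (fun i => Lg.get i) Finset.univ with hs
        have e1 : reflProd κ Lh = top B * dg r * (top B)ᴴ := by
          rw [reflProd_eq_cj hB' hκB]
          unfold cj
          congr 3
          funext ω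
          exact rf_get Lh ω
        have e2 : reflProd χ Lg = cj C₀ s := by
          rw [reflProd_eq_cj hC₀' hχC]
          congr 1
          funext ω
          exact rf_get Lg ω
        have e3 : top U₂ * reflProd χ Lg * (top U₁ * reflProd κ Lh * top U₀) =
            top W₂ * cj (fun q => (W q)ᴴ * C₀ q) s * dg r * top U := by
          rw [e1, e2]
          have h1 : top W = top U₁ * top B := by rw [top_mul]
          have h2 : top W₂ = top U₂ * top W := by rw [top_mul]
          have h3 : top U = (top B)ᴴ * top U₀ := by rw [top_conjTranspose, top_mul]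
          rw [h2, h3, mul_assoc (top U₂) (top W), ← cj_mul_topU hWU, h1]
          simp only [mul_assoc]
        rw [e3, hYD]
        rw [Matrix.conjTranspose_mul, Matrix.conjTranspose_mul, Matrix.conjTranspose_mul,
          cj_conj, dg_conj]
        have e4 : (top W₂)ᴴ * cj D₀ (dl S) * top W₂ = cj (fun q => (W₂ q)ᴴ * D₀ q) (dl S) :=
          topU_conj_cj hW₂U _
        unfold rt
        rw [← e4]
        simp only [mul_assoc]

end Vale.Agent.P368
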