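import Vale.Agent.Lib.P368.State

open Matrix Finset
open scoped ComplexOrder

set_option linter.unusedSectionVars false

namespace Vale.Agent.P368

variable {Q : Type} [Fintype Q] [DecidableEq Q]

lemma at1_mul (q : Q) (a b : M2) : at1 q a * at1 q b = at1 q (a * b) := by
  unfold at1 topOn
  rw [top_mul]
  congr 1
  funext r
  split_ifs <;> simp

lemma at1_conj (q : Q) (a : M2) : (at1 q a)ᴴ = at1 q aᴴ := by
  unfold at1 topOn
  rw [top_conjTranspose]
  congr 1
  funext r
  split_ifs <;> simp

lemma at1_smul (q : Q) (c : ℂ) (a : M2) : at1 q (c • a) = c • at1 q a := by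
  ext y x
  rw [Matrix.smul_apply, at1_apply, at1_apply]
  split_ifs <;> simp

lemma at1_one (q : Q) : at1 q (1 : M2) = 1 := by
  unfold at1 topOn
  rw [← top_one]
  congr 1
  funext r
  split_ifs <;> rfl

lemma at1_basisP (q : Q) (b : Bool) :
    at1 q (basisP b) = dg (fun ω => if ω q = b then 1 else 0) := by
  ext y x
  rw [at1_apply]
  unfold dg
  by_cases h : y = x
  · subst h
    rw [Matrix.diagonal_apply_eq]
    by_cases hb : y q = b <;> simp [basisP, hb]
  · rw [Matrix.diagonal_apply_ne _ h]
    split_ifs with h2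
    · have hq : y q ≠ x q := by
        intro hq
        apply h
        funext r
        by_cases hr : r = q
        · rw [hr, hq]
        · exact h2 r hr
      simp only [basisP, Matrix.of_apply]
      rw [if_neg]
      intro ⟨h3, h4⟩
      exact hq (h3.trans h4.symm)
    · rfl

/-- freeze one coordinate of a function -/
def fx (i : Q) (b : Bool) (f : (Q → Bool) → ℝ) : (Q → Bool) → ℝ :=
  fun ω => f (Function.update ω i b)

lemma fx_indep (i : Q) (b : Bool) (f : (Q → Bool) → ℝ) (ω η : Q → Bool)
    (h : ∀ r, r ≠ i → ω r = η r) : fx i b f ω = fx i b f η := by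
  unfold fx
  congr 1
  funext r
  by_cases hr : r = i
  · subst hr; simp
  · rw [Function.update_of_ne hr, Function.update_of_ne hr, h r hr]

lemma dg_split (i : Q) (f : (Q → Bool) → ℝ) :
    dg f = at1 i (basisP true) * dg (fx i true f) + at1 i (basisP false) * dg (fx i false f) := by
  rw [at1_basisP, at1_basisP, dg_mul, dg_mul, ← dg_add]
  congr 1
  funext ω
  have h : ω i = true ∨ ω i = false := by cases ω i <;> simp
  rcases h with h | h
  · have : Function.update ω i true = ω := by rw [← h]; simp
    simp [fx, h, this]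
  · have : Function.update ω i false = ω := by rw [← h]; simp
    simp [fx, h, this]

lemma bv_fixed (q : Q) (y : Q → Bool) : act (at1 q (basisP (y q))) (bv y) = bv y := by
  rw [at1_basisP]
  ext ω
  rw [act_dg]
  unfold bv
  by_cases h : ω = y
  · subst h; simp
  · simp [h]

lemma uv_fixed {V : Q → M2} (hV : IsPU V) (q : Q) (y : Q → Bool) :
    act (at1 q (rhoV V q (y q))) (uv V y) = uv V y := by
  unfold uv
  rw [← act_mul, at1_conj_topU hV, act_mul]
  have : (V q)ᴴ * rhoV V q (y q) * V q = basisP (y q) := by
    unfold rhoV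
    rw [show (V q)ᴴ * (V q * basisP (y q) * (V q)ᴴ) * V q =
      ((V q)ᴴ * V q) * basisP (y q) * ((V q)ᴴ * V q) by simp only [mul_assoc], (hV q).1,
      one_mul, mul_one]
  rw [this, bv_fixed]

lemma isRP_rhoV {V : Q → M2} (hV : IsPU V) (q : Q) (b : Bool) : IsRP (rhoV V q b) := by
  have := (isRP_basisP b).conj_unitary (hV.star q)
  simpa [rhoV] using this

lemma rhoV_diag (V : Q → M2) (q : Q) (b c : Bool) :
    (rhoV V q b * basisP c).trace = ((‖V q c b‖ ^ 2 : ℝ) : ℂ) := by
  have e : (rhoV V q b * basisP c).trace = rhoV V q b c c := by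
    cases c <;> simp [Matrix.trace, Matrix.mul_apply, basisP]
  rw [e]
  unfold rhoV
  rw [conj_basisP_apply, RCLike.star_def, Complex.mul_conj']
  push_cast
  rfl

/-- expectation of an operator avoiding `i`, after a diagonal operator -/
lemma ev_flip {V : Q → M2} (hV : IsPU V) (i : Q) {N : MQ Q} (hN : Av i N)
    (f : (Q → Bool) → ℝ) (y : Q → Bool) :
    ev N (act (dg f) (uv V y)) =
      ‖V i true (y i)‖ ^ 2 * ev N (act (dg (fx i true f)) (uv V y)) +
      ‖V i false (y i)‖ ^ 2 * ev N (act (dg (fx i false f)) (uv V y)) := by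
  set u := uv V y with hu
  set ρ := rhoV V i (y i) with hρ
  have hρ' : IsRP ρ := isRP_rhoV hV i (y i)
  -- fixed vectors
  have fixd : ∀ b, act (at1 i ρ) (act (dg (fx i b f)) u) = act (dg (fx i b f)) u := by
    intro b
    have hc := (av_dg (fx_indep i b f) ρ).eq
    rw [← act_mul, hc, act_mul, hu, uv_fixed hV]
  have diagterm : ∀ b, inner ℂ (act (at1 i (basisP b)) (act (dg (fx i b f)) u))
      (act N (act (at1 i (basisP b)) (act (dg (fx i b f)) u))) =
      ((‖V i b (y i)‖ ^ 2 : ℝ) : ℂ) * inner ℂ (act (dg (fx i b f)) u)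
        (act N (act (dg (fx i b f)) u)) := by
    intro b
    set Ψ := act (dg (fx i b f)) u with hΨ
    have c1 := (hN (basisP b)).eq
    have c2 := (hN ρ).eq
    have h1 : inner ℂ (act (at1 i (basisP b)) Ψ) (act N (act (at1 i (basisP b)) Ψ)) =
        inner ℂ Ψ (act (N * at1 i (basisP b)) Ψ) := by
      rw [inner_act, at1_conj, (isRP_basisP b).1, ← act_mul, ← act_mul]
      congr 2
      rw [c1, mul_assoc, at1_mul, (isRP_basisP b).2.1]
    rw [h1]
    have fixΨ : act (at1 i ρ) Ψ = Ψ := fixd b
    have h0 : inner ℂ Ψ (act (N * at1 i (basisP b)) Ψ) =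
        inner ℂ (act (at1 i ρ) Ψ) (act (N * at1 i (basisP b)) (act (at1 i ρ) Ψ)) := by
      rw [fixΨ]
    rw [h0, inner_act, at1_conj, hρ'.1, ← act_mul, ← act_mul]
    have h2 : at1 i ρ * (N * at1 i (basisP b)) * at1 i ρ =
        ((‖V i b (y i)‖ ^ 2 : ℝ) : ℂ) • (N * at1 i ρ) := by
      rw [← mul_assoc, c2]
      rw [mul_assoc, mul_assoc, at1_mul, at1_mul, ← mul_assoc, hρ'.compress, hρ,
        rhoV_diag, at1_smul, mul_smul_comm]
    rw [h2, act_smul, inner_smul_right, act_mul, fixΨ]
  have crossterm : ∀ b c, b ≠ c → inner ℂ (act (at1 i (basisP b)) (act (dg (fx i b f)) u))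
      (act N (act (at1 i (basisP c)) (act (dg (fx i c f)) u))) = 0 := by
    intro b c hbc
    have c1 := (hN (basisP b)).eq
    rw [inner_act, at1_conj, (isRP_basisP b).1, ← act_mul, ← act_mul]
    have : at1 i (basisP b) * N * at1 i (basisP c) = 0 := by
      rw [c1, mul_assoc, at1_mul]
      have : basisP b * basisP c = (0 : M2) := by
        cases b <;> cases c <;> simp at hbc <;>
          (ext i j; cases i <;> cases j <;> simp [basisP, Matrix.mul_apply])
      rw [this]
      have z : at1 i (0 : M2) = 0 := by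
        have := at1_smul i (0 : ℂ) (0 : M2)
        simpa using this
      rw [z, mul_zero]
    rw [this]
    unfold act
    simp
  have split : act (dg f) u = act (at1 i (basisP true)) (act (dg (fx i true f)) u) +
      act (at1 i (basisP false)) (act (dg (fx i false f)) u) := by
    conv_lhs => rw [dg_split i f]
    rw [act_add, act_mul, act_mul]
  unfold ev
  rw [split, act_vadd, inner_add_left, inner_add_right, inner_add_right, diagterm true,
    diagterm false, crossterm true false (by simp), crossterm false true (by simp)]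
  simp only [add_zero, zero_add, Complex.add_re, Complex.re_ofReal_mul]

/-- the bit flip matrix -/
def swp : M2 := Matrix.of fun a b => if a = b then 0 else 1

lemma swp_mul : swp * swp = 1 := by
  ext i j
  cases i <;> cases j <;> simp [swp, Matrix.mul_apply]

lemma swp_conj : swpᴴ = swp := by
  ext i j
  cases i <;> cases j <;> simp [swp]

lemma bv_flp (i : Q) (y : Q → Bool) : act (at1 i swp) (bv y) = bv (flp i y) := by
  ext ω
  rw [act_apply, Finset.sum_eq_single y]
  · rw [at1_apply]
    unfold bv
    simp only [PiLp.single_apply, if_true, mul_one]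
    by_cases h : ω = flp i y
    · rw [if_pos, if_pos h]
      · rw [h]
        simp [swp, flp]
      · intro r hr
        rw [h]
        unfold flp
        rw [Function.update_of_ne hr]
    · rw [if_neg h]
      split_ifs with h2
      · have : ω i = y i := by
          by_contra h3
          apply h
          funext r
          unfold flp
          by_cases hr : r = i
          · subst hr
            rw [Function.update_self]
            cases h4 : ω r <;> cases h5 : y r <;> simp_all
          · rw [Function.update_of_ne hr]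
            exact h2 r hr
        simp [swp, this]
      · rfl
  · intro z _ hz
    unfold bv
    simp [hz]
  · intro h; exact absurd (Finset.mem_univ y) h

/-- invariance under flipping an avoided wire -/
lemma ev_flp {V : Q → M2} (hV : IsPU V) (i : Q) {N : MQ Q} (hN : Av i N)
    {f : (Q → Bool) → ℝ} (hf : ∀ ω η : Q → Bool, (∀ r, r ≠ i → ω r = η r) → f ω = f η)
    (y : Q → Bool) :
    ev N (act (dg f) (uv V (flp i y))) = ev N (act (dg f) (uv V y)) := by
  set F : M2 := V i * swp * (V i)ᴴ with hF
  have hFc : Fᴴ = F := by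
    rw [hF, Matrix.conjTranspose_mul, Matrix.conjTranspose_mul,
      Matrix.conjTranspose_conjTranspose, swp_conj, mul_assoc]
  have hFF : F * F = 1 := by
    rw [hF, show V i * swp * (V i)ᴴ * (V i * swp * (V i)ᴴ) =
      V i * swp * ((V i)ᴴ * V i) * swp * (V i)ᴴ by simp only [mul_assoc], (hV i).1, mul_one,
      mul_assoc (V i) swp swp, swp_mul, mul_one, (hV i).2]
  have e1 : uv V (flp i y) = act (at1 i F) (uv V y) := by
    unfold uv
    rw [← bv_flp, ← act_mul, ← act_mul]
    congr 1
    rw [at1_conj_topU hV, hF]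
    congr 2
    rw [show (V i)ᴴ * (V i * swp * (V i)ᴴ) * V i =
      ((V i)ᴴ * V i) * swp * ((V i)ᴴ * V i) by simp only [mul_assoc], (hV i).1, one_mul, mul_one]
  rw [e1, ← act_mul, ← (av_dg hf F).eq, act_mul, ← ev_conj_mul, at1_conj, hFc]
  congr 1
  rw [(hN F).eq, mul_assoc, at1_mul, hFF, at1_one, mul_one]

lemma msk_flp {I : Finset Q} {i : Q} (hi : i ∈ I) (x : Q → Bool) :
    msk I (flp i x) = flp i (msk I x) := by
  funext q
  unfold msk flp
  by_cases hq : q = i
  · subst hq; simp [hi]
  · rw [Function.update_of_ne hq, Function.update_of_ne hq]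

lemma flp_self (i : Q) (y : Q → Bool) : flp i y i = !y i := by
  unfold flp; simp

/-- the columns of a unitary swap the weights -/
lemma weight_flip {V : Q → M2} (hV : IsPU V) (i : Q) (c b : Bool) :
    ‖V i c (!b)‖ ^ 2 = 1 - ‖V i c b‖ ^ 2 := by
  have := row_norm (hV i).2 c
  cases b <;> simp <;> linarith

section consequences

variable {V : Q → M2} (hV : IsPU V) {I : Finset Q} {i : Q} (hi : i ∈ I) {N : MQ Q}
  (hN : Av i N) (f : (Q → Bool) → ℝ)

include hV hi hN in
lemma ev_flip_sum (x : Q → Bool) :
    ev N (act (dg f) (uv V (msk I x))) + ev N (act (dg f) (uv V (msk I (flp i x)))) =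
      ev N (act (dg (fx i true f)) (uv V (msk I x))) +
      ev N (act (dg (fx i false f)) (uv V (msk I x))) := by
  rw [msk_flp hi, ev_flip hV i hN f, ev_flip hV i hN f (flp i (msk I x)),
    ev_flp hV i hN (fx_indep i true f), ev_flp hV i hN (fx_indep i false f), flp_self,
    weight_flip hV, weight_flip hV]
  ring

include hV hi hN in
lemma ev_flip_diff (x : Q → Bool) :
    |ev N (act (dg f) (uv V (msk I x))) - ev N (act (dg f) (uv V (msk I (flp i x))))| ≤
      |ev N (act (dg (fx i true f)) (uv V (msk I x))) -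
      ev N (act (dg (fx i false f)) (uv V (msk I x)))| := by
  rw [msk_flp hi, ev_flip hV i hN f, ev_flip hV i hN f (flp i (msk I x)),
    ev_flp hV i hN (fx_indep i true f), ev_flp hV i hN (fx_indep i false f), flp_self,
    weight_flip hV, weight_flip hV]
  set a := ev N (act (dg (fx i true f)) (uv V (msk I x)))
  set b := ev N (act (dg (fx i false f)) (uv V (msk I x)))
  have h := col_norm (hV i).1 (msk I x i)
  set k := ‖V i false (msk I x i)‖ ^ 2 with hk
  have hk0 : 0 ≤ k := by positivity
  have h' : ‖V i true (msk I x i)‖ ^ 2 = 1 - k := by linarith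
  have hk1 : k ≤ 1 := by
    have : 0 ≤ ‖V i true (msk I x i)‖ ^ 2 := by positivity
    linarith
  rw [h']
  have e : (1 - k) * a + k * b - ((1 - (1 - k)) * a + (1 - k) * b) = (1 - 2 * k) * (a - b) := by
    ring
  rw [e, abs_mul]
  have : |1 - 2 * k| ≤ 1 := by rw [abs_le]; constructor <;> linarith
  calc |1 - 2 * k| * |a - b| ≤ 1 * |a - b| := mul_le_mul_of_nonneg_right this (abs_nonneg _)
    _ = _ := one_mul _

include hV hi hN in
lemma Ex_flip_sum :
    Ex (fun x => ev N (act (dg (fx i true f)) (uv V (msk I x)))) +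
      Ex (fun x => ev N (act (dg (fx i false f)) (uv V (msk I x)))) =
      2 * Ex (fun x => ev N (act (dg f) (uv V (msk I x)))) := by
  rw [← Ex_add]
  have e : (fun x => ev N (act (dg (fx i true f)) (uv V (msk I x))) +
      ev N (act (dg (fx i false f)) (uv V (msk I x)))) =
      fun x => ev N (act (dg f) (uv V (msk I x))) +
        ev N (act (dg f) (uv V (msk I (flp i x)))) := by
    funext x
    rw [ev_flip_sum hV hi hN f]
  rw [e, Ex_add, Ex_flp i (fun x => ev N (act (dg f) (uv V (msk I x))))]
  ring

include hV hi hN in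
/-- the signed average of an avoiding observable -/
lemma Ex_sgn_le :
    |Ex (fun x => sgn I x * ev N (act (dg f) (uv V (msk I x))))| ≤
      (1 / 2) * Ex (fun x => |ev N (act (dg (fx i true f)) (uv V (msk I x))) -
      ev N (act (dg (fx i false f)) (uv V (msk I x)))|) := by
  set p : (Q → Bool) → ℝ := fun x => ev N (act (dg f) (uv V (msk I x))) with hp
  have e1 : Ex (fun x => sgn I x * p x) = Ex (fun x => sgn I (flp i x) * p (flp i x)) :=
    (Ex_flp i (fun x => sgn I x * p x)).symm
  have e2 : Ex (fun x => sgn I x * p x) =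
      (1 / 2) * Ex (fun x => sgn I x * (p x - p (flp i x))) := by
    have e3 : (fun x => sgn I x * (p x - p (flp i x))) =
        fun x => sgn I x * p x + sgn I (flp i x) * p (flp i x) := by
      funext x
      rw [sgn_flp hi]; ring
    rw [e3, Ex_add, ← e1]
    ring
  rw [e2, abs_mul, abs_of_pos (by norm_num : (0 : ℝ) < 1 / 2)]
  apply mul_le_mul_of_nonneg_left _ (by norm_num)
  refine (abs_Ex_le _).trans (Ex_mono fun x => ?_)
  rw [abs_mul, abs_sgn, one_mul]
  exact ev_flip_diff hV hi hN f x

end consequences

end Vale.Agent.P368
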