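import Vale.Agent.Lib.P368.Drop

open Matrix Finset
open scoped ComplexOrder

set_option linter.unusedSectionVars false

namespace Vale.Agent.P368

variable {Q : Type} [Fintype Q] [DecidableEq Q]

/-- the product projector of a gate -/
noncomputable def Yc (C : Q → M2) (A : Finset Q) (q : Q) : M2 :=
  if q ∈ A then rhoV C q false else 1

lemma mem_cov {L : List (Finset Q)} {q : Q} : q ∈ cov L ↔ ∃ h ∈ L, q ∈ h := by
  induction L with
  | nil => simp
  | cons a L ih =>
    rw [cov_cons, Finset.mem_union, ih]
    simp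

lemma dg_rf_eq {J : Type} (h : J → Finset Q) (K : Finset J) :
    reflProd (fun _ => basisP false) (K.toList.map h) = dg (rf h K) := by
  rw [reflProd_eq_cj (U := fun _ => (1 : M2)) isPU_one (by intro q; simp), cj_one_eq]
  congr 1
  funext ω
  unfold rf
  rw [List.map_map, ← Finset.prod_map_toList]
  rfl

lemma toList_pairwise {J : Type} {h : J → Finset Q}
    (hh : ∀ j j', j ≠ j' → Disjoint (h j) (h j')) (K : Finset J) :
    (K.toList.map h).Pairwise Disjoint := by
  rw [List.pairwise_map]
  exact List.Pairwise.imp (fun {a b} hab => hh a b hab) K.nodup_toList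

section

variable {V C : Q → M2} (hV : IsPU V) (hC : IsPU C)
  {J : Type} [DecidableEq J] {h : J → Finset Q}
  (hh : ∀ j j', j ≠ j' → Disjoint (h j) (h j'))

include hV hC hh in
lemma ex_gate (K : Finset J) (A I : Finset Q) :
    ((Ex fun x => ‖act (cj C (dl A)) (act (dg (rf h K)) (uv V (msk I x)))‖ ^ 2 : ℝ) : ℂ) =
      (∏ j ∈ K, blockF (fun _ => basisP false) (Yc C A) (Xb I (rhoV V)) (h j)) *
        ∏ q ∈ (K.biUnion h)ᶜ, (Yc C A q * Xb I (rhoV V) q).trace := by
  set f := rf h K with hf
  set P := cj C (dl A) with hP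
  have hPc : Pᴴ = P := cj_conj _ _
  set N := dg f * P * dg f with hN
  have hNc : Nᴴ = N := by
    rw [hN, Matrix.conjTranspose_mul, Matrix.conjTranspose_mul, dg_conj, hPc, mul_assoc]
  have e1 : ∀ u : EQ Q, ‖act P (act (dg f) u)‖ ^ 2 = ev N u := by
    intro u
    have : N = (dg f)ᴴ * P * dg f := by rw [dg_conj]
    rw [this, ev_conj_mul, hP, norm_act_cj hC, ev_cj]
    congr 1
    funext ω
    rw [dl_sq]
  simp_rw [e1]
  rw [← trace_xb hV I hNc, hN, mul_assoc, mul_assoc, Matrix.trace_mul_comm]
  have e2 : P = top (Yc C A) := by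
    rw [hP, cj_dl_eq C hC]
    rfl
  have e3 := dg_rf_eq h K
  have hκ : ∀ q : Q, ((fun _ => basisP false) q : M2)ᴴ = (fun _ => basisP false) q :=
    fun _ => (isRP_basisP false).1
  have e4 := trace_reflProd (κ := fun _ : Q => basisP false) hκ (Xb I (rhoV V))
    (K.toList.map h) (toList_pairwise hh K) (Yc C A)
  rw [e3, dg_conj] at e4
  rw [e2, ← mul_assoc, e4]
  congr 1
  · rw [List.map_map, ← Finset.prod_map_toList]
    rfl
  · congr 1
    ext q
    rw [Finset.mem_compl, Finset.mem_compl, mem_cov, Finset.mem_biUnion]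
    simp only [List.mem_map, Finset.mem_toList, exists_exists_and_eq_and]

lemma trace_xb_one (hV : IsPU V) (I : Finset Q) (q : Q) : (Xb I (rhoV V) q).trace = 1 := by
  unfold Xb
  split_ifs
  · simp [Matrix.trace]
  · exact (isRP_rhoV hV q false).2.2

include hV hC in
/-- a block containing at most one projected live wire -/
lemma blockF_live {A I b : Finset Q} (hAI : A ⊆ I) (hb : (b ∩ A).card ≤ 1) :
    blockF (fun _ => basisP false) (Yc C A) (Xb I (rhoV V)) b = (1 / 2 : ℂ) ^ (b ∩ A).card := by
  have hκ := isRP_basisP false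
  set X := Xb I (rhoV V) with hX
  have off1 : ∀ q, q ∉ A → (Yc C A q * X q).trace = 1 := by
    intro q hq
    unfold Yc
    rw [if_neg hq, one_mul]
    exact trace_xb_one hV I q
  have off2 : ∀ q, q ∉ A → (basisP false * Yc C A q * X q).trace = (basisP false * X q).trace := by
    intro q hq
    unfold Yc
    rw [if_neg hq, mul_one]
  have off3 : ∀ q, q ∉ A → (Yc C A q * basisP false * X q).trace = (basisP false * X q).trace := by
    intro q hq
    unfold Yc
    rw [if_neg hq, one_mul]
  have off4 : ∀ q, q ∉ A → (basisP false * Yc C A q * basisP false * X q).trace =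
      (basisP false * X q).trace := by
    intro q hq
    unfold Yc
    rw [if_neg hq, mul_one, hκ.2.1]
  rcases Nat.eq_zero_or_pos (b ∩ A).card with h0 | hpos
  · rw [h0, pow_zero]
    have hne : ∀ q ∈ b, q ∉ A := by
      intro q hq hqA
      rw [Finset.card_eq_zero] at h0
      have : q ∈ b ∩ A := Finset.mem_inter.mpr ⟨hq, hqA⟩
      rw [h0] at this
      simp at this
    unfold blockF
    rw [Finset.prod_eq_one (fun q hq => off1 q (hne q hq)),
      Finset.prod_congr rfl (fun q hq => off2 q (hne q hq)),
      Finset.prod_congr rfl (fun q hq => off3 q (hne q hq)),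
      Finset.prod_congr rfl (fun q hq => off4 q (hne q hq))]
    ring
  · have h1 : (b ∩ A).card = 1 := by omega
    rw [h1, pow_one]
    obtain ⟨i, hi⟩ := Finset.card_eq_one.mp h1
    have hiA : i ∈ b ∩ A := by rw [hi]; simp
    rw [Finset.mem_inter] at hiA
    have hne : ∀ q ∈ b.erase i, q ∉ A := by
      intro q hq hqA
      have hq' := Finset.mem_erase.mp hq
      have : q ∈ b ∩ A := Finset.mem_inter.mpr ⟨hq'.2, hqA⟩
      rw [hi, Finset.mem_singleton] at this
      exact hq'.1 this
    have hXi : X i = (1 / 2 : ℂ) • 1 := by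
      rw [hX]
      unfold Xb
      rw [if_pos (hAI hiA.2)]
    have hYi : Yc C A i = rhoV C i false := by
      unfold Yc
      rw [if_pos hiA.2]
    have hYtr : (rhoV C i false).trace = 1 := (isRP_rhoV hC i false).2.2
    set y := (basisP false * rhoV C i false).trace with hy
    unfold blockF
    rw [← Finset.mul_prod_erase b _ hiA.1, ← Finset.mul_prod_erase b _ hiA.1,
      ← Finset.mul_prod_erase b _ hiA.1, ← Finset.mul_prod_erase b _ hiA.1,
      Finset.prod_eq_one (fun q hq => off1 q (hne q hq)),
      Finset.prod_congr rfl (fun q hq => off2 q (hne q hq)),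
      Finset.prod_congr rfl (fun q hq => off3 q (hne q hq)),
      Finset.prod_congr rfl (fun q hq => off4 q (hne q hq))]
    have f1 : (Yc C A i * X i).trace = 1 / 2 := by
      rw [hYi, hXi, mul_smul_comm, mul_one, Matrix.trace_smul, hYtr]
      simp
    have f2 : (basisP false * Yc C A i * X i).trace = (1 / 2) * y := by
      rw [hYi, hXi, mul_smul_comm, mul_one, Matrix.trace_smul]
      rfl
    have f3 : (Yc C A i * basisP false * X i).trace = (1 / 2) * y := by
      rw [hYi, hXi, mul_smul_comm, mul_one, Matrix.trace_smul, Matrix.trace_mul_comm]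
      rfl
    have f4 : (basisP false * Yc C A i * basisP false * X i).trace = (1 / 2) * y := by
      rw [hYi, hXi, mul_smul_comm, mul_one, Matrix.trace_smul, Matrix.trace_mul_comm, ← mul_assoc,
        hκ.2.1]
      rfl
    rw [f1, f2, f3, f4]
    ring

include hV hC hh in
/-- a gate with many live wires is rarely active -/
lemma ex_gate_live {K : Finset J} {A I : Finset Q} (hAI : A ⊆ I)
    (hK : ∀ j ∈ K, (h j ∩ A).card ≤ 1) :
    (Ex fun x => ‖act (cj C (dl A)) (act (dg (rf h K)) (uv V (msk I x)))‖ ^ 2) =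
      (1 / 2 : ℝ) ^ A.card := by
  have e := ex_gate hV hC hh K A I
  have e1 : ∏ j ∈ K, blockF (fun _ => basisP false) (Yc C A) (Xb I (rhoV V)) (h j) =
      (1 / 2 : ℂ) ^ (K.biUnion h ∩ A).card := by
    rw [Finset.prod_congr rfl (fun j hj => blockF_live hV hC hAI (hK j hj)),
      Finset.prod_pow_eq_pow_sum]
    congr 1
    rw [Finset.biUnion_inter, Finset.card_biUnion]
    intro j _ j' _ hne
    exact Finset.disjoint_of_subset_left Finset.inter_subset_left
      (Finset.disjoint_of_subset_right Finset.inter_subset_left (hh j j' hne))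
  have e2 : ∏ q ∈ (K.biUnion h)ᶜ, (Yc C A q * Xb I (rhoV V) q).trace =
      (1 / 2 : ℂ) ^ ((K.biUnion h)ᶜ ∩ A).card := by
    have : ∀ q ∈ (K.biUnion h)ᶜ, (Yc C A q * Xb I (rhoV V) q).trace =
        if q ∈ A then (1 / 2 : ℂ) else 1 := by
      intro q _
      by_cases hq : q ∈ A
      · rw [if_pos hq]
        unfold Yc Xb
        rw [if_pos hq, if_pos (hAI hq), mul_smul_comm, mul_one, Matrix.trace_smul,
          (isRP_rhoV hC q false).2.2]
        simp
      · rw [if_neg hq]
        unfold Yc
        rw [if_neg hq, one_mul]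
        exact trace_xb_one hV I q
    rw [Finset.prod_congr rfl this, Finset.prod_ite_mem, Finset.prod_const]
  have e3 : (K.biUnion h ∩ A).card + ((K.biUnion h)ᶜ ∩ A).card = A.card := by
    rw [← Finset.card_union_of_disjoint]
    · congr 1
      ext q
      simp only [Finset.mem_union, Finset.mem_inter, Finset.mem_compl]
      tauto
    · rw [Finset.disjoint_left]
      intro q hq hq'
      simp only [Finset.mem_inter, Finset.mem_compl] at hq hq'
      exact hq'.1 hq.1
  rw [e1, e2, ← pow_add, e3] at e
  have e4 : (1 / 2 : ℂ) ^ A.card = (((1 / 2 : ℝ) ^ A.card : ℝ) : ℂ) := by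
    push_cast
    norm_num
  rw [e4] at e
  exact_mod_cast e

end

end Vale.Agent.P368
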