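import Vale.Agent.Lib.P368.Gram

open Matrix Finset
open scoped ComplexOrder

set_option linter.unusedSectionVars false

namespace Vale.Agent.P368

variable {Q : Type} [Fintype Q] [DecidableEq Q]

/-- the overlap product of a gate, a block and the input state -/
noncomputable def ww (C V : Q → M2) (a : Finset Q) : ℂ :=
  ∏ q ∈ a, (C q false false * ((C q)ᴴ * V q) false false * star (V q false false))

/-- the overlap of a gate and the input state -/
noncomputable def zz (C V : Q → M2) (a : Finset Q) : ℝ :=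
  ∏ q ∈ a, ‖((C q)ᴴ * V q) false false‖ ^ 2

lemma blockF_dead {C V : Q → M2} (hV : IsPU V) {A I b : Finset Q} {i : Q}
    (hib : i ∈ b) (hiI : i ∈ I) (hbI : Disjoint (b.erase i) I) (hAI : Disjoint A I) :
    blockF (fun _ => basisP false) (Yc C A) (Xb I (rhoV V)) b =
      ((zz C V ((b.erase i).filter (· ∈ A)) -
        2 * bet V ((b.erase i).filter (· ∉ A)) * (ww C V ((b.erase i).filter (· ∈ A))).re +
        2 * bet V ((b.erase i).filter (· ∉ A)) * bet V ((b.erase i).filter (· ∈ A)) *
          bet C ((b.erase i).filter (· ∈ A)) : ℝ) : ℂ) := by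
  set a := (b.erase i).filter (· ∈ A) with ha
  set o := (b.erase i).filter (· ∉ A) with ho
  have hκ := isRP_basisP false
  have hiA : i ∉ A := fun h => Finset.disjoint_left.mp hAI h hiI
  have split : ∀ F : Q → ℂ, ∏ q ∈ b, F q = F i * ((∏ q ∈ a, F q) * ∏ q ∈ o, F q) := by
    intro F
    rw [← Finset.mul_prod_erase b _ hib, ha, ho, Finset.prod_filter_mul_prod_filter_not]
  have hXi : Xb I (rhoV V) i = (1 / 2 : ℂ) • 1 := by unfold Xb; rw [if_pos hiI]
  have hYi : Yc C A i = 1 := by unfold Yc; rw [if_neg hiA]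
  have hXq : ∀ q ∈ b.erase i, Xb I (rhoV V) q = rhoV V q false := by
    intro q hq
    unfold Xb
    rw [if_neg (Finset.disjoint_left.mp hbI hq)]
  have hXa : ∀ q ∈ a, Xb I (rhoV V) q = rhoV V q false := fun q hq =>
    hXq q (Finset.mem_filter.mp hq).1
  have hYa : ∀ q ∈ a, Yc C A q = rhoV C q false := fun q hq => by
    unfold Yc; rw [if_pos (Finset.mem_filter.mp hq).2]
  have hXo : ∀ q ∈ o, Xb I (rhoV V) q = rhoV V q false := fun q hq =>
    hXq q (Finset.mem_filter.mp hq).1
  have hYo : ∀ q ∈ o, Yc C A q = 1 := fun q hq => by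
    unfold Yc; rw [if_neg (Finset.mem_filter.mp hq).2]
  have hρκ : ∀ q, (basisP false * rhoV V q false).trace = ((‖V q false false‖ ^ 2 : ℝ) : ℂ) := by
    intro q
    rw [Matrix.trace_mul_comm, rhoV_diag]
  have tri : ∀ q ∈ a, _ := fun q _ => wire_traces (C q) (V q)
  unfold blockF
  rw [split, split, split, split]
  -- the wire `i`
  have i1 : (Yc C A i * Xb I (rhoV V) i).trace = 1 := by
    rw [hYi, one_mul]; exact trace_xb_one hV I i
  have i2 : (basisP false * Yc C A i * Xb I (rhoV V) i).trace = 1 / 2 := by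
    rw [hYi, hXi, mul_one, mul_smul_comm, mul_one, Matrix.trace_smul, hκ.2.2]; simp
  have i3 : (Yc C A i * basisP false * Xb I (rhoV V) i).trace = 1 / 2 := by
    rw [hYi, hXi, one_mul, mul_smul_comm, mul_one, Matrix.trace_smul, hκ.2.2]; simp
  have i4 : (basisP false * Yc C A i * basisP false * Xb I (rhoV V) i).trace = 1 / 2 := by
    rw [hYi, hXi, mul_one, hκ.2.1, mul_smul_comm, mul_one, Matrix.trace_smul, hκ.2.2]; simp
  rw [i1, i2, i3, i4]
  -- the wires of `a`
  have a1 : ∏ q ∈ a, (Yc C A q * Xb I (rhoV V) q).trace = ((zz C V a : ℝ) : ℂ) := by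
    unfold zz
    rw [Complex.ofReal_prod]
    apply Finset.prod_congr rfl
    intro q hq
    rw [hYa q hq, hXa q hq]
    exact (tri q hq).1
  have a2 : ∏ q ∈ a, (basisP false * Yc C A q * Xb I (rhoV V) q).trace = ww C V a := by
    unfold ww
    apply Finset.prod_congr rfl
    intro q hq
    rw [hYa q hq, hXa q hq]
    exact (tri q hq).2.1
  have a3 : ∏ q ∈ a, (Yc C A q * basisP false * Xb I (rhoV V) q).trace =
      (starRingEnd ℂ) (ww C V a) := by
    unfold ww
    rw [map_prod]
    apply Finset.prod_congr rfl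
    intro q hq
    rw [hYa q hq, hXa q hq]
    exact (tri q hq).2.2.1
  have a4 : ∏ q ∈ a, (basisP false * Yc C A q * basisP false * Xb I (rhoV V) q).trace =
      ((bet V a * bet C a : ℝ) : ℂ) := by
    unfold bet
    rw [← Finset.prod_mul_distrib, Complex.ofReal_prod]
    apply Finset.prod_congr rfl
    intro q hq
    rw [hYa q hq, hXa q hq]
    rw [mul_comm (‖V q false false‖ ^ 2)]
    exact (tri q hq).2.2.2
  -- the wires of `o`
  have o1 : ∏ q ∈ o, (Yc C A q * Xb I (rhoV V) q).trace = 1 := by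
    apply Finset.prod_eq_one
    intro q hq
    rw [hYo q hq, one_mul]
    exact trace_xb_one hV I q
  have ob : ∏ q ∈ o, ((‖V q false false‖ ^ 2 : ℝ) : ℂ) = ((bet V o : ℝ) : ℂ) := by
    unfold bet
    rw [Complex.ofReal_prod]
  have o2 : ∏ q ∈ o, (basisP false * Yc C A q * Xb I (rhoV V) q).trace = ((bet V o : ℝ) : ℂ) := by
    rw [← ob]
    apply Finset.prod_congr rfl
    intro q hq
    rw [hYo q hq, hXo q hq, mul_one, hρκ]
  have o3 : ∏ q ∈ o, (Yc C A q * basisP false * Xb I (rhoV V) q).trace = ((bet V o : ℝ) : ℂ) := by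
    rw [← ob]
    apply Finset.prod_congr rfl
    intro q hq
    rw [hYo q hq, hXo q hq, one_mul, hρκ]
  have o4 : ∏ q ∈ o, (basisP false * Yc C A q * basisP false * Xb I (rhoV V) q).trace =
      ((bet V o : ℝ) : ℂ) := by
    rw [← ob]
    apply Finset.prod_congr rfl
    intro q hq
    rw [hYo q hq, hXo q hq, mul_one, hκ.2.1, hρκ]
  rw [a1, a2, a3, a4, o1, o2, o3, o4]
  have hre : ww C V a + (starRingEnd ℂ) (ww C V a) = ((2 * (ww C V a).re : ℝ) : ℂ) := by
    rw [Complex.add_conj]
  push_cast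
  have hre' : ww C V a + (starRingEnd ℂ) (ww C V a) = 2 * ((ww C V a).re : ℂ) := by
    rw [hre]; push_cast; rfl
  linear_combination (-(bet V o : ℂ)) * hre'

/-- Gram inequality for the overlaps -/
lemma gram_overlap {C V : Q → M2} (hC : IsPU C) (hV : IsPU V) (a : Finset Q) :
    bet C a + zz C V a + bet V a ≤ 1 + 2 * (ww C V a).re ∧
      (ww C V a).re ^ 2 ≤ bet C a * zz C V a * bet V a := by
  set K : Q → M2 := fun q => if q ∈ a then 1 else V q with hK
  set C' : Q → M2 := fun q => if q ∈ a then C q else V q with hC'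
  have hKU : IsPU K := by
    intro q
    simp only [hK]
    split_ifs
    · simp
    · exact hV q
  have hCU : IsPU C' := by
    intro q
    simp only [hC']
    split_ifs
    · exact hC q
    · exact hV q
  set y0 : Q → Bool := fun _ => false with hy0
  have h1 : inner ℂ (uv K y0) (uv C' y0) = ∏ q ∈ a, C q false false := by
    rw [inner_uv]
    conv_rhs => rw [← Finset.univ_inter a, ← Finset.prod_ite_mem]
    apply Finset.prod_congr rfl
    intro q _
    by_cases hq : q ∈ a
    · simp [hK, hC', hq, hy0]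
    · simp only [hK, hC', hq, if_false]
      rw [(hV q).1]; simp
  have h2 : inner ℂ (uv C' y0) (uv V y0) = ∏ q ∈ a, ((C q)ᴴ * V q) false false := by
    rw [inner_uv]
    conv_rhs => rw [← Finset.univ_inter a, ← Finset.prod_ite_mem]
    apply Finset.prod_congr rfl
    intro q _
    by_cases hq : q ∈ a
    · simp only [hC', hq, if_true, hy0]
    · simp only [hC', hq, if_false]
      rw [(hV q).1]; simp
  have h3 : inner ℂ (uv V y0) (uv K y0) = ∏ q ∈ a, star (V q false false) := by
    rw [inner_uv]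
    conv_rhs => rw [← Finset.univ_inter a, ← Finset.prod_ite_mem]
    apply Finset.prod_congr rfl
    intro q _
    by_cases hq : q ∈ a
    · simp only [hK, hq, if_true, hy0, mul_one, Matrix.conjTranspose_apply]
    · simp only [hK, hq, if_false]
      rw [(hV q).1]; simp
  have hw : ww C V a = inner ℂ (uv K y0) (uv C' y0) * inner ℂ (uv C' y0) (uv V y0) *
      inner ℂ (uv V y0) (uv K y0) := by
    rw [h1, h2, h3]
    unfold ww
    rw [← Finset.prod_mul_distrib, ← Finset.prod_mul_distrib]
  have n1 : ‖(inner ℂ (uv K y0) (uv C' y0) : ℂ)‖ ^ 2 = bet C a := by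
    rw [h1, norm_prod, ← Finset.prod_pow]
    rfl
  have n2 : ‖(inner ℂ (uv C' y0) (uv V y0) : ℂ)‖ ^ 2 = zz C V a := by
    rw [h2, norm_prod, ← Finset.prod_pow]
    rfl
  have n3 : ‖(inner ℂ (uv V y0) (uv K y0) : ℂ)‖ ^ 2 = bet V a := by
    rw [h3, norm_prod, ← Finset.prod_pow]
    unfold bet
    apply Finset.prod_congr rfl
    intro q _
    rw [norm_star]
  constructor
  · have := gram_three (norm_uv hKU y0) (norm_uv hCU y0) (norm_uv hV y0)
    rw [n1, n2, n3, ← hw] at this
    exact this
  · have h4 : |(ww C V a).re| ≤ ‖ww C V a‖ := Complex.abs_re_le_norm _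
    have h5 : ‖ww C V a‖ ^ 2 = bet C a * zz C V a * bet V a := by
      rw [hw, norm_mul, norm_mul, mul_pow, mul_pow, n1, n2, n3]
    rw [← h5, ← sq_abs]
    exact pow_le_pow_left₀ (abs_nonneg _) h4 2

lemma bet_mem {V : Q → M2} (hV : IsPU V) (a : Finset Q) : 0 ≤ bet V a ∧ bet V a ≤ 1 := by
  unfold bet
  constructor
  · positivity
  · apply Finset.prod_le_one
    · intro q _; positivity
    · intro q _
      have := col_norm (hV q).1 false
      have h2 : 0 ≤ ‖V q true false‖ ^ 2 := by positivity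
      linarith

lemma bet_le_exp {V : Q → M2} (hV : IsPU V) (a : Finset Q) :
    bet V a ≤ Real.exp (-∑ q ∈ a, ee V q) := by
  unfold bet
  rw [← Finset.sum_neg_distrib, Real.exp_sum]
  apply Finset.prod_le_prod
  · intro q _; positivity
  · intro q _
    have := col_norm (hV q).1 false
    have h1 : ‖V q false false‖ ^ 2 = 1 - ee V q := by unfold ee; linarith
    rw [h1]
    have := Real.add_one_le_exp (-ee V q)
    linarith

/-- the real inequality for a block factor -/
lemma real_block {z y t bo bg : ℝ} (hz0 : 0 ≤ z) (hz1 : z ≤ 1) (hy0 : 0 ≤ y) (hy1 : y ≤ 1)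
    (hbo0 : 0 ≤ bo) (hbo1 : bo ≤ 1) (hbg0 : 0 ≤ bg)
    (hg : y + z + bg ≤ 1 + 2 * t) (ht : t ^ 2 ≤ y * z * bg) :
    0 ≤ z - 2 * bo * t + 2 * bo * bg * y ∧
      z - 2 * bo * t + 2 * bo * bg * y ≤ 1 - bo * bg * (1 - bg) := by
  constructor
  · have h1 : (2 * bo * t) ^ 2 ≤ (z + 2 * bo * bg * y) ^ 2 := by
      have h2 : 0 ≤ y * z * bg := by positivity
      have h3 : (2 * bo * t) ^ 2 ≤ 4 * bo ^ 2 * (y * z * bg) := by
        have : (2 * bo * t) ^ 2 = 4 * bo ^ 2 * t ^ 2 := by ring
        rw [this]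
        exact mul_le_mul_of_nonneg_left ht (by positivity)
      have h4 : 4 * bo ^ 2 * (y * z * bg) ≤ 8 * bo * (y * z * bg) := by
        apply mul_le_mul_of_nonneg_right _ h2
        nlinarith
      have h5 : 8 * bo * (y * z * bg) ≤ (z + 2 * bo * bg * y) ^ 2 := by
        nlinarith [sq_nonneg (z - 2 * bo * bg * y)]
      linarith
    have h6 : 0 ≤ z + 2 * bo * bg * y := by positivity
    have := abs_le_of_sq_le_sq' h1 h6
    linarith [this.2]
  · have h1 : 0 ≤ (1 - z) * (1 - bo) := mul_nonneg (by linarith) (by linarith)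
    have h2 : 0 ≤ bo * (bg ^ 2 * (1 - y) + y * (1 - bg) ^ 2) := by
      apply mul_nonneg hbo0
      apply add_nonneg
      · exact mul_nonneg (by positivity) (by linarith)
      · positivity
    have h3 : 0 ≤ bo * (1 + 2 * t - (y + z + bg)) := mul_nonneg hbo0 (by linarith)
    nlinarith

lemma zz_mem {C V : Q → M2} (hC : IsPU C) (hV : IsPU V) (a : Finset Q) :
    0 ≤ zz C V a ∧ zz C V a ≤ 1 := bet_mem (hC.star.mul hV) a

lemma exp_bound {s lam : ℝ} (hs : 0 ≤ s) (hsl : s ≤ lam) :
    s / (1 + lam) ≤ 1 - Real.exp (-s) := by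
  have h1 : 1 + s ≤ Real.exp s := by linarith [Real.add_one_le_exp s]
  have h2 : Real.exp (-s) ≤ 1 / (1 + s) := by
    rw [Real.exp_neg, ← one_div]
    exact one_div_le_one_div_of_le (by linarith) h1
  have h3 : 1 - 1 / (1 + s) = s / (1 + s) := by
    have : (1 + s) ≠ 0 := by linarith
    field_simp
    ring
  have h4 : s / (1 + lam) ≤ s / (1 + s) :=
    div_le_div_of_nonneg_left hs (by linarith) (by linarith)
  linarith

/-- a gate meeting many deviating wires is rarely active -/
lemma ex_gate_dead {V C : Q → M2} (hV : IsPU V) (hC : IsPU C)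
    {J : Type} [DecidableEq J] {h : J → Finset Q}
    (hh : ∀ j j', j ≠ j' → Disjoint (h j) (h j')) {K : Finset J} {A I : Finset Q}
    (hAI : Disjoint A I) {β lam : ℝ} (hβ : 0 ≤ β) (hlam : 0 ≤ lam)
    (hA : ∀ q ∈ A, ∃ j ∈ K, q ∈ h j ∧ ∃ i ∈ h j, i ∈ I ∧ Disjoint ((h j).erase i) I ∧
      β ≤ bet V ((h j).erase i) ∧ ∑ q ∈ (h j).erase i, ee V q ≤ lam) :
    (Ex fun x => ‖act (cj C (dl A)) (act (dg (rf h K)) (uv V (msk I x)))‖ ^ 2) ≤
      Real.exp (-(β / (1 + lam)) * ∑ q ∈ A, ee V q) := by
  have hblk : ∀ j ∈ K, ∃ r : ℝ, blockF (fun _ => basisP false) (Yc C A) (Xb I (rhoV V)) (h j) =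
      (r : ℂ) ∧ 0 ≤ r ∧ r ≤ Real.exp (-(β / (1 + lam)) * ∑ q ∈ h j ∩ A, ee V q) := by
    intro j hj
    rcases (h j ∩ A).eq_empty_or_nonempty with h0 | ⟨q, hq⟩
    · refine ⟨1, ?_, by norm_num, ?_⟩
      · rw [blockF_congr' (Y' := Yc C ∅) (X' := Xb I (rhoV V)) (fun q hq => ?_) (fun q _ => rfl),
          blockF_live hV hC (Finset.empty_subset I) (by simp)]
        · simp
        · unfold Yc
          rw [if_neg, if_neg (Finset.notMem_empty q)]
          intro hqA
          have : q ∈ h j ∩ A := Finset.mem_inter.mpr ⟨hq, hqA⟩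
          rw [h0] at this
          exact Finset.notMem_empty q this
      · rw [h0]
        simp
    · rw [Finset.mem_inter] at hq
      obtain ⟨j', hj', hqj', i, hij', hiI, hdis, hβi, hlami⟩ := hA q hq.2
      have hjj : j' = j := by
        by_contra hne
        exact Finset.disjoint_left.mp (hh j' j hne) hqj' hq.1
      subst hjj
      rw [blockF_dead hV hij' hiI hdis hAI]
      set a := ((h j').erase i).filter (· ∈ A) with ha
      set o := ((h j').erase i).filter (· ∉ A) with ho
      have haA : h j' ∩ A = a := by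
        ext r
        rw [ha, Finset.mem_inter, Finset.mem_filter, Finset.mem_erase]
        constructor
        · intro ⟨h1, h2⟩
          refine ⟨⟨?_, h1⟩, h2⟩
          rintro rfl
          exact Finset.disjoint_left.mp hAI h2 hiI
        · intro ⟨⟨_, h1⟩, h2⟩
          exact ⟨h1, h2⟩
      rw [haA]
      obtain ⟨g1, g2⟩ := gram_overlap hC hV a
      obtain ⟨z0, z1⟩ := zz_mem hC hV a
      obtain ⟨y0, y1⟩ := bet_mem hC a
      obtain ⟨b0, b1⟩ := bet_mem hV o
      obtain ⟨c0, c1⟩ := bet_mem hV a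
      obtain ⟨r0, r1⟩ := real_block z0 z1 y0 y1 b0 b1 c0 g1 g2
      refine ⟨_, rfl, r0, r1.trans ?_⟩
      have hprod : bet V o * bet V a = bet V ((h j').erase i) := by
        unfold bet
        rw [mul_comm, ha, ho, Finset.prod_filter_mul_prod_filter_not]
      rw [hprod]
      set s := ∑ q ∈ a, ee V q with hs
      have hs0 : 0 ≤ s := Finset.sum_nonneg fun q _ => ee_nonneg V q
      have hsl : s ≤ lam := by
        refine le_trans ?_ hlami
        exact Finset.sum_le_sum_of_subset_of_nonneg (Finset.filter_subset _ _)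
          (fun q _ _ => ee_nonneg V q)
      have h1 := exp_bound hs0 hsl
      have h2 := bet_le_exp hV a
      have h3 : β * (s / (1 + lam)) ≤ bet V ((h j').erase i) * (1 - bet V a) := by
        apply mul_le_mul hβi (by linarith) (by positivity)
        exact (bet_mem hV _).1
      have h4 : 1 - β * (s / (1 + lam)) ≤ Real.exp (-(β * (s / (1 + lam)))) := by
        have := Real.add_one_le_exp (-(β * (s / (1 + lam))))
        linarith
      have h5 : -(β / (1 + lam)) * s = -(β * (s / (1 + lam))) := by ring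
      rw [h5]
      linarith
  choose! r hr1 hr2 hr3 using hblk
  have hAsub : ∀ q ∈ A, q ∈ K.biUnion h := by
    intro q hq
    obtain ⟨j, hj, hqj, -⟩ := hA q hq
    exact Finset.mem_biUnion.mpr ⟨j, hj, hqj⟩
  have e := ex_gate hV hC hh K A I
  have e2 : ∏ q ∈ (K.biUnion h)ᶜ, (Yc C A q * Xb I (rhoV V) q).trace = 1 := by
    apply Finset.prod_eq_one
    intro q hq
    have hqA : q ∉ A := fun h1 => (Finset.mem_compl.mp hq) (hAsub q h1)
    unfold Yc
    rw [if_neg hqA, one_mul]
    exact trace_xb_one hV I q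
  rw [e2, mul_one, Finset.prod_congr rfl hr1, ← Complex.ofReal_prod] at e
  have e' : (Ex fun x => ‖act (cj C (dl A)) (act (dg (rf h K)) (uv V (msk I x)))‖ ^ 2) =
      ∏ j ∈ K, r j := by exact_mod_cast e
  rw [e']
  calc ∏ j ∈ K, r j ≤ ∏ j ∈ K, Real.exp (-(β / (1 + lam)) * ∑ q ∈ h j ∩ A, ee V q) :=
        Finset.prod_le_prod hr2 hr3
    _ = Real.exp (-(β / (1 + lam)) * ∑ q ∈ A, ee V q) := by
        rw [← Real.exp_sum, ← Finset.mul_sum]
        congr 2
        rw [← Finset.sum_biUnion]
        · congr 1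
          ext q
          rw [Finset.mem_biUnion]
          constructor
          · rintro ⟨j, _, hq⟩
            exact (Finset.mem_inter.mp hq).2
          · intro hq
            obtain ⟨j, hj, hqj⟩ := Finset.mem_biUnion.mp (hAsub q hq)
            exact ⟨j, hj, Finset.mem_inter.mpr ⟨hqj, hq⟩⟩
        · intro j _ j' _ hne
          exact Finset.disjoint_of_subset_left Finset.inter_subset_left
            (Finset.disjoint_of_subset_right Finset.inter_subset_left (hh j j' hne))

end Vale.Agent.P368
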