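import Vale.Agent.Lib.P368.Gate3

open Matrix Finset
open scoped ComplexOrder

set_option linter.unusedSectionVars false

namespace Vale.Agent.P368

variable {Q : Type} [Fintype Q] [DecidableEq Q]

lemma dl_anti {A B : Finset Q} (h : A ⊆ B) (ω : Q → Bool) : dl B ω ≤ dl A ω := by
  unfold dl
  by_cases h1 : ∀ q ∈ B, ω q = false
  · rw [if_pos h1, if_pos (fun q hq => h1 q (h hq))]
  · rw [if_neg h1]
    split_ifs <;> norm_num

lemma norm_dl_mono {C : Q → M2} (hC : IsPU C) {A B : Finset Q} (h : A ⊆ B) (v : EQ Q) :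
    ‖act (cj C (dl B)) v‖ ^ 2 ≤ ‖act (cj C (dl A)) v‖ ^ 2 := by
  rw [norm_act_cj hC, norm_act_cj hC]
  apply qf_mono
  intro ω
  rw [dl_sq, dl_sq]
  exact dl_anti h ω

/-- a block with many inputs is rarely active -/
lemma ex_block {V : Q → M2} (hV : IsPU V) (b I : Finset Q) :
    (Ex fun x => ‖act (dg (dl b)) (uv V (msk I x))‖ ^ 2) ≤ (1 / 2 : ℝ) ^ (b ∩ I).card := by
  have h1 := ex_gate_live (V := V) (C := fun _ => (1 : M2)) hV isPU_one (J := Empty)
    (h := fun _ => ∅) (by intro j; exact j.elim) (K := ∅) (A := b ∩ I) (I := I)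
    Finset.inter_subset_right (by intro j; exact j.elim)
  rw [← h1]
  apply Ex_mono
  intro x
  have e : dg (rf (fun _ : Empty => (∅ : Finset Q)) ∅) = 1 := by
    unfold rf
    simp only [Finset.prod_empty]
    exact dg_one
  rw [e, act_one, ← cj_one_eq]
  exact norm_dl_mono isPU_one Finset.inter_subset_left _

/-- inner product of two product vectors -/
lemma inner_uv (U W : Q → M2) (y : Q → Bool) :
    inner ℂ (uv U y) (uv W y) = ∏ q, ((U q)ᴴ * W q) (y q) (y q) := by
  simp only [PiLp.inner_apply, RCLike.inner_apply, uv_apply]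
  simp only [Matrix.mul_apply, Matrix.conjTranspose_apply]
  rw [Finset.prod_univ_sum, Fintype.piFinset_univ]
  apply Finset.sum_congr rfl
  intro ω _
  rw [map_prod, ← Finset.prod_mul_distrib]
  apply Finset.prod_congr rfl
  intro q _
  rw [mul_comm]
  rfl

/-- positivity of the Gram determinant of three unit vectors -/
lemma gram_three {E : Type} [NormedAddCommGroup E] [InnerProductSpace ℂ E] {x y z : E}
    (hx : ‖x‖ = 1) (hy : ‖y‖ = 1) (hz : ‖z‖ = 1) :
    ‖(inner ℂ x y : ℂ)‖ ^ 2 + ‖(inner ℂ y z : ℂ)‖ ^ 2 + ‖(inner ℂ z x : ℂ)‖ ^ 2 ≤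
      1 + 2 * ((inner ℂ x y : ℂ) * inner ℂ y z * inner ℂ z x).re := by
  set a : ℂ := inner ℂ x y with ha
  set b : ℂ := inner ℂ y z with hb
  set c : ℂ := inner ℂ z x with hc
  have hzy : (inner ℂ z y : ℂ) = (starRingEnd ℂ) b := by rw [hb, inner_conj_symm]
  have hxz : (inner ℂ x z : ℂ) = (starRingEnd ℂ) c := by rw [hc, inner_conj_symm]
  have hzz : (inner ℂ z z : ℂ) = 1 := by
    rw [inner_self_eq_norm_sq_to_K, hz]; simp
  have hxx : (inner ℂ x x : ℂ) = 1 := by
    rw [inner_self_eq_norm_sq_to_K, hx]; simp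
  have hyy : (inner ℂ y y : ℂ) = 1 := by
    rw [inner_self_eq_norm_sq_to_K, hy]; simp
  set x' := x - c • z with hx'
  set y' := y - (starRingEnd ℂ) b • z with hy'
  have e1 : (inner ℂ x' y' : ℂ) = a - (starRingEnd ℂ) b * (starRingEnd ℂ) c := by
    rw [hx', hy', inner_sub_left, inner_sub_right, inner_sub_right, inner_smul_left,
      inner_smul_right, inner_smul_right, inner_smul_left, hzy, hxz, hzz, ← ha]
    ring
  have e2 : ‖x'‖ ^ 2 = 1 - ‖c‖ ^ 2 := by
    have h1 : (inner ℂ x' x' : ℂ) = 1 - (starRingEnd ℂ) c * c := by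
      rw [hx', inner_sub_left, inner_sub_right, inner_sub_right, inner_smul_left,
        inner_smul_right, inner_smul_right, inner_smul_left, hxz, hzz, hxx, ← hc]
      ring
    rw [inner_self_eq_norm_sq_to_K, Complex.conj_mul'] at h1
    have h2 : ((‖x'‖ ^ 2 : ℝ) : ℂ) = ((1 - ‖c‖ ^ 2 : ℝ) : ℂ) := by
      push_cast
      exact h1
    exact_mod_cast h2
  have e3 : ‖y'‖ ^ 2 = 1 - ‖b‖ ^ 2 := by
    have h1 : (inner ℂ y' y' : ℂ) = 1 - (starRingEnd ℂ) b * b := by
      rw [hy', inner_sub_left, inner_sub_right, inner_sub_right, inner_smul_left,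
        inner_smul_right, inner_smul_right, inner_smul_left, hzy, hzz, hyy, ← hb]
      simp only [Complex.conj_conj]
      ring
    rw [inner_self_eq_norm_sq_to_K, Complex.conj_mul'] at h1
    have h2 : ((‖y'‖ ^ 2 : ℝ) : ℂ) = ((1 - ‖b‖ ^ 2 : ℝ) : ℂ) := by
      push_cast
      exact h1
    exact_mod_cast h2
  have cs : ‖(inner ℂ x' y' : ℂ)‖ ^ 2 ≤ ‖x'‖ ^ 2 * ‖y'‖ ^ 2 := by
    rw [← mul_pow]
    exact pow_le_pow_left₀ (norm_nonneg _) (norm_inner_le_norm _ _) 2
  rw [e1, e2, e3] at cs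
  have e4 : ‖a - (starRingEnd ℂ) b * (starRingEnd ℂ) c‖ ^ 2 =
      ‖a‖ ^ 2 - 2 * (a * b * c).re + ‖b‖ ^ 2 * ‖c‖ ^ 2 := by
    rw [← Complex.normSq_eq_norm_sq, ← Complex.normSq_eq_norm_sq, ← Complex.normSq_eq_norm_sq,
      ← Complex.normSq_eq_norm_sq, Complex.normSq_sub, Complex.normSq_mul, Complex.normSq_conj,
      Complex.normSq_conj]
    simp only [map_mul, Complex.conj_conj]
    rw [← mul_assoc]
    ring
  rw [e4] at cs
  nlinarith

/-- the trace factors of a wire of a gate -/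
lemma wire_traces (C V : M2) :
    ((C * basisP false * Cᴴ) * (V * basisP false * Vᴴ)).trace =
      (((‖(Cᴴ * V) false false‖ ^ 2 : ℝ)) : ℂ) ∧
    (basisP false * (C * basisP false * Cᴴ) * (V * basisP false * Vᴴ)).trace =
      C false false * (Cᴴ * V) false false * star (V false false) ∧
    ((C * basisP false * Cᴴ) * basisP false * (V * basisP false * Vᴴ)).trace =
      star (C false false * (Cᴴ * V) false false * star (V false false)) ∧
    (basisP false * (C * basisP false * Cᴴ) * basisP false * (V * basisP false * Vᴴ)).trace =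
      ((‖C false false‖ ^ 2 * ‖V false false‖ ^ 2 : ℝ) : ℂ) := by
  have n1 : ∀ z : ℂ, ((‖z‖ ^ 2 : ℝ) : ℂ) = z * (starRingEnd ℂ) z := by
    intro z
    rw [Complex.mul_conj']
    push_cast
    rfl
  refine ⟨?_, ?_, ?_, ?_⟩
  · rw [n1]
    simp [Matrix.trace, Matrix.mul_apply, basisP, Matrix.conjTranspose_apply]
    ring
  · simp [Matrix.trace, Matrix.mul_apply, basisP, Matrix.conjTranspose_apply]
    ring
  · simp [Matrix.trace, Matrix.mul_apply, basisP, Matrix.conjTranspose_apply]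
    ring
  · rw [Complex.ofReal_mul, n1, n1]
    simp [Matrix.trace, Matrix.mul_apply, basisP, Matrix.conjTranspose_apply]

end Vale.Agent.P368
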