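import Vale.Agent.Lib.P368.Fix

open Matrix Finset
open scoped ComplexOrder

set_option linter.unusedSectionVars false

namespace Vale.Agent.P368

variable {Q : Type} [Fintype Q] [DecidableEq Q]

section

variable {V C D : Q → M2} (hV : IsPU V) (hC : IsPU C) (hD : IsPU D)
  {J Γ : Type} [DecidableEq J] [DecidableEq Γ]
  {h : J → Finset Q} (hh : ∀ j j', j ≠ j' → Disjoint (h j) (h j'))
  {g : Γ → Finset Q} (hg : ∀ γ γ', γ ≠ γ' → Disjoint (g γ) (g γ'))

/-- the other wires of the block of a live wire -/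
def mates (h : J → Finset Q) (K : Finset J) (i : Q) : Finset Q :=
  (K.filter fun j => i ∈ h j).biUnion fun j => (h j).erase i

include hh in
lemma mates_eq {K : Finset J} {j : J} (hj : j ∈ K) {i : Q} (hi : i ∈ h j) :
    mates h K i = (h j).erase i := by
  unfold mates
  ext q
  rw [Finset.mem_biUnion]
  constructor
  · rintro ⟨j', hj', hq⟩
    rw [Finset.mem_filter] at hj'
    have : j' = j := by
      by_contra hne
      exact Finset.disjoint_left.mp (hh j' j hne) hj'.2 hi
    rwa [← this]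
  · intro hq
    exact ⟨j, Finset.mem_filter.mpr ⟨hj, hi⟩, hq⟩

lemma mates_free {K : Finset J} {i : Q} (hi : ∀ j ∈ K, i ∉ h j) : mates h K i = ∅ := by
  unfold mates
  rw [Finset.filter_false_of_mem (fun j hj => hi j hj)]
  simp

lemma erase_disjoint_of_card {b I : Finset Q} (hb : (b ∩ I).card ≤ 1) {i : Q} (hib : i ∈ b)
    (hiI : i ∈ I) : Disjoint (b.erase i) I := by
  rw [Finset.disjoint_left]
  intro q hq hqI
  rw [Finset.mem_erase] at hq
  rw [Finset.card_le_one] at hb
  exact hq.1 (hb q (Finset.mem_inter.mpr ⟨hq.2, hqI⟩) i (Finset.mem_inter.mpr ⟨hib, hiI⟩))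

/-- the deleted wires -/
noncomputable def dels (h : J → Finset Q) (K : Finset J) (g : Γ → Finset Q) (G : Finset Γ)
    (i : Q) : Finset Q := by
  classical
  exact Finset.univ.filter fun q => q = i ∨ (∃ γ ∈ G, i ∈ g γ ∧ q ∈ g γ) ∨
    ((∀ γ ∈ G, q ∉ g γ) ∧ ∃ j ∈ K, i ∈ h j ∧ q ∈ h j)

lemma mem_dels {K : Finset J} {G : Finset Γ} {i q : Q} :
    q ∈ dels h K g G i ↔ q = i ∨ (∃ γ ∈ G, i ∈ g γ ∧ q ∈ g γ) ∨
    ((∀ γ ∈ G, q ∉ g γ) ∧ ∃ j ∈ K, i ∈ h j ∧ q ∈ h j) := by
  unfold dels
  simp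

include hg in
lemma dels_gate {K : Finset J} {G : Finset Γ} {i : Q} {γ : Γ} (hγ : γ ∈ G) :
    g γ ⊆ dels h K g G i ∨ Disjoint (g γ) (dels h K g G i) := by
  by_cases hi : i ∈ g γ
  · left
    intro q hq
    rw [mem_dels]
    exact Or.inr (Or.inl ⟨γ, hγ, hi, hq⟩)
  · right
    rw [Finset.disjoint_left]
    intro q hq hqd
    rw [mem_dels] at hqd
    rcases hqd with h1 | ⟨γ', hγ', h1, h2⟩ | ⟨h1, _⟩
    · exact hi (h1 ▸ hq)
    · have : γ' = γ := by
        by_contra hne
        exact Finset.disjoint_left.mp (hg γ' γ hne) h2 hq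
      exact hi (this ▸ h1)
    · exact h1 γ hγ hq

include hh hg in
lemma dels_count {K : Finset J} {G : Finset Γ} {I : Finset Q} {L : ℕ} (hL : 1 ≤ L)
    (hK : ∀ j ∈ K, (h j ∩ I).card ≤ 1) (hG : ∀ γ ∈ G, (g γ ∩ I).card ≤ L) (q : Q) :
    (I.filter fun i => q ∈ dels h K g G i).card ≤ L := by
  by_cases hex : ∃ γ ∈ G, q ∈ g γ
  · obtain ⟨γ, hγ, hqγ⟩ := hex
    refine (Finset.card_le_card ?_).trans (hG γ hγ)
    intro i hi
    rw [Finset.mem_filter, mem_dels] at hi
    rw [Finset.mem_inter]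
    refine ⟨?_, hi.1⟩
    rcases hi.2 with h1 | ⟨γ', _, h1, h2⟩ | ⟨h1, _⟩
    · exact h1 ▸ hqγ
    · have : γ' = γ := by
        by_contra hne
        exact Finset.disjoint_left.mp (hg γ' γ hne) h2 hqγ
      exact this ▸ h1
    · exact absurd hqγ (h1 γ hγ)
  · push Not at hex
    refine le_trans ?_ hL
    rw [Finset.card_le_one]
    have key : ∀ i, i ∈ I.filter (fun i => q ∈ dels h K g G i) → i ∈ I ∧
        (q = i ∨ ∃ j ∈ K, i ∈ h j ∧ q ∈ h j) := by
      intro i hi
      rw [Finset.mem_filter, mem_dels] at hi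
      refine ⟨hi.1, ?_⟩
      rcases hi.2 with h1 | ⟨γ', hγ', _, h2⟩ | ⟨_, h1⟩
      · exact Or.inl h1
      · exact absurd h2 (hex γ' hγ')
      · exact Or.inr h1
    intro a ha b hb
    obtain ⟨haI, ha'⟩ := key a ha
    obtain ⟨hbI, hb'⟩ := key b hb
    have two : ∀ j ∈ K, a ∈ h j → b ∈ h j → a = b := by
      intro j hj h1 h2
      have := hK j hj
      rw [Finset.card_le_one] at this
      exact this a (Finset.mem_inter.mpr ⟨h1, haI⟩) b (Finset.mem_inter.mpr ⟨h2, hbI⟩)
    rcases ha' with h1 | ⟨j, hj, h1, h2⟩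
    · rcases hb' with h3 | ⟨j', hj', h3, h4⟩
      · exact h1.symm.trans h3
      · exact two j' hj' (h1 ▸ h4) h3
    · rcases hb' with h3 | ⟨j', hj', h3, h4⟩
      · exact two j hj h1 (h3 ▸ h2)
      · have : j' = j := by
          by_contra hne
          exact Finset.disjoint_left.mp (hh j' j hne) h4 h2
        exact two j hj h1 (this ▸ h3)

lemma sum_card_inter_le {A : Finset Γ} (hg : ∀ γ γ', γ ≠ γ' → Disjoint (g γ) (g γ'))
    (I : Finset Q) : ∑ γ ∈ A, (g γ ∩ I).card ≤ I.card := by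
  rw [← Finset.card_biUnion]
  · apply Finset.card_le_card
    intro q hq
    rw [Finset.mem_biUnion] at hq
    obtain ⟨γ, _, hq⟩ := hq
    exact (Finset.mem_inter.mp hq).2
  · intro a _ b _ hab
    exact Finset.disjoint_of_subset_left Finset.inter_subset_left
      (Finset.disjoint_of_subset_right Finset.inter_subset_left (hg a b hab))

lemma sum_sum_inter_le {A : Finset Γ} (hg : ∀ γ γ', γ ≠ γ' → Disjoint (g γ) (g γ'))
    (W : Finset Q) {f : Q → ℝ} (hf : ∀ q, 0 ≤ f q) :
    ∑ γ ∈ A, ∑ q ∈ g γ ∩ W, f q ≤ ∑ q ∈ W, f q := by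
  rw [← Finset.sum_biUnion]
  · apply Finset.sum_le_sum_of_subset_of_nonneg
    · intro q hq
      rw [Finset.mem_biUnion] at hq
      obtain ⟨γ, _, hq⟩ := hq
      exact (Finset.mem_inter.mp hq).2
    · intro q _ _
      exact hf q
  · intro a _ b _ hab
    exact Finset.disjoint_of_subset_left Finset.inter_subset_left
      (Finset.disjoint_of_subset_right Finset.inter_subset_left (hg a b hab))

include hV hC hD hh hg in
/-- the bound for one live input per block -/
theorem live_bound (K : Finset J) (G : Finset Γ) (S I : Finset Q)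
    (hK : ∀ j ∈ K, (h j ∩ I).card ≤ 1) {β lam : ℝ} (hβ0 : 0 < β) (hlam0 : 0 ≤ lam)
    (hβlam : Real.exp (-lam) ≤ β) {ℓ Λ₄ : ℕ} (hℓ : 1 ≤ ℓ) (hΛ4 : 1 ≤ Λ₄) :
    (I.card : ℝ) * |cc V C D h g S I K G| ≤
      ℓ + 2 * I.card * Real.sqrt β +
        (1 / 2) * Real.sqrt (I.card * (64 * lam * (2 * Λ₄ + 2) * (1 + 2 * ℓ))) +
      I.card * (4 * (I.card * Real.sqrt ((1 / 2) ^ ℓ) +
        I.card * lam / Λ₄ * Real.sqrt (Real.exp (-(β / (1 + lam)) * Λ₄)))) := by
  classical
  set B : Finset Q := I.filter fun i => ∃ j ∈ K, i ∈ h j ∧ β ≤ bet V ((h j).erase i) with hB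
  set LW : Finset Q := B.biUnion (mates h K) with hLW
  have hBI : B ⊆ I := Finset.filter_subset _ _
  -- basic facts on the live wires of large overlap
  have hBfact : ∀ i ∈ B, ∃ j ∈ K, i ∈ h j ∧ mates h K i = (h j).erase i ∧
      Disjoint ((h j).erase i) I ∧ β ≤ bet V ((h j).erase i) ∧
      ∑ q ∈ (h j).erase i, ee V q ≤ lam := by
    intro i hi
    rw [hB, Finset.mem_filter] at hi
    obtain ⟨hiI, j, hj, hij, hβi⟩ := hi
    refine ⟨j, hj, hij, mates_eq hh hj hij, erase_disjoint_of_card (hK j hj) hij hiI, hβi, ?_⟩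
    by_contra hcon
    push Not at hcon
    have h1 := bet_le_exp hV ((h j).erase i)
    have h2 : Real.exp (-∑ q ∈ (h j).erase i, ee V q) < Real.exp (-lam) :=
      Real.exp_lt_exp.mpr (by linarith)
    linarith
  have hLWI : Disjoint LW I := by
    rw [hLW, Finset.disjoint_biUnion_left]
    intro i hi
    obtain ⟨j, _, _, h1, h2, _⟩ := hBfact i hi
    rw [h1]
    exact h2
  have hLWsum : ∑ q ∈ LW, ee V q ≤ I.card * lam := by
    calc ∑ q ∈ LW, ee V q ≤ ∑ i ∈ B, ∑ q ∈ mates h K i, ee V q := by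
          rw [hLW]
          refine le_of_eq (Finset.sum_biUnion ?_)
          intro i hi i' hi' hne
          obtain ⟨j, hj, hij, h1, _⟩ := hBfact i hi
          obtain ⟨j', hj', hij', h1', _⟩ := hBfact i' hi'
          show Disjoint (mates h K i) (mates h K i')
          rw [h1, h1']
          by_cases hjj : j = j'
          · exfalso
            subst hjj
            have := hK j hj
            rw [Finset.card_le_one] at this
            exact hne (this i (Finset.mem_inter.mpr ⟨hij, hBI hi⟩) i'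
              (Finset.mem_inter.mpr ⟨hij', hBI hi'⟩))
          · exact Finset.disjoint_of_subset_left (Finset.erase_subset _ _)
              (Finset.disjoint_of_subset_right (Finset.erase_subset _ _) (hh j j' hjj))
      _ ≤ ∑ i ∈ B, lam := by
          apply Finset.sum_le_sum
          intro i hi
          obtain ⟨j, _, _, h1, _, _, h4⟩ := hBfact i hi
          rw [h1]
          exact h4
      _ = B.card * lam := by rw [Finset.sum_const, nsmul_eq_mul]
      _ ≤ I.card * lam := by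
          apply mul_le_mul_of_nonneg_right _ hlam0
          exact_mod_cast Finset.card_le_card hBI
  -- the gates that are kept
  set G₀ : Finset Γ := G.filter fun γ => (g γ ∩ I).card ≤ ℓ ∧ ∑ q ∈ g γ ∩ LW, ee V q ≤ Λ₄
    with hG₀
  set G₁ : Finset Γ := G.filter fun γ => ¬ ((g γ ∩ I).card ≤ ℓ ∧ ∑ q ∈ g γ ∩ LW, ee V q ≤ Λ₄)
    with hG₁
  have hGU : G₀ ∪ G₁ = G := Finset.filter_union_filter_not_eq _ _
  have hGd : Disjoint G₀ G₁ := Finset.disjoint_filter_filter_not _ _ _
  -- cost of dropping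
  set x₁ := Real.sqrt ((1 / 2) ^ ℓ) with hx₁
  set x₂ := Real.sqrt (Real.exp (-(β / (1 + lam)) * Λ₄)) with hx₂
  have hx₁0 : 0 ≤ x₁ := Real.sqrt_nonneg _
  have hx₂0 : 0 ≤ x₂ := Real.sqrt_nonneg _
  have hΛ4' : (1 : ℝ) ≤ Λ₄ := by exact_mod_cast hΛ4
  have hcost : ∀ γ ∈ G₁, Real.sqrt (Ex fun x =>
        ‖act (cj C (dl (g γ))) (act (dg (rf h K)) (uv V (msk I x)))‖ ^ 2) ≤
      (g γ ∩ I).card * x₁ + (∑ q ∈ g γ ∩ LW, ee V q) / Λ₄ * x₂ := by
    intro γ hγ
    rw [hG₁, Finset.mem_filter] at hγ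
    have hE0 : 0 ≤ ∑ q ∈ g γ ∩ LW, ee V q := Finset.sum_nonneg fun q _ => ee_nonneg V q
    by_cases hc : (g γ ∩ I).card ≤ ℓ
    · have hE : (Λ₄ : ℝ) < ∑ q ∈ g γ ∩ LW, ee V q := by
        by_contra hcon
        push Not at hcon
        exact hγ.2 ⟨hc, hcon⟩
      have h1 : (Ex fun x => ‖act (cj C (dl (g γ))) (act (dg (rf h K)) (uv V (msk I x)))‖ ^ 2) ≤
          Real.exp (-(β / (1 + lam)) * Λ₄) := by
        calc _ ≤ Ex fun x => ‖act (cj C (dl (g γ ∩ LW)))
                (act (dg (rf h K)) (uv V (msk I x)))‖ ^ 2 :=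
              Ex_mono fun x => norm_dl_mono hC Finset.inter_subset_left _
          _ ≤ Real.exp (-(β / (1 + lam)) * ∑ q ∈ g γ ∩ LW, ee V q) := by
              apply ex_gate_dead hV hC hh (I := I)
                (Finset.disjoint_of_subset_left Finset.inter_subset_right hLWI) hβ0.le hlam0
              intro q hq
              have hqLW := (Finset.mem_inter.mp hq).2
              rw [hLW, Finset.mem_biUnion] at hqLW
              obtain ⟨i, hi, hqi⟩ := hqLW
              obtain ⟨j, hj, hij, h1, h2, h3, h4⟩ := hBfact i hi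
              rw [h1] at hqi
              exact ⟨j, hj, Finset.mem_of_mem_erase hqi, i, hij, hBI hi, h2, h3, h4⟩
          _ ≤ _ := by
              apply Real.exp_le_exp.mpr
              have : 0 ≤ β / (1 + lam) := by positivity
              nlinarith
      have h2 : 1 ≤ (∑ q ∈ g γ ∩ LW, ee V q) / Λ₄ := by
        rw [one_le_div (by linarith)]
        exact hE.le
      calc _ ≤ x₂ := Real.sqrt_le_sqrt h1
        _ ≤ (∑ q ∈ g γ ∩ LW, ee V q) / Λ₄ * x₂ := by nlinarith
        _ ≤ _ := by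
            have : 0 ≤ ((g γ ∩ I).card : ℝ) * x₁ := by positivity
            linarith
    · push Not at hc
      have h1 : (Ex fun x => ‖act (cj C (dl (g γ))) (act (dg (rf h K)) (uv V (msk I x)))‖ ^ 2) ≤
          (1 / 2) ^ ℓ := by
        calc _ ≤ Ex fun x => ‖act (cj C (dl (g γ ∩ I)))
                (act (dg (rf h K)) (uv V (msk I x)))‖ ^ 2 :=
              Ex_mono fun x => norm_dl_mono hC Finset.inter_subset_left _
          _ = (1 / 2) ^ (g γ ∩ I).card := by
              apply ex_gate_live hV hC hh Finset.inter_subset_right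
              intro j hj
              refine (Finset.card_le_card ?_).trans (hK j hj)
              intro q hq
              rw [Finset.mem_inter, Finset.mem_inter] at hq
              exact Finset.mem_inter.mpr ⟨hq.1, hq.2.2⟩
          _ ≤ (1 / 2) ^ ℓ := pow_le_pow_of_le_one (by norm_num) (by norm_num) hc.le
      have h2 : (1 : ℝ) ≤ (g γ ∩ I).card := by exact_mod_cast (by omega : 1 ≤ (g γ ∩ I).card)
      calc _ ≤ x₁ := Real.sqrt_le_sqrt h1
        _ ≤ (g γ ∩ I).card * x₁ := by nlinarith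
        _ ≤ _ := by
            have : 0 ≤ (∑ q ∈ g γ ∩ LW, ee V q) / Λ₄ * x₂ := by positivity
            linarith
  have hdrop : |cc V C D h g S I K G - cc V C D h g S I K G₀| ≤
      4 * (I.card * x₁ + I.card * lam / Λ₄ * x₂) := by
    have h1 := cc_drop_gates hV hC hD h g S I K G₀ G₁ hGd
    rw [hGU] at h1
    refine h1.trans ?_
    apply mul_le_mul_of_nonneg_left _ (by norm_num)
    refine (Finset.sum_le_sum hcost).trans ?_
    rw [Finset.sum_add_distrib, ← Finset.sum_mul, ← Finset.sum_mul, ← Finset.sum_div]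
    have h2 : (∑ γ ∈ G₁, ((g γ ∩ I).card : ℝ)) ≤ I.card := by
      exact_mod_cast sum_card_inter_le hg I
    have h3 : ∑ γ ∈ G₁, ∑ q ∈ g γ ∩ LW, ee V q ≤ I.card * lam :=
      (sum_sum_inter_le hg LW (ee_nonneg V)).trans hLWsum
    apply add_le_add
    · exact mul_le_mul_of_nonneg_right h2 hx₁0
    · apply mul_le_mul_of_nonneg_right _ hx₂0
      exact div_le_div_of_nonneg_right h3 (by linarith)
  -- the core estimate
  have hcore : (I.card : ℝ) * |cc V C D h g S I K G₀| ≤
      ℓ + 2 * I.card * Real.sqrt β +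
        (1 / 2) * Real.sqrt (I.card * (64 * lam * (((2 * Λ₄ + 1 : ℕ) : ℝ) + 1) * (1 + 2 * ℓ))) := by
    unfold cc
    apply core_bound hV hC hD hh hg (B := B) (LW := LW) (Del := dels h K g G₀)
      (b := mates h K) (K₀ := 2 * Λ₄ + 1) hBI hLWI
    · exact dels_count hh hg hℓ hK (fun γ hγ => (Finset.mem_filter.mp hγ).2.1)
    · intro i _
      rw [mem_dels]
      exact Or.inl rfl
    · intro i _ γ hγ
      exact dels_gate hg hγ
    · intro i hi
      obtain ⟨j, hj, hij, h1, _⟩ := hBfact i hi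
      exact ⟨j, hj, hij, h1⟩
    · intro i hi
      exact Finset.subset_biUnion_of_mem (mates h K) hi
    · intro i hi i' hi' hne
      obtain ⟨j, hj, hij, h1, _⟩ := hBfact i hi
      obtain ⟨j', hj', hij', h1', _⟩ := hBfact i' hi'
      rw [h1, h1']
      by_cases hjj : j = j'
      · exfalso
        subst hjj
        have := hK j hj
        rw [Finset.card_le_one] at this
        exact hne (this i (Finset.mem_inter.mpr ⟨hij, hBI hi⟩) i'
          (Finset.mem_inter.mpr ⟨hij', hBI hi'⟩))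
      · exact Finset.disjoint_of_subset_left (Finset.erase_subset _ _)
          (Finset.disjoint_of_subset_right (Finset.erase_subset _ _) (hh j j' hjj))
    · intro i hi q hq
      by_cases hex : ∃ γ ∈ G₀, q ∈ g γ
      · exact Or.inr hex
      · push Not at hex
        left
        obtain ⟨j, hj, hij, h1, _⟩ := hBfact i hi
        rw [h1] at hq
        rw [mem_dels]
        exact Or.inr (Or.inr ⟨hex, j, hj, hij, Finset.mem_of_mem_erase hq⟩)
    · intro γ hγ
      have hE := (Finset.mem_filter.mp hγ).2.2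
      have h1 : ∏ q ∈ g γ ∩ LW, (1 + ee V q) ≤ Real.exp (∑ q ∈ g γ ∩ LW, ee V q) := by
        rw [Real.exp_sum]
        apply Finset.prod_le_prod
        · intro q _
          linarith [ee_nonneg V q]
        · intro q _
          linarith [Real.add_one_le_exp (ee V q)]
      have h2 : Real.exp (∑ q ∈ g γ ∩ LW, ee V q) ≤ Real.exp Λ₄ := Real.exp_le_exp.mpr hE
      have h3 : Real.exp (Λ₄ : ℝ) ≤ 4 ^ Λ₄ := by
        have h4 : Real.exp (Λ₄ : ℝ) = Real.exp 1 ^ Λ₄ := by
          rw [← Real.exp_nat_mul, mul_one]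
        rw [h4]
        apply pow_le_pow_left₀ (Real.exp_pos _).le
        linarith [Real.exp_one_lt_d9]
      have h5 : (2 : ℝ) ^ (2 * Λ₄ + 1) = 2 * 4 ^ Λ₄ := by
        rw [pow_succ, pow_mul]
        norm_num
        ring
      rw [h5]
      linarith
    · exact hlam0
    · intro i hi
      obtain ⟨j, _, _, h1, _, _, h4⟩ := hBfact i hi
      rw [h1]
      exact h4
    · exact hβ0.le
    · intro i hiI hiB j hj hij
      refine ⟨erase_disjoint_of_card (hK j hj) hij hiI, ?_⟩
      by_contra hcon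
      push Not at hcon
      exact hiB (Finset.mem_filter.mpr ⟨hiI, j, hj, hij, hcon.le⟩)
  have hfin : |cc V C D h g S I K G| ≤ |cc V C D h g S I K G₀| +
      4 * (I.card * x₁ + I.card * lam / Λ₄ * x₂) := by
    have := abs_sub_abs_le_abs_sub (cc V C D h g S I K G) (cc V C D h g S I K G₀)
    linarith
  have hcast : (((2 * Λ₄ + 1 : ℕ) : ℝ) + 1) = 2 * Λ₄ + 2 := by push_cast; ring
  rw [hcast] at hcore
  calc (I.card : ℝ) * |cc V C D h g S I K G| ≤ I.card * (|cc V C D h g S I K G₀| +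
        4 * (I.card * x₁ + I.card * lam / Λ₄ * x₂)) :=
        mul_le_mul_of_nonneg_left hfin (by positivity)
    _ = I.card * |cc V C D h g S I K G₀| +
        I.card * (4 * (I.card * x₁ + I.card * lam / Λ₄ * x₂)) := by ring
    _ ≤ _ := by linarith

end

end Vale.Agent.P368
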