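import Vale.Agent.Lib.P368.DepthOne

open Matrix Finset
open scoped ComplexOrder

set_option linter.unusedSectionVars false

namespace Vale.Agent.P368

variable {Q : Type} [Fintype Q] [DecidableEq Q]

/-- product unitary -/
def IsPU (U : Q → M2) : Prop := ∀ q, (U q)ᴴ * U q = 1 ∧ U q * (U q)ᴴ = 1

lemma IsPU.mul {U V : Q → M2} (hU : IsPU U) (hV : IsPU V) : IsPU (fun q => U q * V q) := by
  intro q
  constructor
  · rw [Matrix.conjTranspose_mul, show (V q)ᴴ * (U q)ᴴ * (U q * V q) =
      (V q)ᴴ * ((U q)ᴴ * U q) * V q by simp only [mul_assoc], (hU q).1, mul_one, (hV q).1]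
  · rw [Matrix.conjTranspose_mul, show U q * V q * ((V q)ᴴ * (U q)ᴴ) =
      U q * (V q * (V q)ᴴ) * (U q)ᴴ by simp only [mul_assoc], (hV q).2, mul_one, (hU q).2]

lemma IsPU.star {U : Q → M2} (hU : IsPU U) : IsPU (fun q => (U q)ᴴ) := by
  intro q
  simp only [Matrix.conjTranspose_conjTranspose]
  exact ⟨(hU q).2, (hU q).1⟩

lemma IsPU.top_left {U : Q → M2} (hU : IsPU U) : (top U)ᴴ * top U = 1 := by
  rw [top_conjTranspose, top_mul, ← top_one]
  congr 1
  funext q
  exact (hU q).1

lemma IsPU.top_right {U : Q → M2} (hU : IsPU U) : top U * (top U)ᴴ = 1 := by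
  rw [top_conjTranspose, top_mul, ← top_one]
  congr 1
  funext q
  exact (hU q).2

lemma isPU_one : IsPU (fun _ : Q => (1 : M2)) := by
  intro q
  simp

lemma IsRP.conj_unitary {P U : M2} (hP : IsRP P) (hU : Uᴴ * U = 1 ∧ U * Uᴴ = 1) :
    IsRP (Uᴴ * P * U) := by
  refine ⟨?_, ?_, ?_⟩
  · rw [Matrix.conjTranspose_mul, Matrix.conjTranspose_mul, hP.1,
      Matrix.conjTranspose_conjTranspose, mul_assoc]
  · rw [show Uᴴ * P * U * (Uᴴ * P * U) = Uᴴ * P * (U * Uᴴ) * P * U by simp only [mul_assoc],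
      hU.2, mul_one, mul_assoc Uᴴ P P, hP.2.1]
  · rw [Matrix.trace_mul_comm, ← mul_assoc, hU.2, one_mul, hP.2.2]

lemma IsP01.conj_unitary {P U : M2} (hP : IsP01 P) (hU : Uᴴ * U = 1 ∧ U * Uᴴ = 1) :
    IsP01 (Uᴴ * P * U) := by
  rcases hP with rfl | hP
  · left; rw [mul_one, hU.1]
  · exact Or.inr (hP.conj_unitary hU)

lemma topOn_mul_topU {U : Q → M2} (hU : IsPU U) (κ : Q → M2) (S : Finset Q) :
    topOn S κ * top U = top U * topOn S (fun q => (U q)ᴴ * κ q * U q) := by
  rw [topOn_mul_top, top_mul_topOn]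
  congr 1
  funext q
  split_ifs
  · rw [show U q * ((U q)ᴴ * κ q * U q) = U q * (U q)ᴴ * κ q * U q by simp only [mul_assoc],
      (hU q).2, one_mul]
  · rfl

lemma refl_mul_topU {U : Q → M2} (hU : IsPU U) (κ : Q → M2) (S : Finset Q) :
    refl κ S * top U = top U * refl (fun q => (U q)ᴴ * κ q * U q) S := by
  unfold refl
  rw [sub_mul, one_mul, mul_sub, mul_one, smul_mul_assoc, mul_smul_comm, topOn_mul_topU hU]

lemma reflProd_mul_topU {U : Q → M2} (hU : IsPU U) (κ : Q → M2) (L : List (Finset Q)) :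
    reflProd κ L * top U = top U * reflProd (fun q => (U q)ᴴ * κ q * U q) L := by
  induction L with
  | nil => simp [reflProd]
  | cons h L ih =>
    have e1 : ∀ κ : Q → M2, reflProd κ (h :: L) = refl κ h * reflProd κ L := by
      intro κ; simp [reflProd]
    rw [e1, e1, mul_assoc, ih, ← mul_assoc, refl_mul_topU hU, mul_assoc]

lemma reflProd_unitary {κ : Q → M2} (hκ : ∀ q, IsRP (κ q)) (L : List (Finset Q)) :
    (reflProd κ L)ᴴ * reflProd κ L = 1 := by
  induction L with
  | nil => simp [reflProd]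
  | cons h L ih =>
    have e1 : reflProd κ (h :: L) = refl κ h * reflProd κ L := by simp [reflProd]
    rw [e1, Matrix.conjTranspose_mul, refl_conjTranspose fun q => (hκ q).1,
      show (reflProd κ L)ᴴ * refl κ h * (refl κ h * reflProd κ L) =
        (reflProd κ L)ᴴ * (refl κ h * refl κ h) * reflProd κ L by simp only [mul_assoc],
      refl_mul_self fun q => (hκ q).2.1, mul_one, ih]

/-- matrices of circuits with `d` layers of reflections about product states -/
inductive NF : ℕ → MQ Q → Prop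
  | zero (U : Q → M2) (hU : IsPU U) : NF 0 (top U)
  | succ (d : ℕ) (M : MQ Q) (U κ : Q → M2) (L : List (Finset Q)) (hM : NF d M) (hU : IsPU U)
      (hκ : ∀ q, IsRP (κ q)) (hL : L.Pairwise Disjoint) : NF (d + 1) (top U * reflProd κ L * M)

lemma NF.pu_mul {d : ℕ} {M : MQ Q} (h : NF d M) {U : Q → M2} (hU : IsPU U) :
    NF d (top U * M) := by
  cases h with
  | zero V hV => rw [top_mul]; exact NF.zero _ (hU.mul hV)
  | succ d M V κ L hM hV hκ hL =>
    rw [← mul_assoc, ← mul_assoc, top_mul]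
    exact NF.succ d M _ κ L hM (hU.mul hV) hκ hL

/-- the projector on the basis state `b` -/
def basisP (b : Bool) : M2 := Matrix.of fun i j => if i = b ∧ j = b then 1 else 0

lemma isRP_basisP (b : Bool) : IsRP (basisP b) := by
  refine ⟨?_, ?_, ?_⟩
  · ext i j
    cases b <;> cases i <;> cases j <;> simp [basisP]
  · ext i j
    cases b <;> cases i <;> cases j <;> simp [basisP, Matrix.mul_apply]
  · cases b <;> simp [basisP, Matrix.trace]

lemma NF.succ_of {d : ℕ} {M : MQ Q} (h : NF d M) : NF (d + 1) M := by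
  have := NF.succ d M (fun _ => 1) (fun _ => basisP false) [] h isPU_one
    (fun _ => isRP_basisP false) List.Pairwise.nil
  rwa [top_one, reflProd, List.map_nil, List.prod_nil, mul_one, one_mul] at this

lemma NF.mono {d e : ℕ} {M : MQ Q} (h : NF d M) (hde : d ≤ e) : NF e M := by
  induction hde with
  | refl => exact h
  | step _ ih => exact ih.succ_of

end Vale.Agent.P368
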