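import Vale.Agent.Lib.P368.Normal

open Matrix Finset
open scoped ComplexOrder

set_option linter.unusedSectionVars false

namespace Vale.Agent.P368

variable {Q : Type} [Fintype Q] [DecidableEq Q]

/-- a traceless selfadjoint two by two matrix is a multiple of a difference of projectors -/
lemma traceless_decomp {B : M2} (hB : Bᴴ = B) (ht : B.trace = 0) {c : ℝ}
    (hc : (B * B).trace = (2 * c : ℝ)) (hc1 : c ≤ 1) :
    ∃ s : ℝ, 0 ≤ s ∧ s ≤ 1 ∧ ∃ P P' : M2, IsRP P ∧ IsRP P' ∧ B = (s : ℂ) • (P - P') := by
  have e1 : B true true = - B false false := by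
    have := ht
    simp only [Matrix.trace, Matrix.diag_apply, Fintype.sum_bool] at this
    linear_combination this
  have e2 : star (B false true) = B true false := by
    have := congrFun (congrFun hB true) false
    simpa [Matrix.conjTranspose_apply] using this
  have e3 : star (B false false) = B false false := by
    have := congrFun (congrFun hB false) false
    simpa [Matrix.conjTranspose_apply] using this
  set t : ℝ := ‖B false false‖ ^ 2 + ‖B false true‖ ^ 2 with ht_def
  have t0 : 0 ≤ t := by positivity
  have n1 : ((‖B false false‖ ^ 2 : ℝ) : ℂ) = B false false * B false false := by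
    have := Complex.conj_mul' (B false false)
    rw [← RCLike.star_def, e3] at this
    rw [this]; push_cast; rfl
  have n2 : ((‖B false true‖ ^ 2 : ℝ) : ℂ) = B false true * B true false := by
    have := Complex.mul_conj' (B false true)
    rw [← RCLike.star_def, e2] at this
    rw [this]; push_cast; rfl
  have tB : B * B = (t : ℂ) • (1 : M2) := by
    rw [ht_def]
    push_cast
    push_cast at n1 n2
    rw [n1, n2]
    ext i j
    cases i <;> cases j <;> simp [Matrix.mul_apply, e1] <;> ring
  have tc : t = c := by
    rw [tB, Matrix.trace_smul, Matrix.trace_one] at hc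
    have : ((t * 2 : ℝ) : ℂ) = (2 * c : ℝ) := by
      rw [← hc]; simp
    have : t * 2 = 2 * c := by exact_mod_cast this
    linarith
  refine ⟨Real.sqrt t, Real.sqrt_nonneg t, Real.sqrt_le_one.mpr (tc ▸ hc1), ?_⟩
  rcases eq_or_lt_of_le t0 with h0 | hpos
  · refine ⟨basisP false, basisP false, isRP_basisP _, isRP_basisP _, ?_⟩
    have hs : ‖B false false‖ ^ 2 + ‖B false true‖ ^ 2 = 0 := by rw [← ht_def]; exact h0.symm
    have hz1 : ‖B false false‖ ^ 2 = 0 := by nlinarith [sq_nonneg ‖B false false‖, sq_nonneg ‖B false true‖]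
    have hz2 : ‖B false true‖ ^ 2 = 0 := by nlinarith [sq_nonneg ‖B false false‖, sq_nonneg ‖B false true‖]
    have z1 : B false false = 0 := by simpa using hz1
    have z2 : B false true = 0 := by simpa using hz2
    rw [sub_self, smul_zero]
    ext i j
    cases i <;> cases j
    · simpa using z1
    · simpa using z2
    · rw [← e2, z2]; simp
    · rw [e1, z1]; simp
  · set s := Real.sqrt t with hs
    have sp : 0 < s := Real.sqrt_pos.mpr hpos
    have ss : s * s = t := Real.mul_self_sqrt t0
    have sc : ((s : ℝ) : ℂ) ≠ 0 := by exact_mod_cast sp.ne'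
    set A : M2 := (s : ℂ)⁻¹ • B with hA
    have AA : A * A = 1 := by
      rw [hA, smul_mul_smul_comm, tB, smul_smul]
      have : (s : ℂ)⁻¹ * (s : ℂ)⁻¹ * (t : ℂ) = 1 := by
        rw [← ss]; push_cast; field_simp
      rw [this, one_smul]
    have Ac : Aᴴ = A := by
      rw [hA, Matrix.conjTranspose_smul, hB]
      congr 1
      rw [RCLike.star_def, map_inv₀, Complex.conj_ofReal]
    have At : A.trace = 0 := by rw [hA, Matrix.trace_smul, ht, smul_zero]
    have gen : ∀ e : ℂ, e = 1 ∨ e = -1 → IsRP ((1 / 2 : ℂ) • (1 + e • A)) := by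
      intro e he
      have hee : e * e = 1 := by rcases he with rfl | rfl <;> norm_num
      have hec : star e = e := by rcases he with rfl | rfl <;> simp
      refine ⟨?_, ?_, ?_⟩
      · rw [Matrix.conjTranspose_smul, Matrix.conjTranspose_add, Matrix.conjTranspose_smul,
          Matrix.conjTranspose_one, Ac, hec]
        congr 1
        simp
      · rw [smul_mul_smul_comm, add_mul, one_mul, mul_add, mul_one, smul_mul_smul_comm, hee,
          one_smul, AA]
        have : (1 : M2) + e • A + (e • A + 1) = (2 : ℂ) • (1 + e • A) := by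
          rw [two_smul]; abel
        rw [this, smul_smul]
        norm_num
      · rw [Matrix.trace_smul, Matrix.trace_add, Matrix.trace_smul, At, Matrix.trace_one]
        simp
    refine ⟨_, _, gen 1 (Or.inl rfl), gen (-1) (Or.inr rfl), ?_⟩
    rw [one_smul, neg_one_smul, ← smul_sub]
    have : (1 : M2) + A - (1 + -A) = (2 : ℂ) • A := by rw [two_smul]; abel
    rw [this, hA, show ((s:ℂ) • (1/2:ℂ) • (2:ℂ) • (s:ℂ)⁻¹ • B) =
      ((s:ℂ) * (1/2) * 2 * (s:ℂ)⁻¹) • B by simp only [smul_smul, mul_assoc]]
    have : (s : ℂ) * (1 / 2) * 2 * (s : ℂ)⁻¹ = 1 := by field_simp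
    rw [this, one_smul]

lemma top_update_smul (Z : Q → M2) (i : Q) (a : ℂ) (A : M2) :
    top (Function.update Z i (a • A)) = a • top (Function.update Z i A) := by
  ext y x
  simp only [top, Matrix.of_apply, Matrix.smul_apply, smul_eq_mul]
  rw [← Finset.mul_prod_erase _ _ (Finset.mem_univ i), ← Finset.mul_prod_erase _ _ (Finset.mem_univ i)]
  simp only [Function.update_self, Matrix.smul_apply, smul_eq_mul]
  rw [mul_assoc]
  congr 2
  apply Finset.prod_congr rfl
  intro q hq
  rw [Function.update_of_ne (Finset.ne_of_mem_erase hq),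
    Function.update_of_ne (Finset.ne_of_mem_erase hq)]

lemma top_update_add (Z : Q → M2) (i : Q) (A B : M2) :
    top (Function.update Z i (A + B)) =
      top (Function.update Z i A) + top (Function.update Z i B) := by
  ext y x
  simp only [top, Matrix.of_apply, Matrix.add_apply]
  rw [← Finset.mul_prod_erase _ _ (Finset.mem_univ i), ← Finset.mul_prod_erase _ _ (Finset.mem_univ i),
    ← Finset.mul_prod_erase (a := i) _ (fun q => Function.update Z i B q (y q) (x q)) (Finset.mem_univ i)]
  simp only [Function.update_self, Matrix.add_apply]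
  rw [add_mul]
  congr 2
  · apply Finset.prod_congr rfl
    intro q hq
    rw [Function.update_of_ne (Finset.ne_of_mem_erase hq),
      Function.update_of_ne (Finset.ne_of_mem_erase hq)]
  · apply Finset.prod_congr rfl
    intro q hq
    rw [Function.update_of_ne (Finset.ne_of_mem_erase hq),
      Function.update_of_ne (Finset.ne_of_mem_erase hq)]

lemma top_update_sub (Z : Q → M2) (i : Q) (A B : M2) :
    top (Function.update Z i (A - B)) =
      top (Function.update Z i A) - top (Function.update Z i B) := by
  have : A - B = A + (-1 : ℂ) • B := by rw [neg_one_smul]; abel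
  rw [this, top_update_add, top_update_smul, neg_one_smul]
  abel

lemma isPP_update {Y : Q → M2} (hY : IsPP Y) (i : Q) {P : M2} (hP : IsP01 P) :
    IsPP (Function.update Y i P) := by
  intro q
  by_cases hq : q = i
  · subst hq; rw [Function.update_self]; exact hP
  · rw [Function.update_of_ne hq]; exact hY q

/-- differences of product projectors obtained from a one-qubit observable and one layer -/
def ObsForm (S : Finset Q) (W : MQ Q) : Prop :=
  ∃ s s' : ℝ, 0 ≤ s ∧ s ≤ 1 ∧ 0 ≤ s' ∧ s' ≤ 1 ∧ ∃ Y₁ Y₂ Y₃ Y₄ : Q → M2,
    IsPP Y₁ ∧ IsPP Y₂ ∧ IsPP Y₃ ∧ IsPP Y₄ ∧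
    (∀ q, q ∉ S → Y₁ q = 1 ∧ Y₂ q = 1 ∧ Y₃ q = 1 ∧ Y₄ q = 1) ∧
    W = (s : ℂ) • (top Y₁ - top Y₂) - (2 * s' : ℂ) • (top Y₃ - top Y₄)

/-- a traceless selfadjoint unitary one-qubit observable -/
def IsObs (O : M2) : Prop := Oᴴ = O ∧ O.trace = 0 ∧ O * O = 1

lemma IsObs.decomp {O : M2} (hO : IsObs O) :
    ∃ s : ℝ, 0 ≤ s ∧ s ≤ 1 ∧ ∃ P P' : M2, IsRP P ∧ IsRP P' ∧ O = (s : ℂ) • (P - P') := by
  refine traceless_decomp (c := 1) hO.1 hO.2.1 ?_ le_rfl
  rw [hO.2.2, Matrix.trace_one]
  simp

lemma obs_anti {O κ : M2} (hO : IsObs O) (hκ : IsRP κ) :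
    ∃ s : ℝ, 0 ≤ s ∧ s ≤ 1 ∧ ∃ P P' : M2, IsRP P ∧ IsRP P' ∧
      κ * O + O * κ - (2 : ℂ) • (κ * O * κ) = (s : ℂ) • (P - P') := by
  obtain ⟨h1, h2, h3⟩ := hO
  have hcomp := hκ.compress O
  -- the number c is real
  have creal : star ((κ * O).trace) = (κ * O).trace := by
    rw [← Matrix.trace_conjTranspose, Matrix.conjTranspose_mul, h1, hκ.1, Matrix.trace_mul_comm]
  set c : ℂ := (κ * O).trace with hc
  obtain ⟨r, hr⟩ : ∃ r : ℝ, c = r := by
    refine ⟨c.re, ?_⟩
    apply Complex.ext
    · simp
    · have := congrArg Complex.im creal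
      simp only [RCLike.star_def, Complex.conj_im] at this
      simp only [Complex.ofReal_im]
      linarith
  have tOk : (O * κ).trace = c := by rw [Matrix.trace_mul_comm]
  refine traceless_decomp (c := 1 - r ^ 2) ?_ ?_ ?_ ?_
  · rw [Matrix.conjTranspose_sub, Matrix.conjTranspose_add, Matrix.conjTranspose_smul,
      Matrix.conjTranspose_mul, Matrix.conjTranspose_mul, Matrix.conjTranspose_mul,
      Matrix.conjTranspose_mul, h1, hκ.1, star_ofNat, mul_assoc]
    abel
  · rw [Matrix.trace_sub, Matrix.trace_add, Matrix.trace_smul, hcomp, Matrix.trace_smul, hκ.2.2,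
      tOk, ← hc, smul_eq_mul, smul_eq_mul]
    ring
  · rw [hcomp]
    have e1 : κ * O * (κ * O) = c • (κ * O) := by
      rw [show κ * O * (κ * O) = κ * O * κ * O by simp only [mul_assoc], hcomp, smul_mul_assoc]
    have e2 : κ * O * (O * κ) = κ := by
      rw [show κ * O * (O * κ) = κ * (O * O) * κ by simp only [mul_assoc], h3, mul_one, hκ.2.1]
    have e3 : O * κ * (κ * O) = O * κ * O := by
      rw [show O * κ * (κ * O) = O * (κ * κ) * O by simp only [mul_assoc], hκ.2.1]
    have e4 : O * κ * (O * κ) = c • (O * κ) := by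
      rw [show O * κ * (O * κ) = O * (κ * O * κ) by simp only [mul_assoc], hcomp, mul_smul_comm]
    have e5 : κ * O * κ = c • κ := hcomp
    have e6 : O * κ * κ = O * κ := by rw [mul_assoc, hκ.2.1]
    have e7 : κ * (κ * O) = κ * O := by rw [← mul_assoc, hκ.2.1]
    have e8 : κ * (O * κ) = c • κ := by rw [← mul_assoc, hcomp]
    have t1 : (O * κ * O).trace = 1 := by
      rw [mul_assoc, Matrix.trace_mul_comm, mul_assoc, h3, mul_one, hκ.2.2]
    have ex : (κ * O + O * κ - (2 : ℂ) • c • κ) * (κ * O + O * κ - (2 : ℂ) • c • κ) =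
        c • (κ * O) + κ + O * κ * O + c • (O * κ)
          - (2 * c) • (κ * O) - (2 * c) • (O * κ) - (2 * c * c) • κ - (2 * c * c) • κ
          + (4 * c * c) • κ := by
      simp only [smul_smul]
      simp only [sub_mul, mul_sub, add_mul, mul_add, smul_mul_assoc, mul_smul_comm, e1, e2, e3,
        e4, e5, e6, e7, e8, hκ.2.1, smul_smul]
      module
    rw [ex]
    simp only [Matrix.trace_add, Matrix.trace_sub, Matrix.trace_smul, t1, tOk, ← hc, hκ.2.2,
      smul_eq_mul]
    rw [hr]
    push_cast
    ring
  · nlinarith [sq_nonneg r]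

lemma topOn_singleton (i : Q) (A : Q → M2) :
    topOn {i} A = top (Function.update (fun _ => 1) i (A i)) := by
  unfold topOn
  congr 1
  funext q
  by_cases hq : q = i
  · subst hq; simp
  · simp [hq]

lemma obsForm_base {O : M2} (hO : IsObs O) (i : Q) : ObsForm {i} (at1 i O) := by
  obtain ⟨s, s0, s1, P, P', hP, hP', e⟩ := hO.decomp
  have h1 : IsPP (fun _ : Q => (1 : M2)) := fun _ => Or.inl rfl
  refine ⟨s, 0, s0, s1, le_rfl, zero_le_one, Function.update (fun _ => 1) i P,
    Function.update (fun _ => 1) i P', fun _ => 1, fun _ => 1, isPP_update h1 i (Or.inr hP),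
    isPP_update h1 i (Or.inr hP'), h1, h1, ?_, ?_⟩
  · intro q hq
    have : q ≠ i := by simpa using hq
    simp [Function.update_of_ne this]
  · unfold at1
    rw [topOn_singleton, e, top_update_smul, top_update_sub]
    simp

lemma obsForm_block {O : M2} (hO : IsObs O) {i : Q} {κ : Q → M2} (hκ : ∀ q, IsRP (κ q))
    {S : Finset Q} (hi : i ∈ S) : ObsForm S (refl κ S * at1 i O * refl κ S) := by
  obtain ⟨s, s0, s1, P, P', hP, hP', e⟩ := hO.decomp
  obtain ⟨t, t0, t1, R, R', hR, hR', e'⟩ := obs_anti hO (hκ i)
  have h1 : IsPP (fun _ : Q => (1 : M2)) := fun _ => Or.inl rfl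
  set Z : Q → M2 := fun q => if q ∈ S then κ q else 1 with hZ
  have hZp : IsPP Z := by
    intro q
    by_cases hq : q ∈ S
    · simp only [hZ, hq, if_true]; exact Or.inr (hκ q)
    · simp only [hZ, hq, if_false]; exact Or.inl rfl
  refine ⟨s, t, s0, s1, t0, t1, Function.update (fun _ => 1) i P,
    Function.update (fun _ => 1) i P', Function.update Z i R, Function.update Z i R',
    isPP_update h1 i (Or.inr hP),
    isPP_update h1 i (Or.inr hP'), isPP_update hZp i (Or.inr hR),
    isPP_update hZp i (Or.inr hR'), ?_, ?_⟩
  · intro q hq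
    have : q ≠ i := fun h => hq (h ▸ hi)
    simp [Function.update_of_ne this, hZ, hq]
  · unfold at1
    rw [topOn_singleton, refl_conj_top]
    have f2 : (fun q => if q ∈ S then κ q * Function.update (fun _ => (1 : M2)) i O q
        else Function.update (fun _ => (1 : M2)) i O q) = Function.update Z i (κ i * O) := by
      funext q
      by_cases hq : q = i
      · subst hq; simp [hi]
      · by_cases hS : q ∈ S <;> simp [Function.update_of_ne hq, hS, hZ]
    have f3 : (fun q => if q ∈ S then Function.update (fun _ => (1 : M2)) i O q * κ q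
        else Function.update (fun _ => (1 : M2)) i O q) = Function.update Z i (O * κ i) := by
      funext q
      by_cases hq : q = i
      · subst hq; simp [hi]
      · by_cases hS : q ∈ S <;> simp [Function.update_of_ne hq, hS, hZ]
    have f4 : (fun q => if q ∈ S then κ q * Function.update (fun _ => (1 : M2)) i O q * κ q
        else Function.update (fun _ => (1 : M2)) i O q) = Function.update Z i (κ i * O * κ i) := by
      funext q
      by_cases hq : q = i
      · subst hq; simp [hi]
      · by_cases hS : q ∈ S
        · simp [Function.update_of_ne hq, hS, hZ, (hκ q).2.1]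
        · simp [Function.update_of_ne hq, hS, hZ]
    rw [f2, f3, f4]
    have g : (2 : ℂ) • top (Function.update Z i (κ i * O)) + (2 : ℂ) • top (Function.update Z i (O * κ i))
        - (4 : ℂ) • top (Function.update Z i (κ i * O * κ i)) =
        (2 * t : ℂ) • (top (Function.update Z i R) - top (Function.update Z i R')) := by
      have := congrArg (fun A => (2 : ℂ) • top (Function.update Z i A)) e'
      simp only [top_update_sub, top_update_add, top_update_smul] at this
      rw [smul_sub, smul_add, smul_smul, smul_smul] at this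
      rw [← this]
      norm_num
    have g1 : top (Function.update (fun _ => (1 : M2)) i O) = (s : ℂ) •
        (top (Function.update (fun _ => 1) i P) - top (Function.update (fun _ => 1) i P')) := by
      conv_lhs => rw [e]
      rw [top_update_smul, top_update_sub]
    rw [← g, ← g1]
    abel

/-- conjugating a one-qubit observable by a layer of reflections -/
theorem obsForm_layer {O : M2} (hO : IsObs O) (i : Q) {κ : Q → M2} (hκ : ∀ q, IsRP (κ q))
    (L : List (Finset Q)) (hL : L.Pairwise Disjoint) :
    ∃ S : Finset Q, ObsForm S ((reflProd κ L)ᴴ * at1 i O * reflProd κ L) := by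
  induction L with
  | nil =>
    refine ⟨{i}, ?_⟩
    simpa [reflProd] using obsForm_base hO i
  | cons h L ih =>
    rw [List.pairwise_cons] at hL
    obtain ⟨hd, hL⟩ := hL
    have e1 : reflProd κ (h :: L) = refl κ h * reflProd κ L := by simp [reflProd]
    rw [e1, Matrix.conjTranspose_mul, refl_conjTranspose fun q => (hκ q).1,
      show (reflProd κ L)ᴴ * refl κ h * at1 i O * (refl κ h * reflProd κ L) =
        (reflProd κ L)ᴴ * (refl κ h * at1 i O * refl κ h) * reflProd κ L by
          simp only [mul_assoc]]
    by_cases hi : i ∈ h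
    · refine ⟨h, ?_⟩
      obtain hW := obsForm_block hO hκ hi
      have comm : (reflProd κ L)ᴴ * (refl κ h * at1 i O * refl κ h) * reflProd κ L =
          refl κ h * at1 i O * refl κ h := by
        obtain ⟨s, s', _, _, _, _, Y₁, Y₂, Y₃, Y₄, _, _, _, _, hY, hWe⟩ := hW
        have cm : ∀ Y : Q → M2, (∀ q, q ∉ h → Y q = 1) → Commute (top Y) (reflProd κ L) := by
          intro Y hY
          clear ih e1 hL
          induction L with
          | nil => simp [reflProd]
          | cons b L ih2 =>
            have e2 : reflProd κ (b :: L) = refl κ b * reflProd κ L := by simp [reflProd]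
            rw [e2]
            refine Commute.mul_right ?_ (ih2 fun h' hh' => hd h' (by simp [hh']))
            unfold refl
            refine (Commute.one_right _).sub_right (Commute.smul_right ?_ _)
            apply Commute.symm
            apply topOn_commute_top
            intro q hq
            have : q ∉ h := Finset.disjoint_right.mp (hd b (by simp)) hq
            rw [hY q this]
            exact Commute.one_right _
        have cW : Commute (refl κ h * at1 i O * refl κ h) (reflProd κ L) := by
          rw [hWe]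
          refine Commute.sub_left (Commute.smul_left (Commute.sub_left ?_ ?_) _)
            (Commute.smul_left (Commute.sub_left ?_ ?_) _)
          · exact cm Y₁ fun q hq => (hY q hq).1
          · exact cm Y₂ fun q hq => (hY q hq).2.1
          · exact cm Y₃ fun q hq => (hY q hq).2.2.1
          · exact cm Y₄ fun q hq => (hY q hq).2.2.2
        rw [mul_assoc, cW.eq, ← mul_assoc, reflProd_unitary hκ, one_mul]
      rw [comm]
      exact hW
    · have c1 : refl κ h * at1 i O * refl κ h = at1 i O := by
        have : Commute (refl κ h) (at1 i O) := by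
          unfold refl at1
          refine (Commute.one_left _).sub_left (Commute.smul_left ?_ _)
          apply topOn_commute_topOn
          rw [Finset.disjoint_singleton_right]
          exact hi
        rw [this.eq, mul_assoc, refl_mul_self fun q => (hκ q).2.1, mul_one]
      rw [c1]
      exact ih hL

end Vale.Agent.P368
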