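import Vale.Agent.Lib.P368.Top

open Matrix Finset
open scoped ComplexOrder

set_option linter.unusedSectionVars false

namespace Vale.Agent.P368

variable {Q : Type} [Fintype Q] [DecidableEq Q]

/-- rank one orthogonal projector on one qubit -/
def IsRP (P : M2) : Prop := Pᴴ = P ∧ P * P = P ∧ P.trace = 1

/-- reflection about the product state `κ` on `S` -/
def refl (κ : Q → M2) (S : Finset Q) : MQ Q := 1 - (2 : ℂ) • topOn S κ

/-- product of reflections -/
def reflProd (κ : Q → M2) (L : List (Finset Q)) : MQ Q := (L.map (refl κ)).prod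

/-- union of a list of sets of qubits -/
def cov : List (Finset Q) → Finset Q
  | [] => ∅
  | h :: L => h ∪ cov L

@[simp] lemma cov_nil : cov ([] : List (Finset Q)) = ∅ := rfl
@[simp] lemma cov_cons (h : Finset Q) (L : List (Finset Q)) : cov (h :: L) = h ∪ cov L := rfl

lemma subset_cov {h : Finset Q} {L : List (Finset Q)} (hh : h ∈ L) : h ⊆ cov L := by
  induction L with
  | nil => simp at hh
  | cons a L ih =>
    rcases List.mem_cons.mp hh with rfl | h'
    · exact Finset.subset_union_left
    · exact (ih h').trans Finset.subset_union_right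

lemma disjoint_cov {h : Finset Q} {L : List (Finset Q)} (hd : ∀ h' ∈ L, Disjoint h h') :
    Disjoint h (cov L) := by
  induction L with
  | nil => simp
  | cons a L ih =>
    rw [cov_cons, Finset.disjoint_union_right]
    exact ⟨hd a (by simp), ih fun h' hh' => hd h' (by simp [hh'])⟩

/-- the block factor in the factorisation of a trace -/
noncomputable def blockF (κ Y X : Q → M2) (h : Finset Q) : ℂ :=
  (∏ q ∈ h, (Y q * X q).trace) - 2 * (∏ q ∈ h, (κ q * Y q * X q).trace)
    - 2 * (∏ q ∈ h, (Y q * κ q * X q).trace) + 4 * ∏ q ∈ h, (κ q * Y q * κ q * X q).trace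

lemma blockF_congr {κ Y X Y' : Q → M2} {h : Finset Q} (hY : ∀ q ∈ h, Y q = Y' q) :
    blockF κ Y X h = blockF κ Y' X h := by
  unfold blockF
  rw [Finset.prod_congr rfl (fun q hq => by rw [hY q hq] : ∀ q ∈ h,
      (Y q * X q).trace = (Y' q * X q).trace),
    Finset.prod_congr rfl (fun q hq => by rw [hY q hq] : ∀ q ∈ h,
      (κ q * Y q * X q).trace = (κ q * Y' q * X q).trace),
    Finset.prod_congr rfl (fun q hq => by rw [hY q hq] : ∀ q ∈ h,
      (Y q * κ q * X q).trace = (Y' q * κ q * X q).trace),
    Finset.prod_congr rfl (fun q hq => by rw [hY q hq] : ∀ q ∈ h,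
      (κ q * Y q * κ q * X q).trace = (κ q * Y' q * κ q * X q).trace)]

lemma refl_conjTranspose {κ : Q → M2} (hκ : ∀ q, (κ q)ᴴ = κ q) (S : Finset Q) :
    (refl κ S)ᴴ = refl κ S := by
  unfold refl topOn
  rw [Matrix.conjTranspose_sub, Matrix.conjTranspose_smul, top_conjTranspose]
  simp only [Matrix.conjTranspose_one, star_ofNat]
  congr 3
  funext q
  split_ifs
  · exact hκ q
  · simp

lemma topOn_mul_self {κ : Q → M2} (hκ : ∀ q, κ q * κ q = κ q) (S : Finset Q) :
    topOn S κ * topOn S κ = topOn S κ := by
  unfold topOn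
  rw [top_mul]
  congr 1
  funext q
  split_ifs
  · exact hκ q
  · simp

lemma refl_mul_self {κ : Q → M2} (hκ : ∀ q, κ q * κ q = κ q) (S : Finset Q) :
    refl κ S * refl κ S = 1 := by
  unfold refl
  have h := topOn_mul_self hκ S
  rw [sub_mul, mul_sub, mul_sub, one_mul, mul_one, smul_mul_smul_comm, h, one_mul]
  rw [show (2:ℂ) * 2 = 2 + 2 by norm_num, add_smul]
  abel

lemma refl_conj_top {κ : Q → M2} (S : Finset Q) (Y : Q → M2) :
    refl κ S * top Y * refl κ S =
      top Y - (2 : ℂ) • top (fun q => if q ∈ S then κ q * Y q else Y q)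
        - (2 : ℂ) • top (fun q => if q ∈ S then Y q * κ q else Y q)
        + (4 : ℂ) • top (fun q => if q ∈ S then κ q * Y q * κ q else Y q) := by
  unfold refl
  rw [sub_mul, one_mul, mul_sub, mul_one, smul_mul_assoc, topOn_mul_top, mul_smul_comm, sub_mul,
    top_mul_topOn, smul_mul_assoc, top_mul_topOn, smul_sub, smul_smul]
  have : (fun q => if q ∈ S then (if q ∈ S then κ q * Y q else Y q) * κ q
      else if q ∈ S then κ q * Y q else Y q) =
      fun q => if q ∈ S then κ q * Y q * κ q else Y q := by
    funext q; split_ifs <;> rfl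
  rw [this]
  norm_num
  abel

/-- factorisation of the trace over the blocks of a layer of reflections -/
theorem trace_reflProd {κ : Q → M2} (hκ : ∀ q, (κ q)ᴴ = κ q) (X : Q → M2)
    (L : List (Finset Q)) (hL : L.Pairwise Disjoint) (Y : Q → M2) :
    (top Y * reflProd κ L * top X * (reflProd κ L)ᴴ).trace =
      (L.map (blockF κ Y X)).prod * ∏ q ∈ (cov L)ᶜ, (Y q * X q).trace := by
  induction L generalizing Y with
  | nil =>
    simp only [reflProd, List.map_nil, List.prod_nil, Matrix.conjTranspose_one, mul_one, one_mul,
      cov_nil, Finset.compl_empty]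
    rw [top_mul, trace_top]
  | cons h L ih =>
    rw [List.pairwise_cons] at hL
    obtain ⟨hd, hL⟩ := hL
    have hdc : Disjoint h (cov L) := disjoint_cov hd
    have e1 : reflProd κ (h :: L) = refl κ h * reflProd κ L := by simp [reflProd]
    rw [e1, Matrix.conjTranspose_mul, refl_conjTranspose hκ]
    have e2 : (top Y * (refl κ h * reflProd κ L) * top X * ((reflProd κ L)ᴴ * refl κ h)).trace
        = ((refl κ h * top Y * refl κ h) * reflProd κ L * top X * (reflProd κ L)ᴴ).trace := by
      rw [← mul_assoc _ _ (refl κ h), Matrix.trace_mul_comm]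
      congr 1
      simp only [mul_assoc]
    rw [e2, refl_conj_top]
    simp only [add_mul, sub_mul, smul_mul_assoc, Matrix.trace_add, Matrix.trace_sub,
      Matrix.trace_smul]
    have key : ∀ Z : Q → M2, (top (fun q => if q ∈ h then Z q else Y q) * reflProd κ L * top X
        * (reflProd κ L)ᴴ).trace = (L.map (blockF κ Y X)).prod *
          (∏ q ∈ (h ∪ cov L)ᶜ, (Y q * X q).trace) * ∏ q ∈ h, (Z q * X q).trace := by
      intro Z
      rw [ih hL]
      have h1 : L.map (blockF κ (fun q => if q ∈ h then Z q else Y q) X) =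
          L.map (blockF κ Y X) := by
        apply List.map_congr_left
        intro h' hh'
        apply blockF_congr
        intro q hq
        have : q ∉ h := Finset.disjoint_right.mp (hd h' hh') hq
        simp [this]
      rw [h1]
      have h2 : (cov L)ᶜ = (h ∪ cov L)ᶜ ∪ h := by
        ext q
        have h4 : q ∈ h → q ∉ cov L := fun hq => Finset.disjoint_left.mp hdc hq
        simp only [Finset.mem_compl, Finset.mem_union]
        tauto
      have h3 : Disjoint (h ∪ cov L)ᶜ h := by
        rw [Finset.disjoint_left]
        intro q hq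
        simp only [Finset.mem_compl, Finset.mem_union, not_or] at hq
        exact hq.1
      rw [h2, Finset.prod_union h3, mul_assoc]
      congr 2
      · apply Finset.prod_congr rfl
        intro q hq
        simp only [Finset.mem_compl, Finset.mem_union, not_or] at hq
        simp [hq.1]
      · apply Finset.prod_congr rfl
        intro q hq
        simp [hq]
    have k1 := key Y
    have k1' : (fun q => if q ∈ h then Y q else Y q) = Y := by funext q; simp
    rw [k1'] at k1
    rw [k1, key (fun q => κ q * Y q), key (fun q => Y q * κ q), key (fun q => κ q * Y q * κ q)]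
    simp only [List.map_cons, List.prod_cons, cov_cons, blockF, smul_eq_mul]
    ring

end Vale.Agent.P368
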