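import Vale.Agent.Lib.P368.Cj

open Matrix Finset
open scoped ComplexOrder

set_option linter.unusedSectionVars false

namespace Vale.Agent.P368

variable {Q : Type} [Fintype Q] [DecidableEq Q]

/-! ### averages over bit strings -/

/-- average over all bit strings -/
noncomputable def Ex (f : (Q → Bool) → ℝ) : ℝ := (1 / 2 : ℝ) ^ Fintype.card Q * ∑ x, f x

lemma Ex_const (c : ℝ) : Ex (fun _ : Q → Bool => c) = c := by
  unfold Ex
  rw [Finset.sum_const, Finset.card_univ, Fintype.card_fun, Fintype.card_bool, nsmul_eq_mul]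
  push_cast
  rw [← mul_assoc, ← mul_pow]
  norm_num

lemma Ex_add (f g : (Q → Bool) → ℝ) : Ex (fun x => f x + g x) = Ex f + Ex g := by
  unfold Ex
  rw [Finset.sum_add_distrib, mul_add]

lemma Ex_sub (f g : (Q → Bool) → ℝ) : Ex (fun x => f x - g x) = Ex f - Ex g := by
  unfold Ex
  rw [Finset.sum_sub_distrib, mul_sub]

lemma Ex_const_mul (c : ℝ) (f : (Q → Bool) → ℝ) : Ex (fun x => c * f x) = c * Ex f := by
  unfold Ex
  rw [← Finset.mul_sum]
  ring

lemma Ex_sum {ι : Type} (s : Finset ι) (f : ι → (Q → Bool) → ℝ) :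
    Ex (fun x => ∑ i ∈ s, f i x) = ∑ i ∈ s, Ex (f i) := by
  unfold Ex
  rw [Finset.sum_comm, Finset.mul_sum]

lemma Ex_mono {f g : (Q → Bool) → ℝ} (h : ∀ x, f x ≤ g x) : Ex f ≤ Ex g := by
  unfold Ex
  exact mul_le_mul_of_nonneg_left (Finset.sum_le_sum fun x _ => h x) (by positivity)

lemma Ex_nonneg {f : (Q → Bool) → ℝ} (h : ∀ x, 0 ≤ f x) : 0 ≤ Ex f := by
  unfold Ex
  exact mul_nonneg (by positivity) (Finset.sum_nonneg fun x _ => h x)

lemma Ex_le_const {f : (Q → Bool) → ℝ} {c : ℝ} (h : ∀ x, f x ≤ c) : Ex f ≤ c := by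
  rw [← Ex_const (Q := Q) c]
  exact Ex_mono h

lemma abs_Ex_le (f : (Q → Bool) → ℝ) : |Ex f| ≤ Ex (fun x => |f x|) := by
  unfold Ex
  rw [abs_mul, abs_of_nonneg (by positivity : (0 : ℝ) ≤ (1 / 2 : ℝ) ^ Fintype.card Q)]
  exact mul_le_mul_of_nonneg_left (Finset.abs_sum_le_sum_abs _ _) (by positivity)

lemma Ex_sq_le (f : (Q → Bool) → ℝ) : (Ex f) ^ 2 ≤ Ex (fun x => f x ^ 2) := by
  have h : 0 ≤ Ex (fun x => (f x - Ex f) ^ 2) := Ex_nonneg fun x => by positivity
  have e : Ex (fun x => (f x - Ex f) ^ 2) = Ex (fun x => f x ^ 2) - (Ex f) ^ 2 := by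
    have e1 : (fun x => (f x - Ex f) ^ 2) =
        fun x => (f x ^ 2 - (2 * Ex f) * f x) + (Ex f) ^ 2 := by
      funext x; ring
    rw [e1, Ex_add, Ex_sub, Ex_const_mul, Ex_const]
    ring
  linarith

lemma Ex_le_sqrt {f : (Q → Bool) → ℝ} : Ex f ≤ Real.sqrt (Ex (fun x => f x ^ 2)) := by
  apply Real.le_sqrt_of_sq_le
  exact Ex_sq_le f

/-- flip one bit -/
def flp (i : Q) (x : Q → Bool) : Q → Bool := Function.update x i (!x i)

lemma flp_flp (i : Q) (x : Q → Bool) : flp i (flp i x) = x := by
  unfold flp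
  simp

lemma Ex_flp (i : Q) (f : (Q → Bool) → ℝ) : Ex (fun x => f (flp i x)) = Ex f := by
  unfold Ex
  congr 1
  exact Fintype.sum_equiv ⟨flp i, flp i, flp_flp i, flp_flp i⟩ _ _ (fun x => rfl)

/-! ### product states -/

/-- basis vector -/
noncomputable def bv (y : Q → Bool) : EQ Q := EuclideanSpace.single y (1 : ℂ)

/-- live mask -/
def msk (I : Finset Q) (x : Q → Bool) : Q → Bool := fun q => if q ∈ I then x q else false

/-- product state -/
noncomputable def uv (V : Q → M2) (y : Q → Bool) : EQ Q := act (top V) (bv y)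

lemma uv_apply (V : Q → M2) (y ω : Q → Bool) : uv V y ω = ∏ q, V q (ω q) (y q) := by
  unfold uv bv
  rw [act_apply, Finset.sum_eq_single y]
  · simp [top_apply]
  · intro z _ hz
    simp [hz]
  · intro h; exact absurd (Finset.mem_univ y) h

lemma norm_uv {V : Q → M2} (hV : IsPU V) (y : Q → Bool) : ‖uv V y‖ = 1 := by
  unfold uv
  rw [norm_act_isom hV.top_left]
  unfold bv
  simp

/-- product formula for the output distribution -/
lemma qf_uv_prod (V : Q → M2) (y : Q → Bool) (F : Q → Bool → ℝ) :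
    qf (fun ω => ∏ q, F q (ω q)) (uv V y) = ∏ q, ∑ b, F q b * ‖V q b (y q)‖ ^ 2 := by
  unfold qf
  rw [Finset.prod_univ_sum, Fintype.piFinset_univ]
  apply Finset.sum_congr rfl
  intro ω _
  rw [uv_apply, norm_prod, ← Finset.prod_pow, ← Finset.prod_mul_distrib]

lemma col_norm {V : M2} (hV : Vᴴ * V = 1) (b : Bool) :
    ‖V false b‖ ^ 2 + ‖V true b‖ ^ 2 = 1 := by
  have h := congrFun (congrFun hV b) b
  simp only [Matrix.mul_apply, Fintype.sum_bool, Matrix.conjTranspose_apply, RCLike.star_def,
    Complex.conj_mul', Matrix.one_apply_eq] at h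
  have h' : ((‖V true b‖ ^ 2 + ‖V false b‖ ^ 2 : ℝ) : ℂ) = ((1 : ℝ) : ℂ) := by
    push_cast
    exact h
  have := Complex.ofReal_injective h'
  linarith

lemma row_norm {V : M2} (hV : V * Vᴴ = 1) (b : Bool) :
    ‖V b false‖ ^ 2 + ‖V b true‖ ^ 2 = 1 := by
  have h := congrFun (congrFun hV b) b
  simp only [Matrix.mul_apply, Fintype.sum_bool, Matrix.conjTranspose_apply, RCLike.star_def,
    Complex.mul_conj', Matrix.one_apply_eq] at h
  have h' : ((‖V b true‖ ^ 2 + ‖V b false‖ ^ 2 : ℝ) : ℂ) = ((1 : ℝ) : ℂ) := by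
    push_cast
    exact h
  have := Complex.ofReal_injective h'
  linarith

lemma conj_basisP_apply (V : M2) (b i j : Bool) :
    (V * basisP b * Vᴴ) i j = V i b * star (V j b) := by
  cases b <;> simp [Matrix.mul_apply, basisP]

/-- trace against a pure product state -/
lemma trace_state (V : Q → M2) (y : Q → Bool) (N : MQ Q) :
    (N * top (fun q => V q * basisP (y q) * (V q)ᴴ)).trace =
      inner ℂ (uv V y) (act N (uv V y)) := by
  simp only [Matrix.trace, Matrix.diag_apply, Matrix.mul_apply, top_apply, PiLp.inner_apply,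
    RCLike.inner_apply, act_apply, uv_apply]
  apply Finset.sum_congr rfl
  intro ω _
  rw [Finset.sum_mul]
  apply Finset.sum_congr rfl
  intro η _
  have e : ∏ q, (V q * basisP (y q) * (V q)ᴴ) (η q) (ω q) =
      (∏ q, V q (η q) (y q)) * (starRingEnd ℂ) (∏ q, V q (ω q) (y q)) := by
    rw [map_prod, ← Finset.prod_mul_distrib]
    apply Finset.prod_congr rfl
    intro q _
    rw [conj_basisP_apply]
    rfl
  have e' : ∏ q, (∑ x, (∑ x_1, V q (η q) x_1 * basisP (y q) x_1 x) * (V q)ᴴ x (ω q)) =
      ∏ q, (V q * basisP (y q) * (V q)ᴴ) (η q) (ω q) := by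
    apply Finset.prod_congr rfl
    intro q _
    simp only [Matrix.mul_apply]
  rw [e', e]; ring

lemma top_smul_prod (c : Q → ℂ) (A : Q → M2) :
    top (fun q => c q • A q) = (∏ q, c q) • top A := by
  ext y x
  simp only [top_apply, Matrix.smul_apply, smul_eq_mul]
  rw [Finset.prod_mul_distrib]

lemma top_expand (A : Q → Bool → M2) :
    top (fun q => A q false + A q true) = ∑ x : Q → Bool, top (fun q => A q (x q)) := by
  ext y z
  rw [Matrix.sum_apply]
  simp only [top_apply]
  have : ∀ q, (A q false + A q true) (y q) (z q) = ∑ b, A q b (y q) (z q) := by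
    intro q
    rw [Fintype.sum_bool, Matrix.add_apply, add_comm]
  simp_rw [this]
  rw [Finset.prod_univ_sum, Fintype.piFinset_univ]

/-- sign of the live bits -/
noncomputable def sgn (I : Finset Q) (x : Q → Bool) : ℝ := ∏ q ∈ I, (if x q then (-1 : ℝ) else 1)

lemma abs_sgn (I : Finset Q) (x : Q → Bool) : |sgn I x| = 1 := by
  unfold sgn
  rw [Finset.abs_prod]
  apply Finset.prod_eq_one
  intro q _
  split_ifs <;> simp

lemma sgn_flp {I : Finset Q} {i : Q} (hi : i ∈ I) (x : Q → Bool) :
    sgn I (flp i x) = - sgn I x := by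
  unfold sgn
  rw [← Finset.mul_prod_erase _ _ hi, ← Finset.mul_prod_erase (a := i) I _ hi]
  have e : ∏ q ∈ I.erase i, (if flp i x q then (-1 : ℝ) else 1) =
      ∏ q ∈ I.erase i, (if x q then (-1 : ℝ) else 1) := by
    apply Finset.prod_congr rfl
    intro q hq
    have := Finset.ne_of_mem_erase hq
    unfold flp
    rw [Function.update_of_ne this]
  rw [e]
  have e2 : flp i x i = !x i := by unfold flp; simp
  rw [e2]
  cases x i <;> simp

/-- the input states defined by a product unitary -/
noncomputable def rhoV (V : Q → M2) (q : Q) (b : Bool) : M2 := V q * basisP b * (V q)ᴴ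

lemma rhoV_add {V : Q → M2} (hV : IsPU V) (q : Q) : rhoV V q false + rhoV V q true = 1 := by
  unfold rhoV
  rw [← add_mul, ← mul_add]
  have : basisP false + basisP true = (1 : M2) := by
    ext i j
    cases i <;> cases j <;> simp [basisP]
  rw [this, mul_one, (hV q).2]

/-- the signed average of the input states as a sum over inputs -/
lemma top_gam (V : Q → M2) (I : Finset Q) :
    top (Gam I (rhoV V)) = ((1 / 2 : ℂ) ^ Fintype.card Q) •
      ∑ x : Q → Bool, (sgn I x : ℂ) • top (fun q => rhoV V q (msk I x q)) := by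
  set c : Q → Bool → ℂ := fun q b => (1 / 2 : ℂ) * (if q ∈ I then (if b then -1 else 1) else 1)
    with hc
  have e1 : Gam I (rhoV V) = fun q => (c q false • rhoV V q (if q ∈ I then false else false)) +
      (c q true • rhoV V q (if q ∈ I then true else false)) := by
    funext q
    by_cases hq : q ∈ I
    · simp only [Gam, hq, if_true, hc]
      rw [smul_sub]
      simp only [Bool.false_eq_true, if_false, mul_one]
      rw [mul_neg_one, neg_smul, sub_eq_add_neg]
    · simp only [Gam, hq, if_false, hc]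
      rw [← add_smul]
      norm_num
  have e2 : top (fun q => (c q false • rhoV V q (if q ∈ I then false else false)) +
      (c q true • rhoV V q (if q ∈ I then true else false))) = _ :=
    top_expand (fun q b => c q b • rhoV V q (if q ∈ I then b else false))
  rw [e1, e2, Finset.smul_sum]
  apply Finset.sum_congr rfl
  intro x _
  rw [top_smul_prod, smul_smul]
  congr 1
  simp only [hc]
  rw [Finset.prod_mul_distrib, Finset.prod_const, Finset.card_univ]
  congr 1
  unfold sgn
  push_cast
  rw [Finset.prod_ite_mem, Finset.univ_inter]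
  apply Finset.prod_congr rfl
  intro q _
  cases x q <;> simp

/-- the average of the input states -/
noncomputable def Xb (I : Finset Q) (ρ : Q → Bool → M2) (q : Q) : M2 :=
  if q ∈ I then (1 / 2 : ℂ) • 1 else ρ q false

lemma top_xb {V : Q → M2} (hV : IsPU V) (I : Finset Q) :
    top (Xb I (rhoV V)) = ((1 / 2 : ℂ) ^ Fintype.card Q) •
      ∑ x : Q → Bool, top (fun q => rhoV V q (msk I x q)) := by
  have e1 : Xb I (rhoV V) = fun q => ((1 / 2 : ℂ) • rhoV V q (if q ∈ I then false else false)) +
      ((1 / 2 : ℂ) • rhoV V q (if q ∈ I then true else false)) := by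
    funext q
    by_cases hq : q ∈ I
    · simp only [Xb, hq, if_true]
      rw [← smul_add, rhoV_add hV]
    · simp only [Xb, hq, if_false]
      rw [← add_smul]
      norm_num
  have e2 : top (fun q => ((1 / 2 : ℂ) • rhoV V q (if q ∈ I then false else false)) +
      ((1 / 2 : ℂ) • rhoV V q (if q ∈ I then true else false))) = _ :=
    top_expand (fun q b => (1 / 2 : ℂ) • rhoV V q (if q ∈ I then b else false))
  rw [e1, e2, Finset.smul_sum]
  apply Finset.sum_congr rfl
  intro x _
  rw [top_smul_prod]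
  congr 1
  rw [Finset.prod_const, Finset.card_univ]

lemma inner_eq_ev {N : MQ Q} (hN : Nᴴ = N) (v : EQ Q) :
    inner ℂ v (act N v) = ((ev N v : ℝ) : ℂ) := by
  unfold ev
  apply Complex.ext
  · simp
  · have : inner ℂ v (act N v) = (starRingEnd ℂ) (inner ℂ v (act N v)) := by
      rw [inner_conj_symm, inner_act, hN]
    have h := congrArg Complex.im this
    simp only [Complex.conj_im] at h
    simp only [Complex.ofReal_im]
    linarith

lemma trace_gam (V : Q → M2) (I : Finset Q) {N : MQ Q} (hN : Nᴴ = N) :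
    (N * top (Gam I (rhoV V))).trace =
      ((Ex fun x => sgn I x * ev N (uv V (msk I x)) : ℝ) : ℂ) := by
  rw [top_gam, mul_smul_comm, Matrix.trace_smul, Finset.mul_sum, Matrix.trace_sum]
  unfold Ex
  push_cast
  rw [smul_eq_mul]
  congr 1
  apply Finset.sum_congr rfl
  intro x _
  rw [mul_smul_comm, Matrix.trace_smul, smul_eq_mul]
  congr 1
  have := trace_state V (msk I x) N
  unfold rhoV
  rw [this, inner_eq_ev hN]

lemma trace_xb {V : Q → M2} (hV : IsPU V) (I : Finset Q) {N : MQ Q} (hN : Nᴴ = N) :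
    (N * top (Xb I (rhoV V))).trace =
      ((Ex fun x => ev N (uv V (msk I x)) : ℝ) : ℂ) := by
  rw [top_xb hV, mul_smul_comm, Matrix.trace_smul, Finset.mul_sum, Matrix.trace_sum]
  unfold Ex
  push_cast
  rw [smul_eq_mul]
  congr 1
  apply Finset.sum_congr rfl
  intro x _
  have := trace_state V (msk I x) N
  unfold rhoV
  rw [this, inner_eq_ev hN]

/-- diagonalisation of the input states -/
lemma exists_rhoV {I : Finset Q} {ρ : Q → Bool → M2} (h : InOK I ρ) :
    ∃ V : Q → M2, IsPU V ∧ Gam I ρ = Gam I (rhoV V) := by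
  choose V hV hρ using fun q => (h.1 q false).exists_unitary
  refine ⟨V, hV, ?_⟩
  funext q
  have e0 : ρ q false = rhoV V q false := hρ q
  unfold Gam
  by_cases hq : q ∈ I
  · have e1 : ρ q true = rhoV V q true := by
      have h1 := h.2 q hq
      have h2 := rhoV_add hV q
      rw [← e0] at h2
      exact add_left_cancel (h1.trans h2.symm)
    rw [if_pos hq, if_pos hq, e0, e1]
  · rw [if_neg hq, if_neg hq, e0]

end Vale.Agent.P368
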