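import Mathlib

open Matrix Finset

set_option linter.unusedSectionVars false

namespace Vale.Agent.P368

variable {Q : Type} [Fintype Q] [DecidableEq Q]

/-- two by two complex matrices, indexed by `Bool` -/
abbrev M2 := Matrix Bool Bool ℂ

/-- operators on the qubits indexed by `Q` -/
abbrev MQ (Q : Type) := Matrix (Q → Bool) (Q → Bool) ℂ

/-- tensor product of one-qubit operators -/
def top (A : Q → M2) : MQ Q := Matrix.of fun y x => ∏ q, A q (y q) (x q)

lemma top_apply (A : Q → M2) (y x : Q → Bool) : top A y x = ∏ q, A q (y q) (x q) := rfl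

lemma top_mul (A B : Q → M2) : top A * top B = top (fun q => A q * B q) := by
  ext y x
  simp only [top, Matrix.mul_apply, Matrix.of_apply]
  simp_rw [← Finset.prod_mul_distrib]
  rw [Finset.prod_univ_sum, Fintype.piFinset_univ]

lemma top_one : top (fun _ : Q => (1 : M2)) = 1 := by
  ext y x
  simp only [top, Matrix.of_apply, Matrix.one_apply]
  by_cases h : y = x
  · subst h; simp
  · rw [if_neg h]
    obtain ⟨q, hq⟩ := Function.ne_iff.mp h
    exact Finset.prod_eq_zero (Finset.mem_univ q) (by simp [hq])

lemma top_conjTranspose (A : Q → M2) : (top A)ᴴ = top (fun q => (A q)ᴴ) := by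
  ext y x
  simp [top, Matrix.conjTranspose_apply]

lemma trace_top (A : Q → M2) : (top A).trace = ∏ q, (A q).trace := by
  simp only [Matrix.trace, Matrix.diag_apply, top, Matrix.of_apply]
  rw [Finset.prod_univ_sum, Fintype.piFinset_univ]

/-- tensor product of one-qubit operators on the qubits of `S`, identity elsewhere -/
def topOn (S : Finset Q) (A : Q → M2) : MQ Q := top (fun q => if q ∈ S then A q else 1)

/-- one-qubit operator -/
def at1 (q : Q) (a : M2) : MQ Q := topOn {q} (fun _ => a)

lemma topOn_mul_top (S : Finset Q) (A B : Q → M2) :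
    topOn S A * top B = top (fun q => if q ∈ S then A q * B q else B q) := by
  unfold topOn
  rw [top_mul]
  congr 1
  funext q
  split_ifs <;> simp

lemma top_mul_topOn (S : Finset Q) (A B : Q → M2) :
    top B * topOn S A = top (fun q => if q ∈ S then B q * A q else B q) := by
  unfold topOn
  rw [top_mul]
  congr 1
  funext q
  split_ifs <;> simp

lemma topOn_congr {S : Finset Q} {A B : Q → M2} (h : ∀ q ∈ S, A q = B q) :
    topOn S A = topOn S B := by
  unfold topOn
  congr 1
  funext q
  split_ifs with hq
  · exact h q hq
  · rfl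

lemma top_commute {A B : Q → M2} (h : ∀ q, Commute (A q) (B q)) : Commute (top A) (top B) := by
  unfold Commute SemiconjBy
  rw [top_mul, top_mul]
  congr 1
  funext q
  exact (h q).eq

lemma topOn_commute_topOn {S T : Finset Q} (h : Disjoint S T) (A B : Q → M2) :
    Commute (topOn S A) (topOn T B) := by
  apply top_commute
  intro q
  by_cases h1 : q ∈ S
  · have h2 : q ∉ T := Finset.disjoint_left.mp h h1
    simp [h1, h2]
  · simp [h1]

lemma topOn_commute_top {S : Finset Q} {A B : Q → M2} (h : ∀ q ∈ S, Commute (A q) (B q)) :
    Commute (topOn S A) (top B) := by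
  apply top_commute
  intro q
  by_cases h1 : q ∈ S
  · simp [h1, h q h1]
  · simp [h1]

end Vale.Agent.P368
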